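import Vale.Agent.P247.H574.Sta2

/-!
# Unfolding: integrals over `ℝ⁴` and integrals over the unit cube
-/

open Set MeasureTheory Filter Topology Metric

noncomputable section

namespace Vale.Agent.P247.H667

open Vale.Agent.P247.H74 Vale.Agent.P247.H574

/-- half open cube -/
def Q4 : Set R4 := Set.pi univ fun _ => Ico (0 : ℝ) 1

theorem Q4_ae : Q4 =ᵐ[volume] Icc (0 : R4) 1 := by
  have := Measure.univ_pi_Ico_ae_eq_Icc (μ := fun _ : Fin 4 => (volume : Measure ℝ))
    (f := (0 : R4)) (g := 1)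
  exact this

theorem measurableSet_Q4 : MeasurableSet Q4 := MeasurableSet.univ_pi fun _ => measurableSet_Ico

/-- translate -/
def Qk (k : Fin 4 → ℤ) : Set R4 := {x | ∀ i, (k i : ℝ) ≤ x i ∧ x i < k i + 1}

theorem measurableSet_Qk (k : Fin 4 → ℤ) : MeasurableSet (Qk k) := by
  have : Qk k = Set.pi univ fun i => Ico (k i : ℝ) (k i + 1) := by
    ext x; simp [Qk, Set.mem_pi]
  rw [this]
  exact MeasurableSet.univ_pi fun _ => measurableSet_Ico

theorem Qk_disj : Pairwise (Function.onFun Disjoint Qk) := by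
  intro k l hkl
  rw [Function.onFun, Set.disjoint_left]
  intro x hx hy
  apply hkl
  funext i
  have h1 := Int.floor_eq_iff.2 (hx i)
  have h2 := Int.floor_eq_iff.2 (hy i)
  rw [← h1, ← h2]

theorem tr_eq (k : Fin 4 → ℤ) (x : R4) : tr k x = x + fun i => (k i : ℝ) := rfl

theorem mp_tr (k : Fin 4 → ℤ) : MeasurePreserving (tr k) volume volume :=
  measurePreserving_add_right volume _

theorem me_tr (k : Fin 4 → ℤ) : MeasurableEmbedding (tr k) :=
  measurableEmbedding_addRight _

theorem preimage_Qk (k : Fin 4 → ℤ) : tr k ⁻¹' Qk k = Q4 := by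
  ext x
  simp only [mem_preimage, Qk, tr, Q4, Set.mem_pi, mem_univ, true_implies, mem_Ico, mem_ofPred_eq]
  refine forall_congr' fun i => ?_
  constructor
  · rintro ⟨h1, h2⟩; constructor <;> linarith
  · rintro ⟨h1, h2⟩; constructor <;> linarith

theorem integral_Qk (k : Fin 4 → ℤ) (h : R4 → ℝ) :
    ∫ x in Qk k, h x = ∫ x in Icc (0 : R4) 1, h (tr k x) := by
  rw [← (mp_tr k).setIntegral_preimage_emb (me_tr k), preimage_Qk, setIntegral_congr_set Q4_ae]

/-- the lattice points with coordinates in `[-N, N]` -/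
def FN (N : ℕ) : Finset (Fin 4 → ℤ) := Fintype.piFinset fun _ => Finset.Icc (-(N : ℤ)) N

theorem mem_FN {N : ℕ} {k : Fin 4 → ℤ} : k ∈ FN N ↔ ∀ i, -(N : ℤ) ≤ k i ∧ k i ≤ N := by
  simp [FN]

theorem ball_subset_Qk (N : ℕ) : closedBall (0 : R4) N ⊆ ⋃ k ∈ FN N, Qk k := by
  intro x hx
  rw [mem_iUnion₂]
  refine ⟨fun i => ⌊x i⌋, ?_, fun i => ⟨Int.floor_le _, Int.lt_floor_add_one _⟩⟩
  rw [mem_FN]
  intro i
  have h1 : |x i| ≤ N := by
    have := norm_le_pi_norm x i
    rw [mem_closedBall_zero_iff] at hx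
    exact this.trans hx
  rw [abs_le] at h1
  constructor
  · apply Int.le_floor.2
    push_cast
    exact h1.1
  · have : ⌊x i⌋ ≤ ⌊(N : ℝ)⌋ := Int.floor_mono h1.2
    simpa using this

theorem far {N : ℕ} {k : Fin 4 → ℤ} (hk : k ∉ FN (N + 1)) {x : R4} (hx : x ∈ Icc (0 : R4) 1) :
    tr k x ∉ closedBall (0 : R4) N := by
  intro h
  apply hk
  rw [mem_FN]
  intro i
  rw [mem_closedBall_zero_iff] at h
  have h1 : |tr k x i| ≤ N := (norm_le_pi_norm (tr k x) i).trans h
  have h2 := hx.1 i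
  have h3 := hx.2 i
  simp only [Pi.zero_apply, Pi.one_apply] at h2 h3
  simp only [tr] at h1
  rw [abs_le] at h1
  constructor
  · have : (-((N : ℝ) + 1)) ≤ k i := by linarith [h1.1]
    exact_mod_cast this
  · have : (k i : ℝ) ≤ N + 1 := by linarith [h1.2]
    exact_mod_cast this

/-- unfolding -/
theorem unfold_int {h : R4 → ℝ} {N : ℕ} (hN : ∀ x ∉ closedBall (0 : R4) N, h x = 0)
    (hi : Integrable h) :
    ∫ x, h x = ∫ x in Icc (0 : R4) 1, ∑ k ∈ FN (N + 1), h (tr k x) := by
  have h1 : ∫ x, h x = ∫ x in ⋃ k ∈ FN (N + 1), Qk k, h x := by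
    rw [setIntegral_eq_integral_of_forall_compl_eq_zero]
    intro x hx
    apply hN
    intro hx'
    exact hx (ball_subset_Qk (N + 1) (closedBall_subset_closedBall (by push_cast; linarith) hx'))
  rw [h1, integral_biUnion_finset _ (fun k _ => measurableSet_Qk k)
    (fun k _ l _ hkl => Qk_disj hkl) (fun k _ => hi.integrableOn)]
  rw [integral_finsetSum]
  · exact Finset.sum_congr rfl fun k _ => integral_Qk k h
  · intro k _
    exact ((mp_tr k).integrable_comp_emb (me_tr k)).2 hi |>.integrableOn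

/-- local bound of periodic densities -/
theorem local_bound {g : R4 → ℝ} (hg : Continuous g) (h0 : ∀ x, 0 ≤ g x)
    (hp : ∀ (k : Fin 4 → ℤ) x, g (tr k x) = g x) (N : ℕ) :
    ∫ x in closedBall (0 : R4) N, g x ≤ (FN N).card * ∫ x in Icc (0 : R4) 1, g x := by
  have hloc : LocallyIntegrable g := hg.locallyIntegrable
  have hiQ : ∀ k, IntegrableOn g (Qk k) := by
    intro k
    have : Qk k ⊆ Icc (fun i => (k i : ℝ)) (fun i => k i + 1) := fun x hx =>
      ⟨fun i => (hx i).1, fun i => (hx i).2.le⟩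
    exact (hg.integrableOn_Icc).mono_set this
  calc ∫ x in closedBall (0 : R4) N, g x ≤ ∫ x in ⋃ k ∈ FN N, Qk k, g x := by
        apply setIntegral_mono_set
        · rw [integrableOn_finset_iUnion]
          exact fun k _ => hiQ k
        · exact Eventually.of_forall h0
        · exact (ball_subset_Qk N).eventuallyLE
    _ = ∑ k ∈ FN N, ∫ x in Qk k, g x :=
        integral_biUnion_finset _ (fun k _ => measurableSet_Qk k)
          (fun k _ l _ hkl => Qk_disj hkl) (fun k _ => hiQ k)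
    _ = ∑ k ∈ FN N, ∫ x in Icc (0 : R4) 1, g x := by
        refine Finset.sum_congr rfl fun k _ => ?_
        rw [integral_Qk]
        simp only [hp]
    _ = _ := by rw [Finset.sum_const, nsmul_eq_mul]

end Vale.Agent.P247.H667
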