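import Mathlib

/-!
# Riesz representation on an open set
-/

open Set MeasureTheory Filter Topology
open scoped CompactlySupported

noncomputable section

namespace Vale.Agent.P247.H667

variable {X : Type*} [TopologicalSpace X]

/-- test functions of an open set -/
structure TF (U : Set X) (f : X → ℝ) : Prop where
  cont : Continuous f
  supp : HasCompactSupport f
  sub : tsupport f ⊆ U

theorem TF.zero_off {U : Set X} {f : X → ℝ} (h : TF U f) {x : X} (hx : x ∉ U) : f x = 0 :=
  image_eq_zero_of_notMem_tsupport fun h' => hx (h.sub h')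

/-- extension by zero -/
def ext0 (U : Set X) (f : C_c(U, ℝ)) : X → ℝ := Subtype.val.extend (f : U → ℝ) 0

theorem ext0_apply (U : Set X) (f : C_c(U, ℝ)) (x : U) : ext0 U f x = f x := by
  unfold ext0
  exact Subtype.val_injective.extend_apply _ _ x

theorem ext0_off (U : Set X) (f : C_c(U, ℝ)) {x : X} (hx : x ∉ U) : ext0 U f x = 0 := by
  unfold ext0
  rw [Function.extend_apply']
  · rfl
  · rintro ⟨y, rfl⟩
    exact hx y.2

variable [T2Space X]

theorem TF_ext0 {U : Set X} (hU : IsOpen U) (f : C_c(U, ℝ)) : TF U (ext0 U f) := by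
  refine ⟨?_, ?_, ?_⟩
  · exact HasCompactSupport.continuous_extend_zero hU f.continuous f.hasCompactSupport
  · exact f.hasCompactSupport.extend_zero continuous_subtype_val
  · refine (f.hasCompactSupport.tsupport_extend_zero_subset continuous_subtype_val).trans ?_
    rintro _ ⟨y, _, rfl⟩
    exact y.2

/-- restriction of a test function -/
def res0 {U : Set X} {f : X → ℝ} (h : TF U f) : C_c(U, ℝ) where
  toFun := fun x => f x
  continuous_toFun := h.cont.comp continuous_subtype_val
  hasCompactSupport' := by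
    have hk : IsCompact ((Subtype.val : U → X) ⁻¹' tsupport f) := by
      rw [Topology.IsInducing.subtypeVal.isCompact_preimage_iff]
      · exact h.supp.isCompact
      · intro x hx
        exact ⟨⟨x, h.sub hx⟩, rfl⟩
    refine HasCompactSupport.intro hk fun x hx => ?_
    exact image_eq_zero_of_notMem_tsupport hx

theorem ext0_res0 {U : Set X} {f : X → ℝ} (h : TF U f) : ext0 U (res0 h) = f := by
  funext x
  by_cases hx : x ∈ U
  · exact ext0_apply U (res0 h) ⟨x, hx⟩
  · rw [ext0_off U _ hx, h.zero_off hx]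

theorem ext0_add {U : Set X} (f g : C_c(U, ℝ)) : ext0 U (f + g) = ext0 U f + ext0 U g := by
  funext x
  rw [Pi.add_apply]
  by_cases hx : x ∈ U
  · have h := fun f => ext0_apply U f ⟨x, hx⟩
    simp only at h
    rw [h, h, h]; rfl
  · rw [ext0_off U _ hx, ext0_off U _ hx, ext0_off U _ hx, add_zero]

theorem ext0_smul {U : Set X} (c : ℝ) (f : C_c(U, ℝ)) : ext0 U (c • f) = c • ext0 U f := by
  funext x
  rw [Pi.smul_apply]
  by_cases hx : x ∈ U
  · have h := fun f => ext0_apply U f ⟨x, hx⟩
    simp only at h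
    rw [h, h]; rfl
  · rw [ext0_off U _ hx, ext0_off U _ hx, smul_zero]

theorem riesz_open [LocallyCompactSpace X] [MeasurableSpace X] [BorelSpace X] {U : Set X}
    (hU : IsOpen U) (Λ : (X → ℝ) → ℝ)
    (hadd : ∀ f g, TF U f → TF U g → Λ (f + g) = Λ f + Λ g)
    (hsmul : ∀ (c : ℝ) f, TF U f → Λ (c • f) = c * Λ f)
    (hpos : ∀ f, TF U f → (∀ x, 0 ≤ f x) → 0 ≤ Λ f)
    {C : ℝ} (hbd : ∀ f, TF U f → (∀ x, |f x| ≤ 1) → Λ f ≤ C) :
    ∃ τ : Measure X, IsFiniteMeasure τ ∧ τ Uᶜ = 0 ∧ ∀ f, TF U f → ∫ x, f x ∂τ = Λ f := by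
  have : LocallyCompactSpace U := hU.locallyCompactSpace
  let L : C_c(U, ℝ) →ₚ[ℝ] ℝ := PositiveLinearMap.mk₀
    { toFun := fun f => Λ (ext0 U f)
      map_add' := fun f g => by
        rw [ext0_add]
        exact hadd _ _ (TF_ext0 hU f) (TF_ext0 hU g)
      map_smul' := fun c f => by
        rw [ext0_smul]
        exact hsmul _ _ (TF_ext0 hU f) }
    (fun f hf => by
      refine hpos _ (TF_ext0 hU f) fun x => ?_
      by_cases hx : x ∈ U
      · have h := ext0_apply U f ⟨x, hx⟩
        simp only at h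
        rw [h]
        exact hf ⟨x, hx⟩
      · rw [ext0_off U _ hx])
  have hL : ∀ f : C_c(U, ℝ), L f = Λ (ext0 U f) := fun f => rfl
  let μ : Measure U := RealRMK.rieszMeasure L
  have hμ : ∀ f : C_c(U, ℝ), ∫ x, f x ∂μ = Λ (ext0 U f) := fun f =>
    (RealRMK.integral_rieszMeasure L f).trans (hL f)
  have hreg : μ.Regular := RealRMK.regular_rieszMeasure L
  have hme : MeasurableEmbedding (Subtype.val : U → X) :=
    MeasurableEmbedding.subtype_coe hU.measurableSet
  -- finiteness
  have hfin : μ univ ≤ ENNReal.ofReal C := by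
    rw [isOpen_univ.measure_eq_iSup_isCompact]
    refine iSup_le fun K => iSup_le fun _ => iSup_le fun hK => ?_
    obtain ⟨g, hg1, -, hgs, hg01⟩ := exists_continuous_one_zero_of_isCompact hK
      (isClosed_empty (X := U)) (disjoint_empty K)
    let G : C_c(U, ℝ) := ⟨g, hgs⟩
    have h1 : μ K ≤ ENNReal.ofReal (L G) := by
      refine RealRMK.rieszMeasure_le_of_eq_one L (f := G) (fun x => (hg01 x).1) hK fun x hx => ?_
      exact hg1 hx
    refine h1.trans (ENNReal.ofReal_le_ofReal ?_)
    rw [hL]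
    refine hbd _ (TF_ext0 hU G) fun x => ?_
    by_cases hx : x ∈ U
    · have h := ext0_apply U G ⟨x, hx⟩
      simp only at h
      rw [h, abs_le]
      have h2 := hg01 ⟨x, hx⟩
      exact ⟨by linarith [h2.1, (show G ⟨x, hx⟩ = g ⟨x, hx⟩ from rfl)],
        by linarith [h2.2, (show G ⟨x, hx⟩ = g ⟨x, hx⟩ from rfl)]⟩
    · rw [ext0_off U _ hx]; simp
  refine ⟨μ.map Subtype.val, ⟨?_⟩, ?_, fun f hf => ?_⟩
  · rw [hme.map_apply, preimage_univ]
    exact hfin.trans_lt ENNReal.ofReal_lt_top
  · rw [hme.map_apply]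
    have : (Subtype.val : U → X) ⁻¹' Uᶜ = ∅ := by
      ext x; simp
    rw [this, measure_empty]
  · rw [hme.integral_map]
    have := hμ (res0 hf)
    rw [ext0_res0 hf] at this
    exact this

end Vale.Agent.P247.H667
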