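import Vale.Agent.P247.H667.Vor
import Vale.Agent.P247.H667.RieszOpen

/-!
# The limit in a box
-/

open Set MeasureTheory Filter Topology Metric
open scoped ContDiff

noncomputable section

namespace Vale.Agent.P247.H667

open Vale.Agent.P247.H74 Vale.Agent.P247.H574 Vale.Agent.P247.H264 Vale.Agent.P247.H899

variable {D : Data} (H : Higgs D) (b : Box D)

/-- the push forward of `f dx ∧ dy` -/
def pf (f : ℂ × ℂ → ℝ) : R4 → F2 := push2 b fun p => f p • lam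

theorem TF.sub2 {f : ℂ × ℂ → ℝ} (hf : TF (PD 1) f) : tsupport f ⊆ PD 2 :=
  hf.sub.trans (PD1_sub.trans CPD_sub)

theorem pf_isPush {f : ℂ × ℂ → ℝ} (hf : TF (PD 1) f) : IsPush b f (pf b f) :=
  (exists_isPush b hf.cont hf.supp (TF.sub2 hf)).1

theorem pf_tsupport {f : ℂ × ℂ → ℝ} (hf : TF (PD 1) f) :
    tsupport (pf b f) ⊆ b.Θ '' tsupport f :=
  (exists_isPush b hf.cont hf.supp (TF.sub2 hf)).2

theorem pf_off {f : ℂ × ℂ → ℝ} (hf : TF (PD 1) f) {x : R4} (hx : x ∉ b.Θ '' PD 1) :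
    pf b f x = 0 := by
  by_contra h
  obtain ⟨p, hp, rfl⟩ := pf_tsupport b hf (subset_tsupport _ h)
  exact hx ⟨p, hf.sub hp, rfl⟩

theorem isPush_unique {f : ℂ × ℂ → ℝ} {φ ψ : R4 → F2} (h : IsPush b f φ) (h' : IsPush b f ψ) :
    φ = ψ := by
  funext x
  by_cases hx : x ∈ b.Θ '' PD 2
  · obtain ⟨p, hp, rfl⟩ := hx
    refine ext_F2 fun u v => ?_
    obtain ⟨u', rfl⟩ := (b.imm p hp).2 u
    obtain ⟨v', rfl⟩ := (b.imm p hp).2 v
    rw [h.on p hp, h'.on p hp]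
  · rw [h.off x hx, h'.off x hx]

theorem pf_add (f g : ℂ × ℂ → ℝ) :
    pf b (f + g) = pf b f + pf b g := by
  funext x
  by_cases hx : x ∈ b.Θ '' PD 2
  · obtain ⟨p, hp, rfl⟩ := hx
    refine ext_F2 fun u v => ?_
    obtain ⟨u', rfl⟩ := (b.imm p hp).2 u
    obtain ⟨v', rfl⟩ := (b.imm p hp).2 v
    show pf b (f + g) (b.Θ p) (fderiv ℝ b.Θ p u') (fderiv ℝ b.Θ p v') =
      pf b f (b.Θ p) (fderiv ℝ b.Θ p u') (fderiv ℝ b.Θ p v') +
      pf b g (b.Θ p) (fderiv ℝ b.Θ p u') (fderiv ℝ b.Θ p v')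
    unfold pf
    rw [push2_apply b _ hp, push2_apply b _ hp, push2_apply b _ hp]
    show (f p + g p) * _ = f p * _ + g p * _
    ring
  · show pf b (f + g) x = pf b f x + pf b g x
    unfold pf
    rw [push2_off b _ hx, push2_off b _ hx, push2_off b _ hx]
    exact ext_F2 fun u v => (add_zero (0 : ℝ)).symm

theorem pf_smul (c : ℝ) (f : ℂ × ℂ → ℝ) : pf b (c • f) = c • pf b f := by
  funext x
  by_cases hx : x ∈ b.Θ '' PD 2
  · obtain ⟨p, hp, rfl⟩ := hx
    refine ext_F2 fun u v => ?_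
    obtain ⟨u', rfl⟩ := (b.imm p hp).2 u
    obtain ⟨v', rfl⟩ := (b.imm p hp).2 v
    show pf b (c • f) (b.Θ p) (fderiv ℝ b.Θ p u') (fderiv ℝ b.Θ p v') =
      c * pf b f (b.Θ p) (fderiv ℝ b.Θ p u') (fderiv ℝ b.Θ p v')
    unfold pf
    rw [push2_apply b _ hp, push2_apply b _ hp]
    show (c * f p) * _ = c * (f p * _)
    ring
  · show pf b (c • f) x = c • pf b f x
    unfold pf
    rw [push2_off b _ hx, push2_off b _ hx]
    exact ext_F2 fun u v => (mul_zero c).symm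

/-- positivity -/
theorem pf_pos {f : ℂ × ℂ → ℝ} (h0 : ∀ p, 0 ≤ f p) (x u : R4) :
    0 ≤ pf b f x u (D.J x u) := by
  by_cases hx : x ∈ b.Θ '' PD 2
  · obtain ⟨p, hp, rfl⟩ := hx
    obtain ⟨v, rfl⟩ := (b.imm p hp).2 u
    obtain ⟨w, h1, h2, h3⟩ := exists_J b hp v
    rw [h3]
    unfold pf
    rw [push2_apply b _ hp]
    show 0 ≤ f p * lam v w
    refine mul_nonneg (h0 p) ?_
    have h4 := Hm_a b p 1 v w
    rw [Hm_J b p 1 0 0 h1 h2] at h4
    have h5 : lam v w = v.1.re * w.1.im - v.1.im * w.1.re := rfl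
    rw [← h5] at h4
    have h6 := one_sub_pos b hp
    by_contra hc
    push Not at hc
    have h7 : 0 ≤ ‖t1 b p v‖ ^ 2 := by positivity
    simp only [one_mul, zero_mul, Complex.zero_re, mul_zero, add_zero] at h4
    rw [h4] at h7
    nlinarith
  · unfold pf
    rw [push2_off b _ hx]
    exact le_rfl

/-- the density in the box -/
def Fn (n : ℕ) (p : ℂ × ℂ) : ℝ := sg b / (2 * Real.pi) * JB H b n p (0, 1) (0, Complex.I)

theorem w4_comm (A B : R4 → R4 → ℝ) : w4 A B = w4 B A := by unfold w4; ring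

theorem Pn_box (n : ℕ) {f : ℂ × ℂ → ℝ} (hf : TF (PD 1) f) :
    Pn H n (pf b f) = ∫ p in PD 1, f p * Fn H b n p := by
  have h1 : ∫ x, w4 (jac (H.a n) (H.α n) x) (fun u v => pf b f x u v)
      = ∫ x in b.Θ '' PD 1, w4 (jac (H.a n) (H.α n) x) (fun u v => pf b f x u v) := by
    rw [setIntegral_eq_integral_of_forall_compl_eq_zero]
    intro x hx
    exact w4_zero _ (pf_off b hf hx)
  unfold Pn
  rw [h1, cov b (isOpen_PD 1).measurableSet (PD1_sub.trans CPD_sub), ← integral_const_mul]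
  refine setIntegral_congr_fun (isOpen_PD 1).measurableSet fun p hp => ?_
  have hp2 : p ∈ PD 2 := CPD_sub (PD1_sub hp)
  rw [abs_jb b hp2]
  have hj : jac (H.a n) (H.α n) (b.Θ p) = fun u v => dd (bf (H.a n) (H.α n)) (b.Θ p) u v := by
    funext u v; exact jac_eq_dd (H.a_smooth n) (H.α_smooth n) _ u v
  have halt1 : ∀ q, pf b f (b.Θ p) q q = 0 := fun q => (pf_isPush b hf).cf.alt _ q
  have halt2 : ∀ q, dd (bf (H.a n) (H.α n)) (b.Θ p) q q = 0 := fun q => by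
    rw [dd_apply, sub_self]
  have key := w4_frame halt1 halt2 (fderiv ℝ b.Θ p (1, 0)) (fderiv ℝ b.Θ p (Complex.I, 0))
    (fderiv ℝ b.Θ p (0, 1)) (fderiv ℝ b.Θ p (0, Complex.I))
  have hval : ∀ v w : ℂ × ℂ, pf b f (b.Θ p) (fderiv ℝ b.Θ p v) (fderiv ℝ b.Θ p w)
      = f p * (v.1.re * w.1.im - v.1.im * w.1.re) := fun v w => (pf_isPush b hf).on p hp2 v w
  rw [hval, hval, hval, hval, hval, hval] at key
  simp only [Complex.one_re, Complex.one_im, Complex.I_re, Complex.I_im, Complex.zero_re,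
    Complex.zero_im, mul_one, mul_zero, zero_mul, sub_zero, sub_self, add_zero, zero_add,
    one_mul] at key
  have hjb : jb b p = dt4 (fderiv ℝ b.Θ p (1, 0)) (fderiv ℝ b.Θ p (Complex.I, 0))
    (fderiv ℝ b.Θ p (0, 1)) (fderiv ℝ b.Θ p (0, Complex.I)) := rfl
  rw [← hjb] at key
  rw [hj, w4_comm]
  have hJ := JB_eq H b (n := n) hp2 (0, 1) (0, Complex.I)
  rw [hj] at hJ
  simp only at hJ
  unfold Fn
  rw [hJ]
  calc 1 / (2 * Real.pi) * (sg b * jb b p *
        w4 (fun u v => pf b f (b.Θ p) u v) (fun u v => dd (bf (H.a n) (H.α n)) (b.Θ p) u v))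
      = 1 / (2 * Real.pi) * (sg b * (jb b p *
        w4 (fun u v => pf b f (b.Θ p) u v)
          (fun u v => dd (bf (H.a n) (H.α n)) (b.Θ p) u v))) := by ring
    _ = _ := by
      rw [← key]
      ring

end Vale.Agent.P247.H667
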