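import Vale.Agent.P247.H667.LimT

/-!
# Periodisation: positivity and class of the limit functional
-/

open Set MeasureTheory Filter Topology Metric
open scoped ContDiff

noncomputable section

namespace Vale.Agent.P247.H667

open Vale.Agent.P247.H74 Vale.Agent.P247.H574 Vale.Agent.P247.H264

variable {D : Data}

theorem int6m {μ : Measure R4} {f1 f2 f3 f4 f5 f6 : R4 → ℝ} (h1 : Integrable f1 μ)
    (h2 : Integrable f2 μ) (h3 : Integrable f3 μ) (h4 : Integrable f4 μ) (h5 : Integrable f5 μ)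
    (h6 : Integrable f6 μ) :
    ∫ x, (f1 x - f2 x + f3 x + f4 x - f5 x + f6 x) ∂μ =
      (∫ x, f1 x ∂μ) - (∫ x, f2 x ∂μ) + (∫ x, f3 x ∂μ) + (∫ x, f4 x ∂μ) - (∫ x, f5 x ∂μ)
        + ∫ x, f6 x ∂μ := by
  have i1 : Integrable (fun x => f1 x - f2 x) μ := h1.sub h2
  have i2 : Integrable (fun x => f1 x - f2 x + f3 x) μ := i1.add h3
  have i3 : Integrable (fun x => f1 x - f2 x + f3 x + f4 x) μ := i2.add h4
  have i4 : Integrable (fun x => f1 x - f2 x + f3 x + f4 x - f5 x) μ := i3.sub h5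
  rw [integral_add i4 h6, integral_sub i3 h5, integral_add i2 h4, integral_add i1 h3,
    integral_sub h1 h2]

/-- periodisation -/
def peri (φ : R4 → F2) (x : R4) : F2 := ∑ᶠ k : Fin 4 → ℤ, φ (tr k x)

theorem exists_R {E : Type*} [Zero E] {φ : R4 → E} (h : HasCompactSupport φ) :
    ∃ R : ℕ, ∀ x ∉ closedBall (0 : R4) R, φ x = 0 := by
  obtain ⟨R, hR⟩ := h.isCompact.isBounded.subset_closedBall (0 : R4)
  obtain ⟨N, hN⟩ := exists_nat_ge R
  refine ⟨N, fun x hx => ?_⟩
  by_contra h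
  exact hx (closedBall_subset_closedBall hN (hR (subset_tsupport φ h)))

theorem mem_of_ne {E : Type*} [Zero E] {φ : R4 → E} {R : ℕ}
    (hR : ∀ x ∉ closedBall (0 : R4) R, φ x = 0) {x0 x : R4} {M : ℕ} (hM : ‖x0‖ + 1 ≤ M)
    (hx : x ∈ ball x0 1) {k : Fin 4 → ℤ} (hk : φ (tr k x) ≠ 0) : k ∈ FN (R + M) := by
  have h1 : tr k x ∈ closedBall (0 : R4) R := by
    by_contra h; exact hk (hR _ h)
  rw [mem_closedBall_zero_iff] at h1
  rw [mem_FN]
  intro i
  have h2 : |tr k x i| ≤ R := (norm_le_pi_norm (tr k x) i).trans h1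
  have h3 : |x i| ≤ M := by
    have h4 : ‖x‖ ≤ ‖x0‖ + 1 := by
      have : ‖x‖ ≤ ‖x - x0‖ + ‖x0‖ := by simpa using norm_add_le (x - x0) x0
      rw [mem_ball_iff_norm] at hx
      linarith
    exact (norm_le_pi_norm x i).trans (h4.trans hM)
  simp only [tr] at h2
  rw [abs_le] at h2 h3
  constructor
  · have : -((R : ℝ) + M) ≤ k i := by linarith [h2.1, h3.2]
    have h5 : ((-((R + M : ℕ) : ℤ) : ℤ) : ℝ) ≤ (k i : ℝ) := by push_cast; linarith
    exact_mod_cast h5
  · have : (k i : ℝ) ≤ R + M := by linarith [h2.2, h3.1]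
    have h5 : (k i : ℝ) ≤ (((R + M : ℕ) : ℤ) : ℝ) := by push_cast; linarith
    exact_mod_cast h5

theorem locFin {E : Type*} [Zero E] {φ : R4 → E} (h : HasCompactSupport φ) :
    LocallyFinite fun k : Fin 4 → ℤ => Function.support (fun x => φ (tr k x)) := by
  obtain ⟨R, hR⟩ := exists_R h
  intro x0
  obtain ⟨M, hM⟩ := exists_nat_ge (‖x0‖ + 1)
  refine ⟨ball x0 1, ball_mem_nhds _ one_pos, (FN (R + M)).finite_toSet.subset ?_⟩
  rintro k ⟨x, hx, hx'⟩
  exact mem_of_ne hR hM hx' hx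

theorem cont_tr (k : Fin 4 → ℤ) : Continuous (tr k) := continuous_id.add continuous_const

theorem finite_supp {E : Type*} [Zero E] {φ : R4 → E} (h : HasCompactSupport φ) (x : R4) :
    (Function.support fun k : Fin 4 → ℤ => φ (tr k x)).Finite := by
  obtain ⟨R, hR⟩ := exists_R h
  obtain ⟨M, hM⟩ := exists_nat_ge (‖x‖ + 1)
  refine (FN (R + M)).finite_toSet.subset fun k hk => ?_
  exact mem_of_ne hR hM (mem_ball_self one_pos) hk

theorem peri_cont {φ : R4 → F2} (h : CF φ) : Continuous (peri φ) := by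
  have := tA.toContinuousAdd
  exact continuous_finsum (fun k => h.cont.comp (cont_tr k)) (locFin h.supp)

theorem tr_tr (k m : Fin 4 → ℤ) (x : R4) : tr k (tr m x) = tr (k + m) x := by
  funext i
  simp only [tr, Pi.add_apply]
  push_cast
  ring

theorem peri_per (φ : R4 → F2) (m : Fin 4 → ℤ) (x : R4) : peri φ (tr m x) = peri φ x := by
  unfold peri
  simp only [tr_tr]
  exact finsum_comp_equiv (Equiv.addRight m) (f := fun k : Fin 4 → ℤ => φ (tr k x))

theorem peri_apply {φ : R4 → F2} (h : CF φ) (x u v : R4) :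
    peri φ x u v = ∑ᶠ k : Fin 4 → ℤ, φ (tr k x) u v := by
  unfold peri
  have hf := finite_supp h.supp x
  have hsum : ∀ (s : Finset (Fin 4 → ℤ)), (∑ k ∈ s, φ (tr k x)) u v = ∑ k ∈ s, φ (tr k x) u v := by
    classical
    intro s
    induction s using Finset.induction_on with
    | empty => rfl
    | insert k s hk ih =>
      rw [Finset.sum_insert hk, Finset.sum_insert hk, add_F2, ih]
  rw [finsum_eq_sum_of_support_subset (s := hf.toFinset) _ (by simp), hsum,
    finsum_eq_sum_of_support_subset (s := hf.toFinset) _ ?_]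
  intro k hk
  rw [Finite.coe_toFinset]
  intro h0
  apply hk
  show φ (tr k x) u v = 0
  have h0' : φ (tr k x) = 0 := h0
  rw [h0']
  rfl

theorem peri_cube {φ : R4 → F2} (h : CF φ) {R : ℕ} (hR : ∀ x ∉ closedBall (0 : R4) R, φ x = 0)
    {x : R4} (hx : x ∈ Icc (0 : R4) 1) (u v : R4) :
    peri φ x u v = ∑ k ∈ FN (R + 1), φ (tr k x) u v := by
  rw [peri_apply h]
  refine finsum_eq_sum_of_support_subset _ fun k hk => ?_
  by_contra hk'
  apply hk
  show φ (tr k x) u v = 0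
  rw [hR _ (far hk' hx)]
  rfl

theorem J_tr (D : Data) (k : Fin 4 → ℤ) (x : R4) : D.J (tr k x) = D.J x := D.J_per k x

/-- unfolding of the pairing -/
theorem Pn_peri (H : Higgs D) (n : ℕ) {φ : R4 → F2} (h : CF φ) :
    Pn H n φ = (1 / (2 * Real.pi)) *
      ∫ x in Icc (0 : R4) 1, w4 (jac (H.a n) (H.α n) x) (fun u v => peri φ x u v) := by
  obtain ⟨R, hR⟩ := exists_R h.supp
  unfold Pn
  rw [unfold_int (N := R) (fun x hx => w4_zero _ (hR x hx)) (w4_int H n h)]
  congr 1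
  refine setIntegral_congr_fun measurableSet_Icc fun x hx => ?_
  have h1 : (fun u v => peri φ x u v) = fun u v => ∑ k ∈ FN (R + 1), φ (tr k x) u v := by
    funext u v
    exact peri_cube h hR hx u v
  rw [h1, w4_sum]
  refine Finset.sum_congr rfl fun k _ => ?_
  have : jac (H.a n) (H.α n) (tr k x) = jac (H.a n) (H.α n) x := by
    funext u v; rw [jac_tr]
  rw [this]

theorem Pn_pos (H : Higgs D) {φ : R4 → F2} (h : CF φ) (hp : ∀ x u, 0 ≤ φ x u (D.J x u))
    {ε : ℝ} (hε : 0 < ε) : ∀ᶠ n in atTop, -ε ≤ Pn H n φ := by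
  have h1 := H.pos (peri φ) (peri_cont h) (fun k x => peri_per φ k x)
    (fun x u => by
      rw [peri_apply h]
      simp only [h.alt]
      exact finsum_zero)
    (fun x u => by
      rw [peri_apply h]
      refine finsum_nonneg fun k => ?_
      have := hp (tr k x) u
      rwa [J_tr] at this)
    (2 * Real.pi * ε) (by positivity)
  filter_upwards [h1] with n hn
  rw [Pn_peri H n h]
  have h2 : (1 / (2 * Real.pi)) * (-(2 * Real.pi * ε)) = -ε := by
    field_simp
  rw [← h2]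
  exact mul_le_mul_of_nonneg_left hn (by positivity)

theorem F2_cont_smul {χ : R4 → ℝ} (hχ : Continuous χ) (κ : F2) :
    Continuous (fun x => χ x • κ) := hχ.smul continuous_const

theorem CF_chi {χ : R4 → ℝ} (hχ : Continuous χ) (hs : HasCompactSupport χ) {κ : F2}
    (hκ : ∀ u, κ u u = 0) : CF (fun x => χ x • κ) := by
  refine ⟨F2_cont_smul hχ κ, hcs_of_subset hs fun x hx => ext_F2 fun u v => ?_, fun x u => ?_⟩
  · rw [smul_F2, hx, zero_F2, zero_mul]
  · rw [smul_F2, hκ, mul_zero]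

theorem Pn_cls (H : Higgs D) (n : ℕ) {χ : R4 → ℝ} (hχ : Continuous χ) (hs : HasCompactSupport χ)
    (h1 : ∀ x, ∑' k : Fin 4 → ℤ, χ (tr k x) = 1) {κ : F2} (hκ : ∀ u, κ u u = 0) :
    Pn H n (fun x => χ x • κ) = κ (e 2) (e 3) := by
  have hcf := CF_chi hχ hs hκ
  obtain ⟨R, hR⟩ := exists_R hs
  rw [Pn_peri H n hcf]
  have h2 : ∀ x ∈ Icc (0 : R4) 1,
      w4 (jac (H.a n) (H.α n) x) (fun u v => peri (fun x => χ x • κ) x u v)
      = w4 (jac (H.a n) (H.α n) x) (fun u v => κ u v) := by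
    intro x hx
    congr 1
    funext u v
    rw [peri_apply hcf]
    have h3 : ∑ᶠ k : Fin 4 → ℤ, χ (tr k x) = 1 := by
      rw [← h1 x, tsum_eq_finsum (finite_supp hs x)]
    have h4 : ∀ k : Fin 4 → ℤ, (χ (tr k x) • κ) u v = χ (tr k x) * κ u v := fun k => rfl
    simp only [h4]
    rw [← finsum_mul, h3, one_mul]
  rw [setIntegral_congr_fun measurableSet_Icc h2]
  have hi : ∀ i j : Fin 4, ∀ c : ℝ, IntegrableOn (fun x => jac (H.a n) (H.α n) x (e i) (e j) * c)
      (Icc (0 : R4) 1) := fun i j c => ((jac_cont H n _ _).mul continuous_const).integrableOn_Icc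
  have hv : ∀ i j : Fin 4, ∀ c : ℝ, ∫ x in Icc (0 : R4) 1, jac (H.a n) (H.α n) x (e i) (e j) * c
      = 2 * Real.pi * (e i 0 * e j 1 - e j 0 * e i 1) * c := by
    intro i j c
    rw [integral_mul_const, int_jac]
  have h5 : ∫ x in Icc (0 : R4) 1, w4 (jac (H.a n) (H.α n) x) (fun u v => κ u v)
      = 2 * Real.pi * κ (e 2) (e 3) := by
    unfold w4
    have i1 := hi 0 1 (κ (e 2) (e 3))
    have i2 := hi 0 2 (κ (e 1) (e 3))
    have i3 := hi 0 3 (κ (e 1) (e 2))
    have i4 := hi 1 2 (κ (e 0) (e 3))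
    have i5 := hi 1 3 (κ (e 0) (e 2))
    have i6 := hi 2 3 (κ (e 0) (e 1))
    rw [int6m i1 i2 i3 i4 i5 i6]
    simp only [hv]
    simp [e]
  rw [h5]
  field_simp

end Vale.Agent.P247.H667
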