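import Vale.Agent.P247.H667.Vol
import Vale.Agent.P247.H667.LimP
import Vale.Agent.P247.H514.SliceSta

/-!
# The Higgs fields in a box
-/

open Set MeasureTheory Filter Topology Metric
open scoped ContDiff

noncomputable section

namespace Vale.Agent.P247.H667

open Vale.Agent.P247.H74 Vale.Agent.P247.H574 Vale.Agent.P247.H264 Vale.Agent.P247.H899

variable {D : Data} (H : Higgs D) (b : Box D)

/-- pulled back connection form, section, primitive of the Jacobian -/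
def aB (n : ℕ) : ℂ × ℂ → (ℂ × ℂ) →L[ℝ] ℝ := pb b.Θ (H.a n)
def alB (n : ℕ) : ℂ × ℂ → ℂ := fun p => H.α n (b.Θ p)
def be (n : ℕ) : ℂ × ℂ → (ℂ × ℂ) →L[ℝ] ℝ := bf (aB H b n) (alB H b n)

theorem aB_smooth (n : ℕ) : ContDiffOn ℝ ∞ (aB H b n) (PD 2) := by
  have h1 : ContDiffOn ℝ ∞ (fun p => H.a n (b.Θ p)) (PD 2) :=
    (H.a_smooth n).comp_contDiffOn b.smooth
  have h2 : ContDiffOn ℝ ∞ (fderiv ℝ b.Θ) (PD 2) :=
    b.smooth.fderiv_of_isOpen (isOpen_PD 2) (by simp)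
  exact h1.clm_comp h2

theorem alB_smooth (n : ℕ) : ContDiffOn ℝ ∞ (alB H b n) (PD 2) :=
  (H.α_smooth n).comp_contDiffOn b.smooth

theorem be_smooth (n : ℕ) : ContDiffOn ℝ ∞ (be H b n) (PD 2) := by
  intro p hp
  have hn := (isOpen_PD 2).mem_nhds hp
  exact (bf_contDiffAt (n := ⊤) ((alB_smooth H b n).contDiffAt hn)
    ((aB_smooth H b n).contDiffAt hn)).contDiffWithinAt

theorem dbe_smooth (n : ℕ) : ContDiffOn ℝ ∞ (fderiv ℝ (be H b n)) (PD 2) :=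
  (be_smooth H b n).fderiv_of_isOpen (isOpen_PD 2) (by simp)

/-- the pulled back Jacobian -/
def JB (n : ℕ) (p u v : ℂ × ℂ) : ℝ := ddg (be H b n) p u v

theorem JB_eq {n : ℕ} {p : ℂ × ℂ} (hp : p ∈ PD 2) (u v : ℂ × ℂ) :
    JB H b n p u v = jac (H.a n) (H.α n) (b.Θ p) (fderiv ℝ b.Θ p u) (fderiv ℝ b.Θ p v) := by
  have hn := (isOpen_PD 2).mem_nhds hp
  unfold JB be
  rw [ddg_bf (((alB_smooth H b n).contDiffAt hn).of_le two_le_infty)
    (((aB_smooth H b n).contDiffAt hn).of_le one_le_infty)]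
  unfold aB alB
  rw [jacg_pb ((contDiffAt_Θ b hp).of_le two_le_infty)
    ((H.α_smooth n).differentiable (by simp) _) ((H.a_smooth n).differentiable (by simp) _)]
  rfl

theorem JB_smooth (n : ℕ) (u v : ℂ × ℂ) :
    ContDiffOn ℝ 1 (fun p => JB H b n p u v) (PD 2) := by
  have h := (dbe_smooth H b n).of_le one_le_infty
  unfold JB ddg
  exact ((h.clm_apply contDiffOn_const).clm_apply contDiffOn_const).sub
    ((h.clm_apply contDiffOn_const).clm_apply contDiffOn_const)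

/-- `d Jac = 0` -/
theorem JB_closed {n : ℕ} {p : ℂ × ℂ} (hp : p ∈ PD 2) (x y z : ℂ × ℂ) :
    fderiv ℝ (fun p => JB H b n p y z) p x = fderiv ℝ (fun p => JB H b n p x z) p y
      - fderiv ℝ (fun p => JB H b n p x y) p z := by
  have hn := (isOpen_PD 2).mem_nhds hp
  have hd : HasFDerivAt (fderiv ℝ (be H b n)) (fderiv ℝ (fderiv ℝ (be H b n)) p) p :=
    ((((dbe_smooth H b n).contDiffAt hn).differentiableAt (by simp))).hasFDerivAt
  have hder : ∀ u v w : ℂ × ℂ, fderiv ℝ (fun p => JB H b n p u v) p w =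
      fderiv ℝ (fderiv ℝ (be H b n)) p w u v - fderiv ℝ (fderiv ℝ (be H b n)) p w v u := by
    intro u v w
    have h1 : ∀ u v : ℂ × ℂ, HasFDerivAt (fun p => fderiv ℝ (be H b n) p u v)
        ((((fderiv ℝ (fderiv ℝ (be H b n)) p).flip u)).flip v) p := by
      intro u v
      have := (hd.clm_apply (hasFDerivAt_const u p)).clm_apply (hasFDerivAt_const v p)
      refine this.congr_fderiv ?_
      ext w <;> simp
    have h2 := (h1 u v).sub (h1 v u)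
    have h3 : HasFDerivAt (fun p => JB H b n p u v) _ p := h2
    rw [h3.fderiv]
    rfl
  have hsym : ∀ u w : ℂ × ℂ, fderiv ℝ (fderiv ℝ (be H b n)) p w u =
      fderiv ℝ (fderiv ℝ (be H b n)) p u w := by
    intro u w
    have : IsSymmSndFDerivAt ℝ (be H b n) p :=
      (((be_smooth H b n).contDiffAt hn).of_le two_le_infty).isSymmSndFDerivAt (by simp)
    exact this.eq w u
  rw [hder, hder, hder, hsym y x, hsym z x, hsym z y]
  ring

/-! ### bounds -/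

/-- the closed polydisc -/
def CPD : Set (ℂ × ℂ) := closedBall 0 1 ×ˢ closedBall 0 1

theorem isCompact_CPD : IsCompact CPD := (isCompact_closedBall _ _).prod (isCompact_closedBall _ _)

theorem CPD_sub : CPD ⊆ PD 2 :=
  prod_mono (closedBall_subset_ball (by norm_num)) (closedBall_subset_ball (by norm_num))

theorem PD1_sub : PD 1 ⊆ CPD := prod_mono ball_subset_closedBall ball_subset_closedBall

theorem zero_mem_CPD : (0 : ℂ × ℂ) ∈ CPD := by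
  constructor <;> simp

theorem exists_bd_fd : ∃ B, 1 ≤ B ∧ ∀ p ∈ CPD, ‖fderiv ℝ b.Θ p‖ ≤ B := by
  have hc : ContinuousOn (fderiv ℝ b.Θ) CPD :=
    (b.smooth.continuousOn_fderiv_of_isOpen (isOpen_PD 2) (by simp)).mono CPD_sub
  obtain ⟨B, hB⟩ := isCompact_CPD.exists_bound_of_continuousOn hc
  exact ⟨max B 1, le_max_right _ _, fun p hp => (hB p hp).trans (le_max_left _ _)⟩

theorem exists_jb_low : ∃ c, 0 < c ∧ ∀ p ∈ CPD, c ≤ |jb b p| := by
  obtain ⟨q, hq, hmin⟩ := isCompact_CPD.exists_isMinOn ⟨0, zero_mem_CPD⟩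
    ((jb_cont b).mono CPD_sub).abs
  exact ⟨|jb b q|, abs_pos.2 (jb_ne b (CPD_sub hq)), fun p hp => hmin hp⟩

/-- the sign of the Jacobian determinant -/
def sg : ℝ := if 0 < jb b 0 then 1 else -1

theorem sg_sq : sg b * sg b = 1 := by
  unfold sg; split_ifs <;> norm_num

theorem abs_sg : |sg b| = 1 := by
  unfold sg; split_ifs <;> norm_num

theorem sg_cases : sg b = 1 ∨ sg b = -1 := by
  unfold sg; split_ifs <;> simp

theorem abs_jb {p : ℂ × ℂ} (hp : p ∈ PD 2) : |jb b p| = sg b * jb b p := by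
  have hpre : IsPreconnected (PD 2) :=
    ((convex_ball (0 : ℂ) 2).prod (convex_ball (0 : ℂ) 2)).isPreconnected
  have h0 : (0 : ℂ × ℂ) ∈ PD 2 := CPD_sub zero_mem_CPD
  have himg : IsPreconnected (jb b '' PD 2) := hpre.image _ (jb_cont b)
  have hno : (0 : ℝ) ∉ jb b '' PD 2 := by
    rintro ⟨q, hq, h⟩
    exact jb_ne b hq h
  unfold sg
  split_ifs with h
  · have : 0 < jb b p := by
      by_contra hc
      push Not at hc
      exact hno (himg.Icc_subset (mem_image_of_mem _ hp) (mem_image_of_mem _ h0) ⟨hc, h.le⟩)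
    rw [abs_of_pos this, one_mul]
  · have h' : jb b 0 < 0 := lt_of_le_of_ne (not_lt.1 h) (jb_ne b h0)
    have : jb b p < 0 := by
      by_contra hc
      push Not at hc
      exact hno (himg.Icc_subset (mem_image_of_mem _ h0) (mem_image_of_mem _ hp) ⟨h'.le, hc⟩)
    rw [abs_of_neg this]; ring

theorem norm_pair_I : ‖((0 : ℂ), Complex.I)‖ = 1 := by
  rw [Prod.norm_def]; simp
theorem norm_pair_1 : ‖((0 : ℂ), (1 : ℂ))‖ = 1 := by
  rw [Prod.norm_def]; simp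
theorem norm_pair_z (v : ℂ) : ‖(v, (0 : ℂ))‖ = ‖v‖ := by
  rw [Prod.norm_def]; simp

theorem JB_le {B : ℝ} (hB : ∀ p ∈ CPD, ‖fderiv ℝ b.Θ p‖ ≤ B) {n : ℕ} {p : ℂ × ℂ}
    (hp : p ∈ CPD) (u v : ℂ × ℂ) :
    |JB H b n p u v| ≤ 16 * B ^ 2 * ‖u‖ * ‖v‖ * en (H.r n) (H.a n) (H.α n) (b.Θ p) := by
  rw [JB_eq H b (CPD_sub hp)]
  have hB0 : 0 ≤ B := (norm_nonneg _).trans (hB p hp)
  refine (jac_abs_le (H.r_pos n) _ _ _ _ _).trans ?_
  have h1 : ∀ u, ‖fderiv ℝ b.Θ p u‖ ≤ B * ‖u‖ := fun u =>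
    ((fderiv ℝ b.Θ p).le_opNorm u).trans (mul_le_mul_of_nonneg_right (hB p hp) (norm_nonneg _))
  have h2 : ‖fderiv ℝ b.Θ p u‖ * ‖fderiv ℝ b.Θ p v‖ ≤ (B * ‖u‖) * (B * ‖v‖) :=
    mul_le_mul (h1 u) (h1 v) (norm_nonneg _) (by positivity)
  have h3 := en_nonneg H n (b.Θ p)
  calc 16 * ‖fderiv ℝ b.Θ p u‖ * ‖fderiv ℝ b.Θ p v‖ * en (H.r n) (H.a n) (H.α n) (b.Θ p)
      = 16 * (‖fderiv ℝ b.Θ p u‖ * ‖fderiv ℝ b.Θ p v‖) * en (H.r n) (H.a n) (H.α n) (b.Θ p) := by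
        ring
    _ ≤ 16 * ((B * ‖u‖) * (B * ‖v‖)) * en (H.r n) (H.a n) (H.α n) (b.Θ p) := by
        gcongr
    _ = _ := by ring

theorem nabB_le {B : ℝ} (hB : ∀ p ∈ CPD, ‖fderiv ℝ b.Θ p‖ ≤ B) (hB1 : 1 ≤ B) {n : ℕ} {p : ℂ × ℂ}
    (hp : p ∈ CPD) {u : ℂ × ℂ} (hu : ‖u‖ = 1) :
    ‖nabg (aB H b n) (alB H b n) p u‖ ^ 2 + H.r n * (1 - ‖alB H b n p‖ ^ 2) ^ 2 ≤
      4 * B ^ 2 * en (H.r n) (H.a n) (H.α n) (b.Θ p) := by
  have h0 : nabg (aB H b n) (alB H b n) p u = nab (H.a n) (H.α n) (b.Θ p) (fderiv ℝ b.Θ p u) := by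
    unfold aB alB
    rw [nabg_pb ((contDiffAt_Θ b (CPD_sub hp)).differentiableAt (by simp))
      ((H.α_smooth n).differentiable (by simp) _)]
    rfl
  rw [h0]
  have h1 := nab_norm_le (H.a n) (H.α n) (b.Θ p) (fderiv ℝ b.Θ p u)
  have h2 : ‖fderiv ℝ b.Θ p u‖ ≤ B := by
    have := ((fderiv ℝ b.Θ p).le_opNorm u).trans
      (mul_le_mul_of_nonneg_right (hB p hp) (norm_nonneg _))
    rwa [hu, mul_one] at this
  have h3 : ‖fderiv ℝ b.Θ p u‖ ^ 2 ≤ B ^ 2 := pow_le_pow_left₀ (norm_nonneg _) h2 2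
  set N2 := ∑ i, ‖nab (H.a n) (H.α n) (b.Θ p) (e i)‖ ^ 2 with hN2
  have hN0 : 0 ≤ N2 := Finset.sum_nonneg fun i _ => by positivity
  have hE : en (H.r n) (H.a n) (H.α n) (b.Θ p) = N2 + H.r n * (1 - ‖H.α n (b.Θ p)‖ ^ 2) ^ 2 +
      (1 / H.r n) * ∑ i, ∑ j, dd (H.a n) (b.Θ p) (e i) (e j) ^ 2 := rfl
  have hF0 : 0 ≤ (1 / H.r n) * ∑ i, ∑ j, dd (H.a n) (b.Θ p) (e i) (e j) ^ 2 := by
    have := H.r_pos n
    positivity
  have hP0 : 0 ≤ H.r n * (1 - ‖H.α n (b.Θ p)‖ ^ 2) ^ 2 := by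
    have := H.r_pos n
    positivity
  have h5 : ‖nab (H.a n) (H.α n) (b.Θ p) (fderiv ℝ b.Θ p u)‖ ^ 2 ≤ 4 * B ^ 2 * N2 := by
    refine h1.trans ?_
    have := mul_le_mul_of_nonneg_right h3 hN0
    nlinarith
  have h6 : (1 : ℝ) ≤ 4 * B ^ 2 := by nlinarith
  rw [hE]
  show _ + H.r n * (1 - ‖H.α n (b.Θ p)‖ ^ 2) ^ 2 ≤ _
  nlinarith [mul_le_mul_of_nonneg_right h6 hP0, mul_nonneg (by positivity : 0 ≤ 4 * B ^ 2) hF0]

/-- the energy in the box is bounded -/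
theorem int_jb_en : ∃ C, 0 ≤ C ∧ ∀ n,
    ∫ p in PD 1, |jb b p| * en (H.r n) (H.a n) (H.α n) (b.Θ p) ≤ C := by
  have hK : IsCompact (b.Θ '' CPD) := isCompact_image b isCompact_CPD CPD_sub
  obtain ⟨R, hR⟩ := hK.isBounded.subset_closedBall (0 : R4)
  obtain ⟨N, hN⟩ := exists_nat_ge R
  obtain ⟨C, hC0, hC⟩ := en_local H N
  refine ⟨C, hC0, fun n => ?_⟩
  rw [← cov b (isOpen_PD 1).measurableSet (PD1_sub.trans CPD_sub)]
  refine le_trans (setIntegral_mono_set ?_ ?_ ?_) (hC n)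
  · exact ((en_cont H n).continuousOn).integrableOn_compact (isCompact_closedBall _ _)
  · exact Eventually.of_forall (en_nonneg H n)
  · refine HasSubset.Subset.eventuallyLE ?_
    exact (image_mono PD1_sub).trans (hR.trans (closedBall_subset_closedBall hN))

end Vale.Agent.P247.H667
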