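import Mathlib

/-!
# The Jacobian two-form of a Higgs field is exact, and natural
-/

open Set MeasureTheory Filter Topology
open scoped ContDiff

noncomputable section

namespace Vale.Agent.P247.H667

variable {E F : Type*} [NormedAddCommGroup E] [NormedSpace ℝ E] [NormedAddCommGroup F]
  [NormedSpace ℝ F]

/-- exterior derivative -/
def ddg (l : E → E →L[ℝ] ℝ) (x u v : E) : ℝ := fderiv ℝ l x u v - fderiv ℝ l x v u

/-- covariant derivative -/
def nabg (a : E → E →L[ℝ] ℝ) (al : E → ℂ) (x u : E) : ℂ :=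
  fderiv ℝ al x u - Complex.I * (a x u : ℂ) * al x

/-- the gauge invariant Jacobian -/
def jacg (a : E → E →L[ℝ] ℝ) (al : E → ℂ) (x u v : E) : ℝ :=
  (1 - ‖al x‖ ^ 2) * ddg a x u v + 2 * ((starRingEnd ℂ) (nabg a al x u) * nabg a al x v).im

/-- its primitive -/
def bf (a : E → E →L[ℝ] ℝ) (al : E → ℂ) (x : E) : E →L[ℝ] ℝ :=
  Complex.imCLM.comp (((starRingEnd ℂ) (al x)) • fderiv ℝ al x) + (1 - ‖al x‖ ^ 2) • a x

theorem bf_apply (a : E → E →L[ℝ] ℝ) (al : E → ℂ) (x u : E) :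
    bf a al x u = (star (al x) * nabg a al x u).im + a x u := by
  have h : ‖al x‖ ^ 2 = (al x).re * (al x).re + (al x).im * (al x).im := by
    rw [← Complex.normSq_eq_norm_sq, Complex.normSq_apply]
  simp only [bf, nabg, add_apply, ContinuousLinearMap.comp_apply, Complex.imCLM_apply,
    smul_apply, smul_eq_mul, h]
  simp [Complex.mul_im, Complex.mul_re]
  ring

theorem bf_apply' (a : E → E →L[ℝ] ℝ) (al : E → ℂ) (x u : E) :
    bf a al x u = ((starRingEnd ℂ) (al x) * fderiv ℝ al x u).im + (1 - ‖al x‖ ^ 2) * a x u := by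
  simp [bf]

theorem bf_contDiffAt {n : ℕ∞} {a : E → E →L[ℝ] ℝ} {al : E → ℂ} {x : E}
    (hal : ContDiffAt ℝ (n + 1) al x) (ha : ContDiffAt ℝ n a x) :
    ContDiffAt ℝ n (bf a al) x := by
  unfold bf
  have h0 : ContDiffAt ℝ n al x := hal.of_le (by exact_mod_cast le_self_add)
  have h1 : ContDiffAt ℝ n (fderiv ℝ al) x := hal.fderiv_right le_rfl
  have h2 : ContDiffAt ℝ n (fun x => (starRingEnd ℂ) (al x)) x :=
    Complex.conjCLE.contDiff.contDiffAt.comp x h0
  have h3 : ContDiffAt ℝ n (fun x => ‖al x‖ ^ 2) x := h0.norm_sq ℝ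
  refine ContDiffAt.add ?_ ((contDiffAt_const.sub h3).smul ha)
  exact (ContinuousLinearMap.compL ℝ E ℂ ℝ Complex.imCLM).contDiff.contDiffAt.comp x (h2.smul h1)

/-- `Jac = d b` -/
theorem ddg_bf {a : E → E →L[ℝ] ℝ} {al : E → ℂ} {x : E}
    (hal : ContDiffAt ℝ 2 al x) (ha : ContDiffAt ℝ 1 a x) (u v : E) :
    ddg (bf a al) x u v = jacg a al x u v := by
  have hb : DifferentiableAt ℝ (bf a al) x :=
    (bf_contDiffAt (n := 1) (by exact_mod_cast hal) ha).differentiableAt (by norm_num)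
  have hev : ∀ v u : E, fderiv ℝ (bf a al) x u v = fderiv ℝ (fun x => bf a al x v) x u := by
    intro v u
    have := hb.hasFDerivAt.clm_apply (hasFDerivAt_const v x)
    rw [this.fderiv]
    simp
  have hal1 : HasFDerivAt al (fderiv ℝ al x) x := (hal.differentiableAt (by norm_num)).hasFDerivAt
  have hD : HasFDerivAt (fderiv ℝ al) (fderiv ℝ (fderiv ℝ al) x) x :=
    ((hal.fderiv_right (m := 1) (by norm_num)).differentiableAt (by norm_num)).hasFDerivAt
  have ha1 : HasFDerivAt a (fderiv ℝ a x) x := (ha.differentiableAt (by norm_num)).hasFDerivAt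
  have hsym : ∀ u v, fderiv ℝ (fderiv ℝ al) x u v = fderiv ℝ (fderiv ℝ al) x v u := by
    intro u v
    exact (hal.isSymmSndFDerivAt (by simp)).eq u v
  have hcalc : ∀ v u : E, fderiv ℝ (fun x => bf a al x v) x u =
      ((starRingEnd ℂ) (fderiv ℝ al x u) * fderiv ℝ al x v).im
        + ((starRingEnd ℂ) (al x) * fderiv ℝ (fderiv ℝ al) x u v).im
        - 2 * ((starRingEnd ℂ) (al x) * fderiv ℝ al x u).re * a x v
        + (1 - ‖al x‖ ^ 2) * fderiv ℝ a x u v := by
    intro v u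
    have h1 : HasFDerivAt (fun x => (starRingEnd ℂ) (al x))
        ((Complex.conjCLE : ℂ →L[ℝ] ℂ).comp (fderiv ℝ al x)) x :=
      (Complex.conjCLE : ℂ →L[ℝ] ℂ).hasFDerivAt.comp x hal1
    have h2 : HasFDerivAt (fun x => fderiv ℝ al x v)
        ((fderiv ℝ (fderiv ℝ al) x).flip v) x := by
      have := hD.clm_apply (hasFDerivAt_const v x)
      refine this.congr_fderiv ?_
      ext w
      simp
    have h3 : HasFDerivAt (fun x => a x v) ((fderiv ℝ a x).flip v) x := by
      have := ha1.clm_apply (hasFDerivAt_const v x)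
      refine this.congr_fderiv ?_
      ext w
      simp
    have h4 := Complex.imCLM.hasFDerivAt.comp x (h1.mul h2)
    have hre : HasFDerivAt (fun x => (al x).re) (Complex.reCLM.comp (fderiv ℝ al x)) x :=
      Complex.reCLM.hasFDerivAt.comp x hal1
    have him : HasFDerivAt (fun x => (al x).im) (Complex.imCLM.comp (fderiv ℝ al x)) x :=
      Complex.imCLM.hasFDerivAt.comp x hal1
    have h5 : HasFDerivAt (fun x => (1 - ((al x).re * (al x).re + (al x).im * (al x).im)))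
        (-((al x).re • (Complex.reCLM.comp (fderiv ℝ al x)) +
            (al x).re • (Complex.reCLM.comp (fderiv ℝ al x)) +
          ((al x).im • (Complex.imCLM.comp (fderiv ℝ al x)) +
            (al x).im • (Complex.imCLM.comp (fderiv ℝ al x))))) x :=
      ((hre.mul hre).add (him.mul him)).const_sub 1
    have h6 := HasFDerivAt.add h4 (HasFDerivAt.mul h5 h3)
    have hfun : (fun x => bf a al x v) = fun x =>
        ((starRingEnd ℂ) (al x) * fderiv ℝ al x v).im
          + (1 - ((al x).re * (al x).re + (al x).im * (al x).im)) * a x v := by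
      funext x
      rw [bf_apply']
      rw [← Complex.normSq_eq_norm_sq, Complex.normSq_apply]
    have h7 := h6.congr_of_eventuallyEq (f₁ := fun x => bf a al x v) (EventuallyEq.of_eq hfun)
    rw [h7.fderiv]
    rw [← Complex.normSq_eq_norm_sq, Complex.normSq_apply]
    simp [Complex.mul_im, Complex.mul_re]
    ring
  unfold ddg jacg nabg
  rw [hev v u, hev u v, hcalc v u, hcalc u v, hsym v u]
  unfold ddg
  rw [← Complex.normSq_eq_norm_sq, Complex.normSq_apply]
  simp [Complex.mul_im, Complex.mul_re]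
  ring

/-- pull back of a one-form -/
def pb (Θ : F → E) (a : E → E →L[ℝ] ℝ) (p : F) : F →L[ℝ] ℝ := (a (Θ p)).comp (fderiv ℝ Θ p)

theorem nabg_pb {Θ : F → E} {a : E → E →L[ℝ] ℝ} {al : E → ℂ} {p : F}
    (hΘ : DifferentiableAt ℝ Θ p) (hal : DifferentiableAt ℝ al (Θ p)) (u : F) :
    nabg (pb Θ a) (fun p => al (Θ p)) p u = nabg a al (Θ p) (fderiv ℝ Θ p u) := by
  unfold nabg pb
  have : fderiv ℝ (fun p => al (Θ p)) p = (fderiv ℝ al (Θ p)).comp (fderiv ℝ Θ p) :=
    (hal.hasFDerivAt.comp p hΘ.hasFDerivAt).fderiv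
  rw [this]
  rfl

theorem bf_pb {Θ : F → E} {a : E → E →L[ℝ] ℝ} {al : E → ℂ} {p : F}
    (hΘ : DifferentiableAt ℝ Θ p) (hal : DifferentiableAt ℝ al (Θ p)) :
    bf (pb Θ a) (fun p => al (Θ p)) p = pb Θ (bf a al) p := by
  ext u
  rw [bf_apply, nabg_pb hΘ hal]
  simp only [pb, ContinuousLinearMap.comp_apply, bf_apply]

theorem ddg_pb {Θ : F → E} {l : E → E →L[ℝ] ℝ} {p : F}
    (hΘ : ContDiffAt ℝ 2 Θ p) (hl : DifferentiableAt ℝ l (Θ p)) (u v : F) :
    ddg (pb Θ l) p u v = ddg l (Θ p) (fderiv ℝ Θ p u) (fderiv ℝ Θ p v) := by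
  have hΘ1 : HasFDerivAt Θ (fderiv ℝ Θ p) p := (hΘ.differentiableAt (by norm_num)).hasFDerivAt
  have hD : HasFDerivAt (fderiv ℝ Θ) (fderiv ℝ (fderiv ℝ Θ) p) p :=
    ((hΘ.fderiv_right (m := 1) (by norm_num)).differentiableAt (by norm_num)).hasFDerivAt
  have hl1 : HasFDerivAt (fun p => l (Θ p)) ((fderiv ℝ l (Θ p)).comp (fderiv ℝ Θ p)) p :=
    hl.hasFDerivAt.comp p hΘ1
  have hsym : ∀ u v, fderiv ℝ (fderiv ℝ Θ) p u v = fderiv ℝ (fderiv ℝ Θ) p v u := by
    intro u v
    exact (hΘ.isSymmSndFDerivAt (by simp)).eq u v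
  have h := hl1.clm_comp hD
  have h' : HasFDerivAt (pb Θ l) _ p := h
  unfold ddg
  rw [h'.fderiv]
  simp [hsym v u]

theorem jacg_pb {Θ : F → E} {a : E → E →L[ℝ] ℝ} {al : E → ℂ} {p : F}
    (hΘ : ContDiffAt ℝ 2 Θ p) (hal : DifferentiableAt ℝ al (Θ p)) (ha : DifferentiableAt ℝ a (Θ p))
    (u v : F) :
    jacg (pb Θ a) (fun p => al (Θ p)) p u v
      = jacg a al (Θ p) (fderiv ℝ Θ p u) (fderiv ℝ Θ p v) := by
  unfold jacg
  rw [ddg_pb hΘ ha, nabg_pb (hΘ.differentiableAt (by norm_num)) hal,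
    nabg_pb (hΘ.differentiableAt (by norm_num)) hal]

end Vale.Agent.P247.H667
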