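import Vale.Agent.P247.H574.Sta2
import Vale.Agent.P247.H667.Form

/-!
# `∫ d b ∧ d l = 0`
-/

open Set MeasureTheory Filter Topology Metric
open scoped ContDiff

noncomputable section

namespace Vale.Agent.P247.H667

open Vale.Agent.P247.H74 Vale.Agent.P247.H574

theorem dd_apply (l : R4 → R4 →L[ℝ] ℝ) (x u v : R4) :
    dd l x u v = fderiv ℝ l x u v - fderiv ℝ l x v u := rfl

theorem jac_eq_jacg (a : R4 → R4 →L[ℝ] ℝ) (α : R4 → ℂ) (x u v : R4) :
    jac a α x u v = jacg a α x u v := rfl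

theorem two_le_infty : (2 : WithTop ℕ∞) ≤ ∞ := WithTop.coe_le_coe.2 (le_top : (2 : ℕ∞) ≤ ⊤)

theorem one_le_infty : (1 : WithTop ℕ∞) ≤ ∞ := WithTop.coe_le_coe.2 (le_top : (1 : ℕ∞) ≤ ⊤)

theorem jac_eq_dd {a : R4 → R4 →L[ℝ] ℝ} {α : R4 → ℂ} (ha : ContDiff ℝ ∞ a)
    (hα : ContDiff ℝ ∞ α) (x u v : R4) : jac a α x u v = dd (bf a α) x u v := by
  rw [jac_eq_jacg, ← ddg_bf ((hα.of_le two_le_infty).contDiffAt)
    ((ha.of_le one_le_infty).contDiffAt)]
  rfl

theorem bf_smooth {a : R4 → R4 →L[ℝ] ℝ} {α : R4 → ℂ} (ha : ContDiff ℝ ∞ a)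
    (hα : ContDiff ℝ ∞ α) : ContDiff ℝ ∞ (bf a α) := by
  rw [contDiff_iff_contDiffAt]
  intro x
  exact bf_contDiffAt (n := ⊤) hα.contDiffAt ha.contDiffAt

/-- the product of two derivatives -/
def IJ (b l : R4 → R4 →L[ℝ] ℝ) (i j k m : Fin 4) : ℝ :=
  ∫ x, fderiv ℝ b x (e i) (e j) * fderiv ℝ l x (e k) (e m)

theorem cd_comp {b : R4 → R4 →L[ℝ] ℝ} (hb : ContDiff ℝ ∞ b) (v : R4) :
    ContDiff ℝ ∞ (fun x => b x v) := hb.clm_apply contDiff_const

theorem fderiv_comp' {b : R4 → R4 →L[ℝ] ℝ} (hb : ContDiff ℝ ∞ b) (x u v : R4) :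
    fderiv ℝ (fun x => b x v) x u = fderiv ℝ b x u v := by
  have h := (hb.differentiable (by simp) x).hasFDerivAt.clm_apply (hasFDerivAt_const v x)
  rw [h.fderiv]
  simp

theorem cd_fd {b : R4 → R4 →L[ℝ] ℝ} (hb : ContDiff ℝ ∞ b) (u v : R4) :
    ContDiff ℝ ∞ (fun x => fderiv ℝ b x u v) := by
  have : (fun x => fderiv ℝ b x u v) = fun x => fderiv ℝ (fun x => b x v) x u := by
    funext x; rw [fderiv_comp' hb]
  rw [this]
  have h := (cd_comp hb v).fderiv_right (m := ∞) (by simp)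
  exact h.clm_apply contDiff_const

theorem hcs_fd {l : R4 → R4 →L[ℝ] ℝ} (hs : HasCompactSupport l) (u v : R4) :
    HasCompactSupport (fun x => fderiv ℝ l x u v) := by
  have h := hs.fderiv ℝ
  refine h.mono' (fun x hx => subset_tsupport _ ?_)
  intro h0
  apply hx
  show fderiv ℝ l x u v = 0
  rw [h0]
  rfl

/-- integration by parts -/
theorem IJ_eq {b l : R4 → R4 →L[ℝ] ℝ} (hb : ContDiff ℝ ∞ b) (hl : ContDiff ℝ ∞ l)
    (hs : HasCompactSupport l) (i j k m : Fin 4) :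
    IJ b l i j k m = -∫ x, b x (e j) *
      fderiv ℝ (fun x => fderiv ℝ l x (e k) (e m)) x (e i) := by
  have hf := cd_comp hb (e j)
  have hg := cd_fd hl (e k) (e m)
  have hgs := hcs_fd hs (e k) (e m)
  have hg' : HasCompactSupport
      (fun x => fderiv ℝ (fun x => fderiv ℝ l x (e k) (e m)) x (e i)) := by
    refine (hgs.fderiv ℝ).mono' (fun x hx => subset_tsupport _ ?_)
    intro h0
    apply hx
    show fderiv ℝ (fun x => fderiv ℝ l x (e k) (e m)) x (e i) = 0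
    rw [h0]
    rfl
  have hgc : Continuous (fun x => fderiv ℝ (fun x => fderiv ℝ l x (e k) (e m)) x (e i)) :=
    (hg.continuous_fderiv (by simp)).clm_apply continuous_const
  have hfc : Continuous (fun x => fderiv ℝ (fun x => b x (e j)) x (e i)) :=
    (hf.continuous_fderiv (by simp)).clm_apply continuous_const
  rw [integral_mul_fderiv_eq_neg_fderiv_mul_of_integrable (f := fun x => b x (e j))
    (g := fun x => fderiv ℝ l x (e k) (e m)) (v := e i)]
  · rw [neg_neg]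
    unfold IJ
    refine integral_congr_ae (Eventually.of_forall fun x => ?_)
    simp only [fderiv_comp' hb]
  · exact (hfc.mul hg.continuous).integrable_of_hasCompactSupport hgs.mul_left
  · exact (hf.continuous.mul hgc).integrable_of_hasCompactSupport hg'.mul_left
  · exact (hf.continuous.mul hg.continuous).integrable_of_hasCompactSupport hgs.mul_left
  · exact fun x _ => hf.differentiable (by simp) x
  · exact fun x _ => hg.differentiable (by simp) x

theorem IJ_symm {b l : R4 → R4 →L[ℝ] ℝ} (hb : ContDiff ℝ ∞ b) (hl : ContDiff ℝ ∞ l)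
    (hs : HasCompactSupport l) (i j k m : Fin 4) : IJ b l i j k m = IJ b l k j i m := by
  rw [IJ_eq hb hl hs, IJ_eq hb hl hs]
  congr 1
  refine integral_congr_ae (Eventually.of_forall fun x => ?_)
  simp only
  congr 1
  -- symmetry of second derivatives of `l · (e m)`
  have hg := cd_comp hl (e m)
  have e1 : ∀ k : Fin 4, (fun x => fderiv ℝ l x (e k) (e m))
      = fun x => fderiv ℝ (fun x => l x (e m)) x (e k) := by
    intro k; funext x; rw [fderiv_comp' hl]
  rw [e1, e1]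
  have hd : DifferentiableAt ℝ (fderiv ℝ (fun x => l x (e m))) x :=
    ((hg.fderiv_right (m := ∞) (by simp)).differentiable (by simp)) x
  have e2 : ∀ i k : Fin 4, fderiv ℝ (fun x => fderiv ℝ (fun x => l x (e m)) x (e k)) x (e i)
      = fderiv ℝ (fderiv ℝ (fun x => l x (e m))) x (e i) (e k) := by
    intro i k
    have h := hd.hasFDerivAt.clm_apply (hasFDerivAt_const (e k) x)
    rw [h.fderiv]
    simp
  rw [e2, e2]
  have hsym : IsSymmSndFDerivAt ℝ (fun x => l x (e m)) x :=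
    ((hg.of_le two_le_infty).contDiffAt (x := x)).isSymmSndFDerivAt (by simp)
  exact hsym.eq (e i) (e k)

theorem IJ_int {b l : R4 → R4 →L[ℝ] ℝ} (hb : ContDiff ℝ ∞ b) (hl : ContDiff ℝ ∞ l)
    (hs : HasCompactSupport l) (i j k m : Fin 4) :
    Integrable (fun x => fderiv ℝ b x (e i) (e j) * fderiv ℝ l x (e k) (e m)) :=
  ((cd_fd hb _ _).continuous.mul (cd_fd hl _ _).continuous).integrable_of_hasCompactSupport
    (hcs_fd hs _ _).mul_left

theorem int4 {f g h k : R4 → ℝ} (hf : Integrable f) (hg : Integrable g) (hh : Integrable h)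
    (hk : Integrable k) :
    ∫ x, (f x - g x - h x + k x) = (∫ x, f x) - (∫ x, g x) - (∫ x, h x) + ∫ x, k x := by
  have i1 : Integrable (fun x => f x - g x) := hf.sub hg
  have i2 : Integrable (fun x => f x - g x - h x) := i1.sub hh
  rw [integral_add i2 hk, integral_sub i1 hh, integral_sub hf hg]

theorem int6 {f1 f2 f3 f4 f5 f6 : R4 → ℝ} (h1 : Integrable f1) (h2 : Integrable f2)
    (h3 : Integrable f3) (h4 : Integrable f4) (h5 : Integrable f5) (h6 : Integrable f6) :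
    ∫ x, (f1 x - f2 x + f3 x + f4 x - f5 x + f6 x) =
      (∫ x, f1 x) - (∫ x, f2 x) + (∫ x, f3 x) + (∫ x, f4 x) - (∫ x, f5 x) + ∫ x, f6 x := by
  have i1 : Integrable (fun x => f1 x - f2 x) := h1.sub h2
  have i2 : Integrable (fun x => f1 x - f2 x + f3 x) := i1.add h3
  have i3 : Integrable (fun x => f1 x - f2 x + f3 x + f4 x) := i2.add h4
  have i4 : Integrable (fun x => f1 x - f2 x + f3 x + f4 x - f5 x) := i3.sub h5
  rw [integral_add i4 h6, integral_sub i3 h5, integral_add i2 h4, integral_add i1 h3,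
    integral_sub h1 h2]

theorem int_prod {b l : R4 → R4 →L[ℝ] ℝ} (hb : ContDiff ℝ ∞ b) (hl : ContDiff ℝ ∞ l)
    (hs : HasCompactSupport l) (i j k m : Fin 4) :
    ∫ x, dd b x (e i) (e j) * dd l x (e k) (e m)
      = IJ b l i j k m - IJ b l i j m k - IJ b l j i k m + IJ b l j i m k := by
  have e1 : ∀ x, dd b x (e i) (e j) * dd l x (e k) (e m)
      = fderiv ℝ b x (e i) (e j) * fderiv ℝ l x (e k) (e m)
      - fderiv ℝ b x (e i) (e j) * fderiv ℝ l x (e m) (e k)
      - fderiv ℝ b x (e j) (e i) * fderiv ℝ l x (e k) (e m)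
      + fderiv ℝ b x (e j) (e i) * fderiv ℝ l x (e m) (e k) := by
    intro x
    rw [dd_apply, dd_apply]
    ring
  simp only [e1]
  have h1 := IJ_int hb hl hs i j k m
  have h2 := IJ_int hb hl hs i j m k
  have h3 := IJ_int hb hl hs j i k m
  have h4 := IJ_int hb hl hs j i m k
  exact int4 h1 h2 h3 h4

theorem dd_int {b l : R4 → R4 →L[ℝ] ℝ} (hb : ContDiff ℝ ∞ b) (hl : ContDiff ℝ ∞ l)
    (hs : HasCompactSupport l) (i j k m : Fin 4) :
    Integrable (fun x => dd b x (e i) (e j) * dd l x (e k) (e m)) := by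
  have e1 : (fun x => dd b x (e i) (e j) * dd l x (e k) (e m))
      = fun x => fderiv ℝ b x (e i) (e j) * fderiv ℝ l x (e k) (e m)
      - fderiv ℝ b x (e i) (e j) * fderiv ℝ l x (e m) (e k)
      - fderiv ℝ b x (e j) (e i) * fderiv ℝ l x (e k) (e m)
      + fderiv ℝ b x (e j) (e i) * fderiv ℝ l x (e m) (e k) := by
    funext x
    rw [dd_apply, dd_apply]
    ring
  rw [e1]
  exact (((IJ_int hb hl hs i j k m).sub (IJ_int hb hl hs i j m k)).sub
    (IJ_int hb hl hs j i k m)).add (IJ_int hb hl hs j i m k)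

/-- Stokes for `b ∧ d l` -/
theorem int_dd_dd {b l : R4 → R4 →L[ℝ] ℝ} (hb : ContDiff ℝ ∞ b) (hl : ContDiff ℝ ∞ l)
    (hs : HasCompactSupport l) :
    ∫ x, w4 (fun u v => dd b x u v) (fun u v => dd l x u v) = 0 := by
  unfold w4
  have i1 := dd_int hb hl hs 0 1 2 3
  have i2 := dd_int hb hl hs 0 2 1 3
  have i3 := dd_int hb hl hs 0 3 1 2
  have i4 := dd_int hb hl hs 1 2 0 3
  have i5 := dd_int hb hl hs 1 3 0 2
  have i6 := dd_int hb hl hs 2 3 0 1
  rw [int6 i1 i2 i3 i4 i5 i6]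
  simp only [int_prod hb hl hs]
  have s := fun i j k m => IJ_symm hb hl hs i j k m
  linarith [s 0 1 2 3, s 0 1 3 2, s 1 0 2 3, s 1 0 3 2, s 0 2 1 3, s 0 2 3 1, s 2 0 1 3, s 2 0 3 1,
    s 0 3 1 2, s 0 3 2 1, s 3 0 1 2, s 3 0 2 1, s 1 2 0 3, s 1 2 3 0, s 2 1 0 3, s 2 1 3 0,
    s 1 3 0 2, s 1 3 2 0, s 3 1 0 2, s 3 1 2 0, s 2 3 0 1, s 2 3 1 0, s 3 2 0 1, s 3 2 1 0]

end Vale.Agent.P247.H667
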