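import Vale.Agent.P247.H667.Gau

/-!
# The class of the Jacobian
-/

open Set MeasureTheory Filter Topology Metric
open scoped ContDiff

noncomputable section

namespace Vale.Agent.P247.H667

open Vale.Agent.P247.H74 Vale.Agent.P247.H574

/-- the integral of a derivative of a periodic function -/
theorem int_fderiv_per {f : R4 → ℝ} (hf : ContDiff ℝ ∞ f)
    (hp : ∀ (k : Fin 4 → ℤ) x, f (tr k x) = f x) (k : Fin 4) :
    ∫ x in Icc (0 : R4) 1, fderiv ℝ f x (e k) = 0 := by
  have hsum : ∀ x, ∑ i, (if i = k then fderiv ℝ f x else 0) (Pi.single i 1) =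
      fderiv ℝ f x (e k) := by
    intro x
    rw [Finset.sum_eq_single k]
    · simp [e]
    · intro b _ hb
      simp [hb]
    · simp only [Finset.mem_univ, not_true_eq_false, ↓reduceIte, IsEmpty.forall_iff]
  have h := integral_divergence_of_hasFDerivAt_off_countable' (n := 3) (E := ℝ) (0 : R4) 1
    zero_le_one (fun i x => if i = k then f x else 0)
    (fun i x => if i = k then fderiv ℝ f x else 0) ∅ countable_empty
    (fun i => by
      by_cases h : i = k
      · simpa only [Nat.reduceAdd, h, ↓reduceIte] using hf.continuous.continuousOn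
      · simpa only [Nat.reduceAdd, h, ↓reduceIte] using continuousOn_const)
    (fun x _ i => by
      by_cases h : i = k
      · simpa [h] using (hf.differentiable (by simp) x).hasFDerivAt
      · simpa [h] using hasFDerivAt_const (0 : ℝ) x)
    (by
      simp only [hsum]
      exact ((hf.continuous_fderiv (by simp)).clm_apply continuous_const).integrableOn_Icc)
  simp only [hsum] at h
  rw [h]
  refine Finset.sum_eq_zero fun i _ => ?_
  by_cases hi : i = k
  · subst hi
    rw [sub_eq_zero]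
    refine setIntegral_congr_fun measurableSet_Icc fun y _ => ?_
    simp only [if_true]
    have : (Fin.insertNth i ((1 : R4) i) y : R4) =
        tr (Pi.single i 1) (Fin.insertNth i ((0 : R4) i) y : R4) := by
      funext j
      rcases Fin.eq_self_or_eq_succAbove i j with rfl | ⟨m, rfl⟩
      · simp [tr]
      · simp [tr]
    rw [this, hp]
  · simp only [Nat.reduceAdd, Pi.zero_comp, Pi.one_comp, hi, ↓reduceIte, integral_zero, sub_self]

variable {D : Data}

theorem bf_tr (H : Higgs D) (n : ℕ) (k : Fin 4 → ℤ) (x u : R4) :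
    bf (H.a n) (H.α n) (tr k x) u = bf (H.a n) (H.α n) x u + 2 * Real.pi * k 0 * u 1 := by
  have hn : ∀ x u, nabg (H.a n) (H.α n) x u = nab (H.a n) (H.α n) x u := fun x u => rfl
  rw [bf_apply, bf_apply, hn, hn, nab_tr, H.a_per, H.α_per]
  have h3 : Complex.exp (2 * Real.pi * Complex.I * k 0 * x 1) = gf k x := rfl
  rw [h3]
  have h : star (gf k x * H.α n x) * (gf k x * nab (H.a n) (H.α n) x u)
      = (star (gf k x) * gf k x) * (star (H.α n x) * nab (H.a n) (H.α n) x u) := by
    rw [star_mul]; ring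
  have h4 : star (gf k x) * gf k x = 1 := by
    have : star (gf k x) * gf k x = (starRingEnd ℂ) (gf k x) * gf k x := rfl
    rw [this, ← Complex.normSq_eq_conj_mul_self, Complex.normSq_eq_norm_sq, norm_gf]
    norm_num
  rw [h, h4, one_mul]
  simp
  ring

theorem bf_sm (H : Higgs D) (n : ℕ) : ContDiff ℝ ∞ (bf (H.a n) (H.α n)) :=
  bf_smooth (H.a_smooth n) (H.α_smooth n)

/-- `∫ ∂ᵢ bⱼ = 2 π δ_{i0} δ_{j1}` -/
theorem int_dbf (H : Higgs D) (n : ℕ) (i j : Fin 4) :
    ∫ x in Icc (0 : R4) 1, fderiv ℝ (bf (H.a n) (H.α n)) x (e i) (e j) =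
      2 * Real.pi * e i 0 * e j 1 := by
  let L : R4 →L[ℝ] ℝ := (2 * Real.pi * e j 1) • (ContinuousLinearMap.proj 0 : R4 →L[ℝ] ℝ)
  let f : R4 → ℝ := fun x => bf (H.a n) (H.α n) x (e j) - L x
  have hf : ContDiff ℝ ∞ f := (cd_comp (bf_sm H n) (e j)).sub L.contDiff
  have hfp : ∀ (k : Fin 4 → ℤ) x, f (tr k x) = f x := by
    intro k x
    simp only [f, bf_tr, L]
    simp [tr]
    ring
  have h1 := int_fderiv_per hf hfp i
  have h2 : ∀ x, fderiv ℝ f x (e i) = fderiv ℝ (bf (H.a n) (H.α n)) x (e i) (e j) -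
      2 * Real.pi * e i 0 * e j 1 := by
    intro x
    have h3 : HasFDerivAt f (fderiv ℝ (fun x => bf (H.a n) (H.α n) x (e j)) x - L) x :=
      ((cd_comp (bf_sm H n) (e j)).differentiable (by simp) x).hasFDerivAt.sub L.hasFDerivAt
    rw [h3.fderiv]
    show fderiv ℝ (fun x => bf (H.a n) (H.α n) x (e j)) x (e i) - L (e i) = _
    rw [fderiv_comp' (bf_sm H n)]
    simp [L]
    ring
  simp only [h2] at h1
  have hi : IntegrableOn (fun x => fderiv ℝ (bf (H.a n) (H.α n)) x (e i) (e j))
      (Icc (0 : R4) 1) := (cd_fd (bf_sm H n) _ _).continuous.integrableOn_Icc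
  rw [integral_sub hi continuous_const.integrableOn_Icc] at h1
  have h4 : ∫ _ in Icc (0 : R4) 1, (2 * Real.pi * e i 0 * e j 1 : ℝ)
      = 2 * Real.pi * e i 0 * e j 1 := by
    rw [setIntegral_const, Measure.real, Real.volume_Icc_pi]
    simp
  rw [h4] at h1
  linarith

theorem int_jac (H : Higgs D) (n : ℕ) (i j : Fin 4) :
    ∫ x in Icc (0 : R4) 1, jac (H.a n) (H.α n) x (e i) (e j) =
      2 * Real.pi * (e i 0 * e j 1 - e j 0 * e i 1) := by
  have h1 : ∀ x, jac (H.a n) (H.α n) x (e i) (e j) =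
      fderiv ℝ (bf (H.a n) (H.α n)) x (e i) (e j) - fderiv ℝ (bf (H.a n) (H.α n)) x (e j) (e i) := by
    intro x
    rw [jac_eq_dd (H.a_smooth n) (H.α_smooth n)]
    rfl
  simp only [h1]
  rw [integral_sub (cd_fd (bf_sm H n) _ _).continuous.integrableOn_Icc
    (cd_fd (bf_sm H n) _ _).continuous.integrableOn_Icc, int_dbf, int_dbf]
  ring

end Vale.Agent.P247.H667
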