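import Vale.Agent.P247.H667.Spl
import Vale.Agent.P247.H324.MG.Def

/-!
# Clusters at the puncture, and the induction to the Puiseux form
-/

open MeasureTheory Set Metric Filter Topology
open scoped ContDiff ENNReal

noncomputable section

namespace Vale.Agent.P247.H667

open Vale.Agent.P247.H324

theorem mem_pb {r : ℝ} {z : ℂ} : z ∈ pb r ↔ ‖z‖ < r ∧ z ≠ 0 := by
  simp [pb]

theorem isOpen_pb (r : ℝ) : IsOpen (pb r) := isOpen_ball.sdiff isClosed_singleton

theorem pb_mono {r r' : ℝ} (h : r' ≤ r) : pb r' ⊆ pb r := fun _ hz =>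
  ⟨ball_subset_ball h hz.1, hz.2⟩

theorem pow_mem_pb {r r' : ℝ} {q : ℕ} (hq : 1 ≤ q) (h : r' ^ q ≤ r) {t : ℂ} (ht : t ∈ pb r') :
    t ^ q ∈ pb r := by
  rw [mem_pb] at ht ⊢
  refine ⟨?_, pow_ne_zero _ ht.2⟩
  rw [norm_pow]
  exact lt_of_lt_of_le (pow_lt_pow_left₀ ht.1 (norm_nonneg _) (by omega)) h

theorem eventually_pb {p : ℂ → Prop} (h : ∀ᶠ z in 𝓝[≠] (0 : ℂ), p z) {r : ℝ} (hr : 0 < r) :
    ∃ r' > 0, r' ≤ r ∧ ∀ z ∈ pb r', p z := by
  rw [eventually_nhdsWithin_iff, Metric.eventually_nhds_iff_ball] at h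
  obtain ⟨δ, hδ, hd⟩ := h
  exact ⟨min δ r, lt_min hδ hr, min_le_right _ _, fun z hz =>
    hd z (ball_subset_ball (min_le_left _ _) hz.1) hz.2⟩

/-- the two clusters exhaust all indices -/
theorem cl_add {N : ℕ} {θ : ℂ → ℂ → ℝ} {Y : ℂ → Fin N → ℂ} {z : ℂ}
    (hne : ∀ i, θ z (Y z i) ≠ 1) :
    MS.cl (fun z y => 2 - θ z y) Y z = Finset.univ.filter fun i => ¬ θ z (Y z i) < 1 := by
  rw [MS.cl]
  refine Finset.filter_congr fun i _ => ?_
  have := hne i
  constructor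
  · intro h1 h2
    linarith
  · intro h1
    have h2 : 1 < θ z (Y z i) := lt_of_le_of_ne (not_lt.1 h1) (Ne.symm this)
    linarith

/-- separation into two clusters at the puncture -/
theorem clust {N : ℕ} {r : ℝ} {Y : ℂ → Fin N → ℂ} (hr : 0 < r)
    {h : ℂ → ℂ} (hh : ContinuousOn h (pb r)) {M : ℕ} {c : Fin N → ℂ} {i0 j0 : Fin N}
    (hne : c j0 ≠ c i0)
    (hlim : ∀ F : ℂ → ℂ, Continuous F →
      Tendsto (fun t => ∑ i, F ((Y t i - h t) / t ^ M)) (𝓝[≠] 0) (𝓝 (∑ i, F (c i)))) :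
    ∃ r' > 0, r' ≤ r ∧ ∃ (θ : ℂ → ℂ → ℝ) (n1 n2 : ℕ), n1 < N ∧ n2 < N ∧ n1 + n2 = N ∧
      ContinuousOn (fun p : ℂ × ℂ => θ p.1 p.2) (pb r' ×ˢ univ) ∧
      (∀ z ∈ pb r', ∀ i, θ z (Y z i) ≠ 1) ∧ (∀ z ∈ pb r', (MS.cl θ Y z).card = n1) ∧
      ∀ z ∈ pb r', (MS.cl (fun z y => 2 - θ z y) Y z).card = n2 := by
  classical
  -- the separation constant
  obtain ⟨δ, hδ, hsep⟩ : ∃ δ > 0, ∀ j, c j ≠ c i0 → 2 * δ ≤ ‖c j - c i0‖ := by
    obtain ⟨j, hj, hj2⟩ := Finset.exists_min_image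
      (Finset.univ.filter fun j => c j ≠ c i0) (fun j => ‖c j - c i0‖)
      ⟨j0, Finset.mem_filter.2 ⟨Finset.mem_univ _, hne⟩⟩
    rw [Finset.mem_filter] at hj
    refine ⟨‖c j - c i0‖ / 2, half_pos (norm_pos_iff.2 (sub_ne_zero.2 hj.2)), fun l hl => ?_⟩
    have := hj2 l (Finset.mem_filter.2 ⟨Finset.mem_univ _, hl⟩)
    linarith
  set W : ℂ → Fin N → ℂ := fun t i => (Y t i - h t) / t ^ M with hW
  have hnear : ∀ᶠ t in 𝓝[≠] (0 : ℂ), ∀ i, ∃ j, ‖W t i - c j‖ < δ / 2 :=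
    near_of_tendsto (Y := W) (fun F hF => hlim F hF) (half_pos hδ)
  -- the bump
  let f : ContDiffBump (c i0) := ⟨δ / 2, δ, by positivity, by linarith⟩
  have hval : ∀ w, (∃ j, ‖w - c j‖ < δ / 2) →
      (‖w - c i0‖ < δ / 2 ∧ f w = 1) ∨ (δ < ‖w - c i0‖ ∧ f w = 0) := by
    rintro w ⟨j, hj⟩
    by_cases hc : c j = c i0
    · left
      rw [hc] at hj
      refine ⟨hj, f.one_of_mem_closedBall ?_⟩
      rw [mem_closedBall, dist_eq_norm]
      exact hj.le
    · right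
      have h1 := hsep j hc
      have h2 : ‖c j - c i0‖ ≤ ‖w - c j‖ + ‖w - c i0‖ := by
        have : c j - c i0 = -(w - c j) + (w - c i0) := by ring
        rw [this]
        exact (norm_add_le _ _).trans (by rw [norm_neg])
      have h3 : δ < ‖w - c i0‖ := by linarith
      refine ⟨h3, f.zero_of_le_dist ?_⟩
      rw [dist_eq_norm]
      exact h3.le
  set θ : ℂ → ℂ → ℝ := fun z y => ‖(y - h z) / z ^ M - c i0‖ / δ with hθ
  have hθlt : ∀ t i, (∃ j, ‖W t i - c j‖ < δ / 2) → (θ t (Y t i) < 1 ↔ f (W t i) = 1) := by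
    intro t i hj
    have e : θ t (Y t i) = ‖W t i - c i0‖ / δ := rfl
    rcases hval _ hj with ⟨h1, h2⟩ | ⟨h1, h2⟩
    · rw [e, div_lt_one hδ, h2]
      simp only [iff_true]
      linarith
    · rw [e, div_lt_one hδ, h2]
      simp only [zero_ne_one, iff_false, not_lt]
      exact h1.le
  have hθne : ∀ t i, (∃ j, ‖W t i - c j‖ < δ / 2) → θ t (Y t i) ≠ 1 := by
    intro t i hj
    have e : θ t (Y t i) = ‖W t i - c i0‖ / δ := rfl
    rw [e]
    intro h1
    rw [div_eq_one_iff_eq hδ.ne'] at h1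
    rcases hval _ hj with ⟨h2, -⟩ | ⟨h2, -⟩ <;> linarith
  -- the number of elements
  set n1 := (Finset.univ.filter fun j => c j = c i0).card with hn1
  have hsum0 : ∑ j, ((f (c j) : ℝ) : ℂ) = n1 := by
    have h1 : ∀ j, ((f (c j) : ℝ) : ℂ) = if c j = c i0 then 1 else 0 := by
      intro j
      split_ifs with hj
      · rw [hj, f.one_of_mem_closedBall (mem_closedBall_self (by positivity))]
        simp
      · rw [f.zero_of_le_dist ?_]
        · simp
        · rw [dist_eq_norm]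
          show δ ≤ _
          linarith [hsep j hj]
    rw [Finset.sum_congr rfl fun j _ => h1 j, Finset.sum_ite, Finset.sum_const_zero, add_zero,
      Finset.sum_const, nsmul_eq_mul, mul_one]
  have hcard : ∀ᶠ t in 𝓝[≠] (0 : ℂ), (MS.cl θ Y t).card = n1 := by
    have h1 := hlim (fun y => ((f y : ℝ) : ℂ))
      (Complex.continuous_ofReal.comp f.continuous)
    rw [hsum0] at h1
    filter_upwards [hnear, Metric.tendsto_nhds.1 h1 1 one_pos] with t ht ht2
    have h2 : ∑ i, ((f (W t i) : ℝ) : ℂ) = (MS.cl θ Y t).card := by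
      have h3 : ∀ i, ((f (W t i) : ℝ) : ℂ) = if θ t (Y t i) < 1 then 1 else 0 := by
        intro i
        split_ifs with hi
        · rw [(hθlt t i (ht i)).1 hi]
          simp
        · rcases hval _ (ht i) with ⟨-, h4⟩ | ⟨-, h4⟩
          · exact absurd ((hθlt t i (ht i)).2 h4) hi
          · rw [h4]
            simp
      rw [Finset.sum_congr rfl fun j _ => h3 j, Finset.sum_ite, Finset.sum_const_zero, add_zero,
        Finset.sum_const, nsmul_eq_mul, mul_one, MS.cl]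
    have h5 : dist (((MS.cl θ Y t).card : ℕ) : ℂ) (n1 : ℂ) < 1 := by
      rw [← h2]
      exact ht2
    rw [dist_eq_norm] at h5
    have h6 : (((MS.cl θ Y t).card : ℂ) - (n1 : ℂ)) =
        (((MS.cl θ Y t).card : ℤ) - (n1 : ℤ) : ℤ) := by push_cast; ring
    rw [h6, Complex.norm_intCast] at h5
    have h7 : |(((MS.cl θ Y t).card : ℤ) - (n1 : ℤ) : ℤ)| < 1 := by exact_mod_cast h5
    rw [Int.abs_lt_one_iff] at h7
    omega
  obtain ⟨r', hr', hr'r, hpb⟩ := eventually_pb (hnear.and hcard) hr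
  have hn1N : n1 < N := by
    have h1 : (Finset.univ.filter fun j => c j = c i0) ⊂ Finset.univ := by
      rw [Finset.filter_ssubset]
      exact ⟨j0, Finset.mem_univ _, hne⟩
    simpa using Finset.card_lt_card h1
  have hn1pos : 0 < n1 := by
    rw [hn1, Finset.card_pos]
    exact ⟨i0, by simp⟩
  refine ⟨r', hr', hr'r, θ, n1, N - n1, hn1N, by omega, by omega, ?_, ?_, ?_, ?_⟩
  · refine ContinuousOn.div_const (ContinuousOn.norm (ContinuousOn.sub ?_ continuousOn_const)) δ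
    refine ContinuousOn.div (ContinuousOn.sub continuousOn_snd ?_) ?_ ?_
    · exact (hh.mono (pb_mono hr'r)).comp continuousOn_fst fun p hp => hp.1
    · exact (continuousOn_fst.pow M)
    · intro p hp
      exact pow_ne_zero _ (mem_pb.1 hp.1).2
  · exact fun z hz i => hθne z i ((hpb z hz).1 i)
  · exact fun z hz => (hpb z hz).2
  · intro z hz
    rw [cl_add (fun i => hθne z i ((hpb z hz).1 i))]
    have h1 := Finset.card_filter_add_card_filter_not (s := (Finset.univ : Finset (Fin N)))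
      (p := fun i => θ z (Y z i) < 1)
    have h2 : (Finset.univ.filter fun i => θ z (Y z i) < 1).card = n1 := (hpb z hz).2
    rw [Finset.card_univ, Fintype.card_fin] at h1
    omega

end Vale.Agent.P247.H667
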