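import Mathlib

/-!
# Extraction of a weakly convergent subsequence of densities bounded in `L¹_loc`
-/

open Set MeasureTheory Filter Topology Metric

noncomputable section

namespace Vale.Agent.P247.H667

section
variable {X : Type*} [NormedAddCommGroup X] [NormedSpace ℝ X] [FiniteDimensional ℝ X]
  [MeasurableSpace X] [BorelSpace X]

/-- continuous functions supported in the closed ball of radius `R` -/
def SB (X : Type*) [NormedAddCommGroup X] [NormedSpace ℝ X] (R : ℕ) : Set C(X, ℝ) :=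
  {f | ∀ x ∉ closedBall (0 : X) R, f x = 0}

theorem extract {ι : Type*} [Countable ι] (μ : Measure X) [IsLocallyFiniteMeasure μ]
    (g : ℕ → ι → X → ℝ) (hg : ∀ n i, Continuous (g n i))
    (hb : ∀ (R : ℕ) (i : ι), ∃ C, ∀ n, ∫ x in closedBall (0 : X) R, |g n i x| ∂μ ≤ C) :
    ∃ ns : ℕ → ℕ, StrictMono ns ∧ ∀ i, ∀ f : X → ℝ, Continuous f → HasCompactSupport f →
      ∃ L, Tendsto (fun j => ∫ x, f x * g (ns j) i x ∂μ) atTop (𝓝 L) := by
  classical
  have : ProperSpace X := FiniteDimensional.proper ℝ X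
  choose C hC using hb
  have hne : ∀ R, Nonempty (SB X R) := fun R => ⟨⟨0, fun x _ => rfl⟩⟩
  let D : ∀ R : ℕ, ℕ → SB X R := fun R => TopologicalSpace.denseSeq (SB X R)
  -- bounds
  have hfb : ∀ (R : ℕ) (f : C(X, ℝ)), ∃ B, 0 ≤ B ∧ ∀ x ∈ closedBall (0 : X) R, |f x| ≤ B := by
    intro R f
    obtain ⟨B, hB⟩ := (isCompact_closedBall (0 : X) R).exists_bound_of_continuousOn
      f.continuous.continuousOn
    exact ⟨max B 0, le_max_right _ _, fun x hx => (hB x hx).trans (le_max_left _ _)⟩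
  have hint : ∀ (R : ℕ) (f : X → ℝ), Continuous f → (∀ x ∉ closedBall (0 : X) R, f x = 0) →
      ∀ n i, ∫ x, f x * g n i x ∂μ = ∫ x in closedBall (0 : X) R, f x * g n i x ∂μ := by
    intro R f _ hf n i
    rw [setIntegral_eq_integral_of_forall_compl_eq_zero]
    intro x hx
    rw [hf x hx, zero_mul]
  have hest : ∀ (R : ℕ) (f : X → ℝ) (B : ℝ), Continuous f → (∀ x ∉ closedBall (0 : X) R, f x = 0) →
      (∀ x ∈ closedBall (0 : X) R, |f x| ≤ B) → 0 ≤ B →
      ∀ n i, |∫ x, f x * g n i x ∂μ| ≤ B * C R i := by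
    intro R f B hfc hf hB hB0 n i
    rw [hint R f hfc hf]
    calc _ ≤ ∫ x in closedBall (0 : X) R, B * |g n i x| ∂μ := by
          rw [← Real.norm_eq_abs]
          apply norm_integral_le_of_norm_le
          · have : IntegrableOn (fun x => |g n i x|) (closedBall (0 : X) R) μ :=
              ((hg n i).abs.continuousOn).integrableOn_compact (isCompact_closedBall _ _)
            exact this.const_mul B
          · rw [ae_restrict_iff' isClosed_closedBall.measurableSet]
            refine Eventually.of_forall fun x hx => ?_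
            rw [norm_mul, Real.norm_eq_abs, Real.norm_eq_abs]
            exact mul_le_mul_of_nonneg_right (hB x hx) (abs_nonneg _)
      _ = B * ∫ x in closedBall (0 : X) R, |g n i x| ∂μ := integral_const_mul _ _
      _ ≤ _ := mul_le_mul_of_nonneg_left (hC R i n) hB0
  -- the sequence in the product
  choose B hB0 hB using hfb
  let K : (ℕ × ℕ × ι) → ℝ := fun q => B q.1 (D q.1 q.2.1 : C(X, ℝ)) * C q.1 q.2.2
  let a : ℕ → (ℕ × ℕ × ι) → ℝ := fun n q => ∫ x, (D q.1 q.2.1 : C(X, ℝ)) x * g n q.2.2 x ∂μ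
  have ha : ∀ n, a n ∈ Set.pi univ (fun q => Icc (-K q) (K q)) := by
    intro n q _
    have := hest q.1 (D q.1 q.2.1 : C(X, ℝ)) _ (D q.1 q.2.1 : C(X, ℝ)).continuous
      (D q.1 q.2.1).2 (hB q.1 _) (hB0 q.1 _) n q.2.2
    exact abs_le.1 this
  have hcomp : IsCompact (Set.pi univ (fun q => Icc (-K q) (K q))) :=
    isCompact_univ_pi fun q => isCompact_Icc
  obtain ⟨b, _, ns, hns, hlim⟩ := hcomp.tendsto_subseq ha
  refine ⟨ns, hns, fun i f hf hfs => ?_⟩
  -- a ball containing the support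
  obtain ⟨R, hR⟩ : ∃ R : ℕ, ∀ x ∉ closedBall (0 : X) R, f x = 0 := by
    obtain ⟨R, hR⟩ := hfs.isCompact.isBounded.subset_closedBall (0 : X)
    obtain ⟨N, hN⟩ := exists_nat_ge R
    refine ⟨N, fun x hx => ?_⟩
    by_contra h
    exact hx (closedBall_subset_closedBall hN (hR (subset_tsupport f h)))
  let F : SB X R := ⟨⟨f, hf⟩, hR⟩
  have hC0 : 0 ≤ C R i := le_trans (integral_nonneg fun x => abs_nonneg _) (hC R i 0)
  apply cauchySeq_tendsto_of_complete
  rw [Metric.cauchySeq_iff']
  intro ε hε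
  -- approximate
  obtain ⟨m, hm⟩ : ∃ m, ∀ x ∈ closedBall (0 : X) R,
      |f x - (D R m : C(X, ℝ)) x| ≤ ε / (4 * (C R i + 1)) := by
    have h1 : F ∈ closure (range (D R)) := TopologicalSpace.denseRange_denseSeq (SB X R) F
    rw [mem_closure_iff_seq_limit] at h1
    obtain ⟨x, hx, hxl⟩ := h1
    have h2 : Tendsto (fun k => (x k : C(X, ℝ))) atTop (𝓝 (F : C(X, ℝ))) :=
      (continuous_subtype_val.tendsto F).comp hxl
    rw [ContinuousMap.tendsto_iff_forall_isCompact_tendstoUniformlyOn] at h2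
    have h3 := h2 _ (isCompact_closedBall (0 : X) R)
    rw [Metric.tendstoUniformlyOn_iff] at h3
    obtain ⟨k, hk⟩ := (h3 (ε / (4 * (C R i + 1))) (by positivity)).exists
    obtain ⟨m, hm⟩ := hx k
    refine ⟨m, fun y hy => ?_⟩
    have := hk y hy
    rw [Real.dist_eq] at this
    rw [hm]
    exact this.le
  have happ : ∀ n, |(∫ x, f x * g n i x ∂μ) - ∫ x, (D R m : C(X, ℝ)) x * g n i x ∂μ| ≤ ε / 4 := by
    intro n
    have hi1 : Integrable (fun x => f x * g n i x) μ := by
      apply (hf.mul (hg n i)).integrable_of_hasCompactSupport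
      exact hfs.mul_right
    have hds : HasCompactSupport (fun x => (D R m : C(X, ℝ)) x) :=
      HasCompactSupport.intro (isCompact_closedBall (0 : X) R) (D R m).2
    have hi2 : Integrable (fun x => (D R m : C(X, ℝ)) x * g n i x) μ := by
      apply (((D R m : C(X, ℝ)).continuous).mul (hg n i)).integrable_of_hasCompactSupport
      exact hds.mul_right
    rw [← integral_sub hi1 hi2]
    have h1 := hest R (fun x => f x - (D R m : C(X, ℝ)) x) (ε / (4 * (C R i + 1)))
      (hf.sub (D R m : C(X, ℝ)).continuous)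
      (fun x hx => by rw [hR x hx, (D R m).2 x hx, sub_zero]) hm (by positivity) n i
    simp only [sub_mul] at h1
    refine h1.trans ?_
    rw [div_mul_eq_mul_div, div_le_iff₀ (by positivity)]
    nlinarith
  have h4 : Tendsto (fun j => a (ns j) (R, m, i)) atTop (𝓝 (b (R, m, i))) := by
    have := (tendsto_pi_nhds.1 hlim) (R, m, i)
    exact this
  have h5 := Metric.cauchySeq_iff'.1 h4.cauchySeq (ε / 4) (by positivity)
  obtain ⟨N, hN⟩ := h5
  refine ⟨N, fun n hn => ?_⟩
  have h6 := hN n hn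
  rw [Real.dist_eq] at h6 ⊢
  have h7 := happ (ns n)
  have h8 := happ (ns N)
  simp only [a] at h6
  rw [abs_lt] at h6 ⊢
  rw [abs_le] at h7 h8
  constructor <;> linarith [h6.1, h6.2, h7.1, h7.2, h8.1, h8.2]

end

end Vale.Agent.P247.H667
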