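import Vale.Agent.P247.H667.Clos
import Vale.Agent.P247.H667.Unf

/-!
# Periodicity and bounds of the Jacobian and of the energy density
-/

open Set MeasureTheory Filter Topology Metric
open scoped ContDiff

noncomputable section

namespace Vale.Agent.P247.H667

open Vale.Agent.P247.H74 Vale.Agent.P247.H574

theorem fderiv_tr {E : Type*} [NormedAddCommGroup E] [NormedSpace ℝ E] (f : R4 → E)
    (k : Fin 4 → ℤ) (x : R4) : fderiv ℝ f (tr k x) = fderiv ℝ (fun y => f (tr k y)) x :=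
  (fderiv_comp_add_right (𝕜 := ℝ) (f := f) (x := x) (fun i => (k i : ℝ))).symm

/-- the gauge factor -/
def gf (k : Fin 4 → ℤ) (x : R4) : ℂ := Complex.exp (2 * Real.pi * Complex.I * k 0 * x 1)

theorem norm_gf (k : Fin 4 → ℤ) (x : R4) : ‖gf k x‖ = 1 := by
  unfold gf
  rw [show (2 * Real.pi * Complex.I * k 0 * x 1 : ℂ) = ((2 * Real.pi * k 0 * x 1 : ℝ) : ℂ) * Complex.I
    by push_cast; ring]
  exact Complex.norm_exp_ofReal_mul_I _

theorem hasFDerivAt_gf (k : Fin 4 → ℤ) (x : R4) :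
    HasFDerivAt (gf k) (gf k x • ((2 * Real.pi * Complex.I * k 0 : ℂ) •
      (Complex.ofRealCLM.comp (ContinuousLinearMap.proj 1 : R4 →L[ℝ] ℝ)))) x := by
  unfold gf
  have h : HasFDerivAt (fun x : R4 => ((2 * Real.pi * Complex.I * k 0 : ℂ) * (x 1 : ℂ)))
      ((2 * Real.pi * Complex.I * k 0 : ℂ) •
      (Complex.ofRealCLM.comp (ContinuousLinearMap.proj 1 : R4 →L[ℝ] ℝ))) x := by
    have h0 : HasFDerivAt (fun x : R4 => (x 1 : ℂ))
        (Complex.ofRealCLM.comp (ContinuousLinearMap.proj 1 : R4 →L[ℝ] ℝ)) x :=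
      (Complex.ofRealCLM.comp (ContinuousLinearMap.proj 1 : R4 →L[ℝ] ℝ)).hasFDerivAt
    exact h0.const_mul _
  exact h.cexp

variable {D : Data}

theorem nab_tr (H : Higgs D) (n : ℕ) (k : Fin 4 → ℤ) (x u : R4) :
    nab (H.a n) (H.α n) (tr k x) u = gf k x * nab (H.a n) (H.α n) x u := by
  unfold nab
  have h1 : (fun y => H.α n (tr k y)) = fun y => gf k y * H.α n y := by
    funext y; exact H.α_per n k y
  have h2 : HasFDerivAt (fun y => gf k y * H.α n y) _ x :=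
    (hasFDerivAt_gf k x).mul
      (((H.α_smooth n).differentiable (by simp)) x).hasFDerivAt
  rw [fderiv_tr, h1, h2.fderiv, H.a_per, H.α_per]
  have h3 : Complex.exp (2 * Real.pi * Complex.I * k 0 * x 1) = gf k x := rfl
  rw [h3]
  simp
  ring

theorem dd_tr (H : Higgs D) (n : ℕ) (k : Fin 4 → ℤ) (x : R4) :
    dd (H.a n) (tr k x) = dd (H.a n) x := by
  unfold dd
  have h1 : (fun y => H.a n (tr k y)) = fun y => H.a n y +
      (2 * Real.pi * k 0) • (ContinuousLinearMap.proj 1 : R4 →L[ℝ] ℝ) := by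
    funext y; exact H.a_per n k y
  rw [fderiv_tr, h1, fderiv_add_const]

theorem norm_α_tr (H : Higgs D) (n : ℕ) (k : Fin 4 → ℤ) (x : R4) :
    ‖H.α n (tr k x)‖ = ‖H.α n x‖ := by
  rw [H.α_per]
  have h3 : Complex.exp (2 * Real.pi * Complex.I * k 0 * x 1) = gf k x := rfl
  rw [h3, norm_mul, norm_gf, one_mul]

theorem jac_tr (H : Higgs D) (n : ℕ) (k : Fin 4 → ℤ) (x u v : R4) :
    jac (H.a n) (H.α n) (tr k x) u v = jac (H.a n) (H.α n) x u v := by
  unfold jac
  rw [norm_α_tr, dd_tr, nab_tr, nab_tr]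
  congr 2
  have h : (starRingEnd ℂ) (gf k x * nab (H.a n) (H.α n) x u) * (gf k x * nab (H.a n) (H.α n) x v)
      = ((starRingEnd ℂ) (gf k x) * gf k x) *
        ((starRingEnd ℂ) (nab (H.a n) (H.α n) x u) * nab (H.a n) (H.α n) x v) := by
    rw [map_mul]; ring
  rw [h, ← Complex.normSq_eq_conj_mul_self, Complex.normSq_eq_norm_sq, norm_gf]
  norm_num

theorem en_tr (H : Higgs D) (n : ℕ) (k : Fin 4 → ℤ) (x : R4) :
    en (H.r n) (H.a n) (H.α n) (tr k x) = en (H.r n) (H.a n) (H.α n) x := by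
  unfold en
  rw [norm_α_tr]
  simp only [dd_tr, nab_tr, norm_mul, norm_gf, one_mul]

theorem en_nonneg (H : Higgs D) (n : ℕ) (x : R4) : 0 ≤ en (H.r n) (H.a n) (H.α n) x := by
  unfold en
  have := H.r_pos n
  positivity

theorem nab_cont (H : Higgs D) (n : ℕ) (u : R4) :
    Continuous (fun x => nab (H.a n) (H.α n) x u) := by
  unfold nab
  have h1 : Continuous (fun x => fderiv ℝ (H.α n) x u) :=
    ((H.α_smooth n).continuous_fderiv (by simp)).clm_apply continuous_const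
  have h2 : Continuous (fun x => ((H.a n x u : ℝ) : ℂ)) :=
    Complex.continuous_ofReal.comp ((H.a_smooth n).continuous.clm_apply continuous_const)
  exact h1.sub ((continuous_const.mul h2).mul (H.α_smooth n).continuous)

theorem dd_cont' {l : R4 → R4 →L[ℝ] ℝ} (hl : ContDiff ℝ ∞ l) (u v : R4) :
    Continuous (fun x => dd l x u v) := by
  simp only [dd_apply]
  exact (cd_fd hl u v).continuous.sub (cd_fd hl v u).continuous

theorem en_cont (H : Higgs D) (n : ℕ) : Continuous (en (H.r n) (H.a n) (H.α n)) := by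
  unfold en
  refine Continuous.add (Continuous.add ?_ ?_) ?_
  · exact continuous_finsetSum _ fun i _ => (nab_cont H n (e i)).norm.pow 2
  · exact continuous_const.mul ((continuous_const.sub
      ((H.α_smooth n).continuous.norm.pow 2)).pow 2)
  · exact continuous_const.mul (continuous_finsetSum _ fun i _ =>
      continuous_finsetSum _ fun j _ => (dd_cont' (H.a_smooth n) (e i) (e j)).pow 2)

theorem jac_cont (H : Higgs D) (n : ℕ) (u v : R4) :
    Continuous (fun x => jac (H.a n) (H.α n) x u v) := by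
  unfold jac
  refine Continuous.add ?_ ?_
  · exact (continuous_const.sub ((H.α_smooth n).continuous.norm.pow 2)).mul
      (dd_cont' (H.a_smooth n) u v)
  · exact continuous_const.mul (Complex.continuous_im.comp
      ((Complex.continuous_conj.comp (nab_cont H n u)).mul (nab_cont H n v)))

/-! ### Bounds -/

theorem nab_lin (a : R4 → R4 →L[ℝ] ℝ) (α : R4 → ℂ) (x u : R4) :
    nab a α x u = ∑ i, (u i : ℂ) * nab a α x (e i) := by
  have hu : u = ∑ i, u i • e i := by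
    funext j
    simp [e, Finset.sum_apply, Pi.single_apply]
  have key : ∀ L : R4 →L[ℝ] ℂ, L u = ∑ i, (u i : ℂ) * L (e i) := by
    intro L
    conv_lhs => rw [hu]
    simp
  have h1 := key (fderiv ℝ α x - (Complex.I * α x) • (Complex.ofRealCLM.comp (a x)))
  have h2 : ∀ w, nab a α x w =
      (fderiv ℝ α x - (Complex.I * α x) • (Complex.ofRealCLM.comp (a x))) w := by
    intro w
    simp [nab]
    ring
  simp only [h2]
  exact h1

theorem nab_norm_le (a : R4 → R4 →L[ℝ] ℝ) (α : R4 → ℂ) (x u : R4) :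
    ‖nab a α x u‖ ^ 2 ≤ 4 * ‖u‖ ^ 2 * ∑ i, ‖nab a α x (e i)‖ ^ 2 := by
  have h1 : ‖nab a α x u‖ ≤ ∑ i, ‖u‖ * ‖nab a α x (e i)‖ := by
    rw [nab_lin a α x u]
    refine (norm_sum_le _ _).trans (Finset.sum_le_sum fun i _ => ?_)
    rw [norm_mul]
    refine mul_le_mul_of_nonneg_right ?_ (norm_nonneg _)
    rw [Complex.norm_real]
    exact norm_le_pi_norm u i
  rw [← Finset.mul_sum] at h1
  have h2 : (∑ i, ‖nab a α x (e i)‖) ^ 2 ≤ 4 * ∑ i, ‖nab a α x (e i)‖ ^ 2 := by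
    have := sq_sum_le_card_mul_sum_sq (s := (Finset.univ : Finset (Fin 4)))
      (f := fun i => ‖nab a α x (e i)‖)
    simpa using this
  calc ‖nab a α x u‖ ^ 2 ≤ (‖u‖ * ∑ i, ‖nab a α x (e i)‖) ^ 2 :=
        pow_le_pow_left₀ (norm_nonneg _) h1 2
    _ = ‖u‖ ^ 2 * (∑ i, ‖nab a α x (e i)‖) ^ 2 := by ring
    _ ≤ ‖u‖ ^ 2 * (4 * ∑ i, ‖nab a α x (e i)‖ ^ 2) := mul_le_mul_of_nonneg_left h2 (by positivity)
    _ = _ := by ring

theorem dd_lin (l : R4 → R4 →L[ℝ] ℝ) (x u v : R4) :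
    dd l x u v = ∑ i, ∑ j, u i * v j * dd l x (e i) (e j) := by
  have hu : ∀ u : R4, u = ∑ i, u i • e i := by
    intro u
    funext j
    simp [e, Finset.sum_apply, Pi.single_apply]
  have k1 : ∀ (L : R4 →L[ℝ] ℝ) (v : R4), L v = ∑ j, v j * L (e j) := by
    intro L v
    conv_lhs => rw [hu v]
    simp
  have k2 : ∀ (B : R4 →L[ℝ] R4 →L[ℝ] ℝ) (u v : R4), B u v = ∑ i, ∑ j, u i * v j * B (e i) (e j) := by
    intro B u v
    have h1 : B u v = ∑ i, u i * B (e i) v := by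
      have := k1 (B.flip v) u
      simpa using this
    rw [h1]
    refine Finset.sum_congr rfl fun i _ => ?_
    rw [k1 (B (e i)) v, Finset.mul_sum]
    refine Finset.sum_congr rfl fun j _ => ?_
    ring
  exact k2 (dd l x) u v

theorem dd_abs_le (l : R4 → R4 →L[ℝ] ℝ) (x u v : R4) :
    |dd l x u v| ≤ ‖u‖ * ‖v‖ * ∑ i, ∑ j, |dd l x (e i) (e j)| := by
  rw [dd_lin]
  refine (Finset.abs_sum_le_sum_abs _ _).trans ?_
  rw [Finset.mul_sum]
  refine Finset.sum_le_sum fun i _ => ?_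
  refine (Finset.abs_sum_le_sum_abs _ _).trans ?_
  rw [Finset.mul_sum]
  refine Finset.sum_le_sum fun j _ => ?_
  rw [abs_mul, abs_mul]
  refine mul_le_mul_of_nonneg_right ?_ (abs_nonneg _)
  exact mul_le_mul (norm_le_pi_norm u i) (norm_le_pi_norm v j) (abs_nonneg _) (norm_nonneg _)

/-- `|Jac(u,v)| ≤ 16 |u| |v| e` -/
theorem jac_abs_le {r : ℝ} (hr : 0 < r) (a : R4 → R4 →L[ℝ] ℝ) (α : R4 → ℂ) (x u v : R4) :
    |jac a α x u v| ≤ 16 * ‖u‖ * ‖v‖ * en r a α x := by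
  have hS : (1 - ‖α x‖ ^ 2) ^ 2 ≥ 0 := sq_nonneg _
  set s := 1 - ‖α x‖ ^ 2 with hs
  set N2 := ∑ i, ‖nab a α x (e i)‖ ^ 2 with hN2
  have hN0 : 0 ≤ N2 := Finset.sum_nonneg fun i _ => by positivity
  -- curvature part
  have hF : |s * dd a x u v| ≤ ‖u‖ * ‖v‖ *
      (8 * (r * s ^ 2) + 1 / 2 * ((1 / r) * ∑ i, ∑ j, dd a x (e i) (e j) ^ 2)) := by
    rw [abs_mul]
    have h1 : ∀ i j : Fin 4, |s| * |dd a x (e i) (e j)| ≤
        1 / 2 * (r * s ^ 2) + 1 / 2 * ((1 / r) * dd a x (e i) (e j) ^ 2) := by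
      intro i j
      set F := dd a x (e i) (e j)
      have hsq : 0 < √r := Real.sqrt_pos.2 hr
      have h2 : (√r * |s|) * (|F| / √r) = |s| * |F| := by field_simp
      have h3 : (√r * |s|) ^ 2 = r * s ^ 2 := by
        rw [mul_pow, Real.sq_sqrt hr.le, sq_abs]
      have h4 : (|F| / √r) ^ 2 = (1 / r) * F ^ 2 := by
        rw [div_pow, Real.sq_sqrt hr.le, sq_abs]; ring
      nlinarith [sq_nonneg (√r * |s| - |F| / √r)]
    have h2 : |s| * ∑ i, ∑ j, |dd a x (e i) (e j)| ≤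
        8 * (r * s ^ 2) + 1 / 2 * ((1 / r) * ∑ i, ∑ j, dd a x (e i) (e j) ^ 2) := by
      calc |s| * ∑ i, ∑ j, |dd a x (e i) (e j)| = ∑ i, ∑ j, |s| * |dd a x (e i) (e j)| := by
            rw [Finset.mul_sum]
            exact Finset.sum_congr rfl fun i _ => Finset.mul_sum _ _ _
        _ ≤ ∑ i : Fin 4, ∑ j : Fin 4,
            (1 / 2 * (r * s ^ 2) + 1 / 2 * ((1 / r) * dd a x (e i) (e j) ^ 2)) :=
            Finset.sum_le_sum fun i _ => Finset.sum_le_sum fun j _ => h1 i j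
        _ = _ := by
            simp only [Finset.sum_add_distrib, Finset.sum_const, Finset.card_univ,
              Fintype.card_fin, nsmul_eq_mul, ← Finset.mul_sum]
            ring
    calc |s| * |dd a x u v| ≤ |s| * (‖u‖ * ‖v‖ * ∑ i, ∑ j, |dd a x (e i) (e j)|) :=
          mul_le_mul_of_nonneg_left (dd_abs_le a x u v) (abs_nonneg _)
      _ = ‖u‖ * ‖v‖ * (|s| * ∑ i, ∑ j, |dd a x (e i) (e j)|) := by ring
      _ ≤ _ := mul_le_mul_of_nonneg_left h2 (by positivity)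
  -- gradient part
  have hG : |2 * ((starRingEnd ℂ) (nab a α x u) * nab a α x v).im| ≤ 8 * ‖u‖ * ‖v‖ * N2 := by
    rw [abs_mul, abs_of_pos (by norm_num : (0 : ℝ) < 2)]
    have h1 : |((starRingEnd ℂ) (nab a α x u) * nab a α x v).im|
        ≤ ‖nab a α x u‖ * ‖nab a α x v‖ := by
      refine (Complex.abs_im_le_norm _).trans ?_
      rw [norm_mul, RCLike.norm_conj]
    have h2 := nab_norm_le a α x u
    have h3 := nab_norm_le a α x v
    rw [← hN2] at h2 h3
    have h4 : ‖nab a α x u‖ ≤ 2 * ‖u‖ * √N2 := by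
      refine (sq_le_sq₀ (norm_nonneg _) (by positivity)).1 ?_
      rw [mul_pow, mul_pow, Real.sq_sqrt hN0]
      linarith
    have h5 : ‖nab a α x v‖ ≤ 2 * ‖v‖ * √N2 := by
      refine (sq_le_sq₀ (norm_nonneg _) (by positivity)).1 ?_
      rw [mul_pow, mul_pow, Real.sq_sqrt hN0]
      linarith
    have h6 : ‖nab a α x u‖ * ‖nab a α x v‖ ≤ (2 * ‖u‖ * √N2) * (2 * ‖v‖ * √N2) :=
      mul_le_mul h4 h5 (norm_nonneg _) (by positivity)
    have h7 : (2 * ‖u‖ * √N2) * (2 * ‖v‖ * √N2) = 4 * ‖u‖ * ‖v‖ * N2 := by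
      have := Real.mul_self_sqrt hN0
      calc _ = 4 * ‖u‖ * ‖v‖ * (√N2 * √N2) := by ring
        _ = _ := by rw [this]
    linarith
  have hE : en r a α x = N2 + r * s ^ 2 + (1 / r) * ∑ i, ∑ j, dd a x (e i) (e j) ^ 2 := rfl
  have hF0 : 0 ≤ (1 / r) * ∑ i, ∑ j, dd a x (e i) (e j) ^ 2 := by positivity
  have hs0 : 0 ≤ r * s ^ 2 := by positivity
  have huv : 0 ≤ ‖u‖ * ‖v‖ := by positivity
  unfold jac
  rw [← hs]
  refine (abs_add_le _ _).trans ?_
  rw [hE]
  nlinarith [mul_nonneg huv hN0, mul_nonneg huv hF0, mul_nonneg huv hs0]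

end Vale.Agent.P247.H667
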