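import Vale.Agent.P247.H667.BoxLim

/-!
# ICUR: from a Higgs sequence to an integral current
-/

open Set MeasureTheory Filter Topology Metric
open scoped ContDiff ENNReal

noncomputable section

namespace Vale.Agent.P247.H667

open Vale.Agent.P247.H74 Vale.Agent.P247.H574 Vale.Agent.P247.H264 Vale.Agent.P247.H899

variable {D : Data} (H : Higgs D) (b : Box D)

theorem contOn_en (n : ℕ) :
    ContinuousOn (fun p => en (H.r n) (H.a n) (H.α n) (b.Θ p)) (PD 2) :=
  (en_cont H n).comp_continuousOn b.smooth.continuousOn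

/-- uniform energy bound in the box -/
theorem box_energy {K : ℝ} (hK : 0 ≤ K) : ∃ C, 0 ≤ C ∧ ∀ n,
    (∫⁻ p in PD 1, ENNReal.ofReal (K * en (H.r n) (H.a n) (H.α n) (b.Θ p)) ≤ ENNReal.ofReal C) ∧
    IntegrableOn (fun p => K * en (H.r n) (H.a n) (H.α n) (b.Θ p)) (PD 1) ∧
    ∫ p in PD 1, K * en (H.r n) (H.a n) (H.α n) (b.Θ p) ≤ C := by
  obtain ⟨c, hc, hlow⟩ := exists_jb_low b
  obtain ⟨C0, hC0, hC⟩ := int_jb_en H b
  refine ⟨K / c * C0, by positivity, fun n => ?_⟩
  have hi1 : IntegrableOn (fun p => K * en (H.r n) (H.a n) (H.α n) (b.Θ p)) (PD 1) :=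
    ((continuousOn_const.mul ((contOn_en H b n).mono CPD_sub)).integrableOn_compact
      isCompact_CPD).mono_set PD1_sub
  have hi2 : IntegrableOn (fun p => |jb b p| * en (H.r n) (H.a n) (H.α n) (b.Θ p)) (PD 1) :=
    ((((jb_cont b).mono CPD_sub).abs.mul ((contOn_en H b n).mono CPD_sub)).integrableOn_compact
      isCompact_CPD).mono_set PD1_sub
  have hle : ∫ p in PD 1, K * en (H.r n) (H.a n) (H.α n) (b.Θ p) ≤ K / c * C0 := by
    calc ∫ p in PD 1, K * en (H.r n) (H.a n) (H.α n) (b.Θ p)
        ≤ ∫ p in PD 1, K / c * (|jb b p| * en (H.r n) (H.a n) (H.α n) (b.Θ p)) := by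
          refine setIntegral_mono_on hi1 (hi2.const_mul _) (isOpen_PD 1).measurableSet
            fun p hp => ?_
          have h1 := hlow p (PD1_sub hp)
          have h2 := en_nonneg H n (b.Θ p)
          rw [div_mul_eq_mul_div, le_div_iff₀ hc]
          have h3 := mul_le_mul_of_nonneg_right h1 (mul_nonneg hK h2)
          nlinarith
      _ = K / c * ∫ p in PD 1, (|jb b p| * en (H.r n) (H.a n) (H.α n) (b.Θ p)) :=
          integral_const_mul _ _
      _ ≤ _ := mul_le_mul_of_nonneg_left (hC n) (by positivity)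
  refine ⟨?_, hi1, hle⟩
  rw [← ofReal_integral_eq_lintegral_ofReal hi1
    (Eventually.of_forall fun p => mul_nonneg hK (en_nonneg H n _))]
  exact ENNReal.ofReal_le_ofReal hle

theorem inv_two_pi_le : 1 / (2 * Real.pi) ≤ 1 := by
  rw [div_le_one (by positivity)]
  linarith [Real.pi_gt_three]

theorem abs_sgc : |sg b / (2 * Real.pi)| ≤ 1 := by
  rw [abs_div, abs_sg, abs_of_pos (by positivity : 0 < 2 * Real.pi)]
  exact inv_two_pi_le

/-- data of the slice theorem -/
theorem slice_data {ns : ℕ → ℕ} (hns : StrictMono ns) {T : (R4 → F2) → ℝ}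
    (hT : ∀ φ, CF φ → Tendsto (fun j => Pn H (ns j) φ) atTop (𝓝 (T φ))) :
    ∃ τ : Measure (ℂ × ℂ), IsFiniteMeasure τ ∧ (∀ f, TF (PD 1) f → ∫ p, f p ∂τ = T (pf b f)) ∧
      ∃ (F e : ℕ → ℂ × ℂ → ℝ) (A B : ℕ → ℂ → ℂ × ℂ → ℝ) (C : ℝ≥0∞),
        H514.SliceData (ball 0 1) (ball 0 1) τ F e A B C := by
  obtain ⟨B, hB1, hB⟩ := exists_bd_fd b
  have hK : 0 ≤ 16 * B ^ 2 := by positivity
  obtain ⟨C, hC0, hC⟩ := box_energy H b hK
  have hFe : ∀ n, ∀ p ∈ PD 1, |Fn H b n p| ≤
      16 * B ^ 2 * en (H.r n) (H.a n) (H.α n) (b.Θ p) := by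
    intro n p hp
    have h1 := JB_le H b hB (n := n) (PD1_sub hp) (0, 1) (0, Complex.I)
    rw [norm_pair_1, norm_pair_I, mul_one, mul_one] at h1
    unfold Fn
    rw [abs_mul]
    calc _ ≤ 1 * |JB H b n p (0, 1) (0, Complex.I)| :=
          mul_le_mul_of_nonneg_right (abs_sgc b) (abs_nonneg _)
      _ ≤ _ := by rw [one_mul]; exact h1
  have hTadd : ∀ φ ψ, CF φ → CF ψ → T (φ + ψ) = T φ + T ψ := fun φ ψ h h' => by
    have h1 := hT _ (CF.add' h h')
    have h2 := (hT φ h).add (hT ψ h')
    simp only [Pn_add H _ h h'] at h1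
    exact tendsto_nhds_unique h1 h2
  have hTsmul : ∀ (c : ℝ) φ, CF φ → T (c • φ) = c * T φ := fun c φ h => by
    have h1 := hT _ (CF.smul' h c)
    have h2 := (hT φ h).const_mul c
    simp only [Pn_smul] at h1
    exact tendsto_nhds_unique h1 h2
  have hTpos : ∀ φ, CF φ → (∀ x u, 0 ≤ φ x u (D.J x u)) → 0 ≤ T φ := fun φ h hp => by
    refine le_of_forall_pos_le_add fun ε hε => ?_
    have h1 : ∀ᶠ j in atTop, -ε ≤ Pn H (ns j) φ := hns.tendsto_atTop.eventually (Pn_pos H h hp hε)
    have h2 := ge_of_tendsto (hT φ h) h1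
    linarith
  obtain ⟨τ, hτf, hτ0, hτ⟩ := riesz_open (isOpen_PD 1) (fun f => T (pf b f))
    (fun f g hf hg => by
      rw [pf_add]
      exact hTadd _ _ (pf_isPush b hf).cf (pf_isPush b hg).cf)
    (fun c f hf => by
      rw [pf_smul]
      exact hTsmul _ _ (pf_isPush b hf).cf)
    (fun f hf h0 => hTpos _ (pf_isPush b hf).cf (pf_pos b h0))
    (C := C) (fun f hf h1 => by
      refine le_of_tendsto' (hT _ (pf_isPush b hf).cf) fun j => ?_
      rw [Pn_box H b _ hf]
      refine le_trans (le_abs_self _) ?_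
      rw [← Real.norm_eq_abs]
      refine le_trans ?_ (hC (ns j)).2.2
      refine norm_integral_le_of_norm_le (hC (ns j)).2.1 ?_
      rw [ae_restrict_iff' (isOpen_PD 1).measurableSet]
      refine Eventually.of_forall fun p hp => ?_
      rw [norm_mul, Real.norm_eq_abs, Real.norm_eq_abs]
      calc |f p| * |Fn H b (ns j) p| ≤ 1 * |Fn H b (ns j) p| :=
            mul_le_mul_of_nonneg_right (h1 p) (abs_nonneg _)
        _ ≤ _ := by rw [one_mul]; exact hFe _ p hp)
  refine ⟨τ, hτf, hτ, fun j => Fn H b (ns j),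
    fun j p => 16 * B ^ 2 * en (H.r (ns j)) (H.a (ns j)) (H.α (ns j)) (b.Θ p),
    fun j v p => sg b / (2 * Real.pi) * JB H b (ns j) p (v, 0) (0, Complex.I),
    fun j v p => -(sg b / (2 * Real.pi) * JB H b (ns j) p (v, 0) (0, 1)),
    ENNReal.ofReal C, ?_⟩
  have hsub : PD 1 ⊆ PD 2 := PD1_sub.trans CPD_sub
  exact
    { hU := isOpen_ball
      hV := isOpen_ball
      hτ := hτ0
      hC := ENNReal.ofReal_ne_top
      cF := fun j => (contDiffOn_const.mul (JB_smooth H b (ns j) _ _)).mono hsub
      cA := fun j v => (contDiffOn_const.mul (JB_smooth H b (ns j) _ _)).mono hsub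
      cB := fun j v => ((contDiffOn_const.mul (JB_smooth H b (ns j) _ _)).neg).mono hsub
      ce := fun j => (continuousOn_const.mul (contOn_en H b (ns j))).mono hsub
      eC := fun j => (hC (ns j)).1
      Fe := fun j p hp => hFe (ns j) p hp
      Ae := fun j v p hp => by
        have h1 := JB_le H b hB (n := ns j) (PD1_sub hp) (v, 0) (0, Complex.I)
        rw [norm_pair_z, norm_pair_I, mul_one] at h1
        rw [abs_mul]
        calc _ ≤ 1 * |JB H b (ns j) p (v, 0) (0, Complex.I)| :=
              mul_le_mul_of_nonneg_right (abs_sgc b) (abs_nonneg _)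
          _ ≤ 16 * B ^ 2 * ‖v‖ * en (H.r (ns j)) (H.a (ns j)) (H.α (ns j)) (b.Θ p) := by
              rw [one_mul]; exact h1
          _ = _ := by ring
      Be := fun j v p hp => by
        have h1 := JB_le H b hB (n := ns j) (PD1_sub hp) (v, 0) (0, 1)
        rw [norm_pair_z, norm_pair_1, mul_one] at h1
        rw [abs_neg, abs_mul]
        calc _ ≤ 1 * |JB H b (ns j) p (v, 0) (0, 1)| :=
              mul_le_mul_of_nonneg_right (abs_sgc b) (abs_nonneg _)
          _ ≤ 16 * B ^ 2 * ‖v‖ * en (H.r (ns j)) (H.a (ns j)) (H.α (ns j)) (b.Θ p) := by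
              rw [one_mul]; exact h1
          _ = _ := by ring
      closed := fun j v p hp => by
        have hp2 : p ∈ PD 2 := hsub hp
        have hn := (isOpen_PD 2).mem_nhds hp2
        have hd : ∀ u w : ℂ × ℂ, DifferentiableAt ℝ (fun p => JB H b (ns j) p u w) p := fun u w =>
          ((JB_smooth H b (ns j) u w).contDiffAt hn).differentiableAt (by simp)
        have hc1 : ∀ u w x : ℂ × ℂ,
            fderiv ℝ (fun p => sg b / (2 * Real.pi) * JB H b (ns j) p u w) p x =
            sg b / (2 * Real.pi) * fderiv ℝ (fun p => JB H b (ns j) p u w) p x := by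
          intro u w x
          rw [fderiv_const_mul (hd u w)]
          rfl
        have hc2 : ∀ u w x : ℂ × ℂ,
            fderiv ℝ (fun p => -(sg b / (2 * Real.pi) * JB H b (ns j) p u w)) p x =
            -(sg b / (2 * Real.pi) * fderiv ℝ (fun p => JB H b (ns j) p u w) p x) := by
          intro u w x
          rw [← hc1, fderiv_fun_neg]
          rfl
        have h := JB_closed H b (n := ns j) hp2 (v, 0) (0, 1) (0, Complex.I)
        show fderiv ℝ (fun p => sg b / (2 * Real.pi) * JB H b (ns j) p (0, 1) (0, Complex.I)) p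
          (v, 0) = _
        rw [hc1, hc1, hc2, h]
        ring
      lim := fun f hf hs hsp => by
        have hTF : TF (PD 1) f := ⟨hf, hs, hsp⟩
        have h1 := hT _ (pf_isPush b hTF).cf
        rw [hτ f hTF]
        refine h1.congr fun j => ?_
        rw [Pn_box H b _ hTF]
        rfl
      vor := fun M ε hM hε => by
        have hr : Tendsto (fun j => H.r (ns j)) atTop atTop := H.r_lim.comp hns.tendsto_atTop
        have hsq : Tendsto (fun j => √(H.r (ns j))) atTop atTop :=
          Real.tendsto_sqrt_atTop.comp hr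
        have t1 : Tendsto (fun j => M / (H.r (ns j) * (2 * ε))) atTop (𝓝 0) :=
          tendsto_const_nhds.div_atTop (hr.atTop_mul_const (by positivity))
        have t2 : Tendsto (fun j => 2 * M / √(H.r (ns j))) atTop (𝓝 0) :=
          tendsto_const_nhds.div_atTop hsq
        have t3 : Tendsto (fun j => 4 * M / √(H.r (ns j))) atTop (𝓝 0) :=
          tendsto_const_nhds.div_atTop hsq
        have t4 := t1.add t2
        rw [add_zero] at t4
        filter_upwards [t4.eventually (gt_mem_nhds (by norm_num : (0 : ℝ) < 1 / 2)),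
          t3.eventually (gt_mem_nhds hε)] with j h1 h2 z hz c s hs hcs hbd
        have hs0 : 0 < s := lt_of_lt_of_le hε hs
        have hrp := H.r_pos (ns j)
        have hsm : M / (H.r (ns j) * (2 * s)) + 2 * M / √(H.r (ns j)) ≤ 1 / 2 := by
          have h3 : M / (H.r (ns j) * (2 * s)) ≤ M / (H.r (ns j) * (2 * ε)) := by
            apply div_le_div_of_nonneg_left hM.le (by positivity)
            exact mul_le_mul_of_nonneg_left (by linarith) hrp.le
          linarith
        obtain ⟨k, hk⟩ := vortex_box H b hB hB1 hz hs0 hcs hbd hsm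
        have hint : ∫ y in H514.Sq c s, Fn H b (ns j) (z, y) = sg b / (2 * Real.pi) *
            ∫ y in H514.Sq c s, JB H b (ns j) (z, y) (0, 1) (0, Complex.I) :=
          integral_const_mul _ _
        have h5 : ∀ k' : ℤ, (k' : ℝ) = sg b * k →
            |(∫ y in H514.Sq c s, Fn H b (ns j) (z, y)) - k'| ≤ ε := by
          intro k' hk'
          rw [hk', hint]
          have h6 : sg b / (2 * Real.pi) *
              (∫ y in H514.Sq c s, JB H b (ns j) (z, y) (0, 1) (0, Complex.I)) - sg b * k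
              = sg b / (2 * Real.pi) *
              ((∫ y in H514.Sq c s, JB H b (ns j) (z, y) (0, 1) (0, Complex.I))
                - 2 * Real.pi * k) := by
            field_simp
          rw [h6, abs_mul]
          calc _ ≤ 1 * |(∫ y in H514.Sq c s, JB H b (ns j) (z, y) (0, 1) (0, Complex.I))
                - 2 * Real.pi * k| := mul_le_mul_of_nonneg_right (abs_sgc b) (abs_nonneg _)
            _ ≤ ε := by rw [one_mul]; exact hk.trans h2.le
        rcases sg_cases b with hsg | hsg
        · exact ⟨k, h5 k (by rw [hsg, one_mul])⟩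
        · exact ⟨-k, h5 (-k) (by rw [hsg]; push_cast; ring)⟩ }

theorem intM_of {μ : Measure ℂ} {P : Multiset ℂ} (h : μ = (P.map Measure.dirac).sum) :
    IntM μ := by
  classical
  intro r _
  subst h
  induction P using Multiset.induction_on with
  | empty => exact ⟨0, by simp⟩
  | cons a P ih =>
    obtain ⟨s, hs⟩ := ih
    rw [Multiset.map_cons, Multiset.sum_cons, Measure.restrict_add, hs]
    by_cases ha : a ∈ ball (0 : ℂ) r
    · refine ⟨a ::ₘ s, ?_⟩
      rw [Multiset.map_cons, Multiset.sum_cons, restrict_dirac' measurableSet_ball,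
        if_pos ha]
    · refine ⟨s, ?_⟩
      rw [restrict_dirac' measurableSet_ball, if_neg ha, zero_add]

/-- ICUR from the abstract slice theorem -/
theorem icur (hS : H514.Slice_statement) : ICUR_statement := by
  rintro D ⟨H⟩
  obtain ⟨ns, hns, T, hT⟩ := exists_limT H
  refine ⟨{
    T := T
    add := fun φ ψ h h' => ?_
    smul := fun c φ h => ?_
    per := fun φ h k => ?_
    closed := fun l hl hs => ?_
    cls := fun χ hχ hs h1 κ hκ => ?_
    pos := fun φ h hp => ?_
    int := fun b => ?_ }⟩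
  · have h1 := hT _ (CF.add' h h')
    have h2 := (hT φ h).add (hT ψ h')
    simp only [Pn_add H _ h h'] at h1
    exact tendsto_nhds_unique h1 h2
  · have h1 := hT _ (CF.smul' h c)
    have h2 := (hT φ h).const_mul c
    simp only [Pn_smul] at h1
    exact tendsto_nhds_unique h1 h2
  · have hcf : CF (fun x => φ (tr k x)) :=
      ⟨h.cont.comp (cont_tr k), h.supp.comp_homeomorph (Homeomorph.addRight fun i => (k i : ℝ)),
        fun x u => h.alt _ u⟩
    have h1 := hT _ hcf
    simp only [Pn_tr] at h1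
    exact tendsto_nhds_unique h1 (hT φ h)
  · have h1 := hT _ (CF_dd hl hs)
    simp only [Pn_dd H _ hl hs] at h1
    exact (tendsto_nhds_unique h1 tendsto_const_nhds)
  · have h2 := hT _ (CF_chi hχ hs hκ)
    simp only [Pn_cls H _ hχ hs h1 hκ] at h2
    exact tendsto_nhds_unique h2 tendsto_const_nhds
  · refine le_of_forall_pos_le_add fun ε hε => ?_
    have h1 : ∀ᶠ j in atTop, -ε ≤ Pn H (ns j) φ := hns.tendsto_atTop.eventually (Pn_pos H h hp hε)
    have h2 := ge_of_tendsto (hT φ h) h1
    linarith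
  · obtain ⟨τ, hτf, hτ, F, e, A, B, C, hdat⟩ := slice_data H b hns hT
    obtain ⟨ν, _, hν1, _, hν3⟩ := hS (ball 0 1) (ball 0 1) τ F e A B C hdat
    refine ⟨ν, ?_, fun f hf hfs hsp => ?_⟩
    · filter_upwards [hν1] with z hz
      obtain ⟨P, _, hP⟩ := hz
      exact intM_of hP
    · have hTF : TF (PD 1) f := ⟨hf, hfs, hsp⟩
      have hint : Integrable f τ := hf.integrable_of_hasCompactSupport hfs
      refine ⟨(hν3 f hint).1, fun φ hφ => ?_⟩
      rw [isPush_unique b hφ (pf_isPush b hTF), ← hτ f hTF]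
      exact (hν3 f hint).2

end Vale.Agent.P247.H667
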