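import Vale.Agent.P247.H667.Icur
import Vale.Agent.P247.H514.Slice7

/-!
# ICUR, unconditional
-/

namespace Vale.Agent.P247.H667

theorem ICUR : H574.ICUR_statement := icur H514.slice_theorem

end Vale.Agent.P247.H667
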