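import Vale.Agent.P247.H667.Clu

/-!
# The induction to the Puiseux form, abstract

`IndH Q` : the stage predicate `Q` is stable under shrinking, pull back by `t ↦ t ^ q`, splitting,
and satisfies the dichotomy. `ind` : then the sheets of `Y (t ^ q)` are global functions on a
punctured disc, pairwise equal or disjoint.
-/

open MeasureTheory Set Metric Filter Topology
open scoped ContDiff ENNReal

noncomputable section

namespace Vale.Agent.P247.H667

open Vale.Agent.P247.H324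

/-- stability properties of the stage predicate -/
structure IndH (Q : (k : ℕ) → ℝ → (ℂ → Fin k → ℂ) → Prop) : Prop where
  cont : ∀ (k : ℕ) (r : ℝ) (Y : ℂ → Fin k → ℂ), Q k r Y → ∀ F : ℂ → ℂ, Continuous F →
    ContinuousOn (fun z => ∑ i, F (Y z i)) (pb r)
  shr : ∀ (k : ℕ) (r r' : ℝ) (Y : ℂ → Fin k → ℂ), Q k r Y → 0 < r' → r' ≤ r → Q k r' Y
  pull : ∀ (k : ℕ) (r r' : ℝ) (q : ℕ) (Y : ℂ → Fin k → ℂ), Q k r Y → 1 ≤ q → 0 < r' →
    r' ^ q ≤ r → Q k r' (fun t => Y (t ^ q))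
  split : ∀ (k n : ℕ) (r : ℝ) (Y : ℂ → Fin k → ℂ) (θ : ℂ → ℂ → ℝ), Q k r Y → 0 < r →
    ContinuousOn (fun p : ℂ × ℂ => θ p.1 p.2) (pb r ×ˢ univ) →
    (∀ z ∈ pb r, ∀ i, θ z (Y z i) ≠ 1) → (∀ z ∈ pb r, (MS.cl θ Y z).card = n) →
    Q n r (fun z => sb n (MS.cl θ Y z) (Y z))
  dich : ∀ (k : ℕ) (r : ℝ) (Y : ℂ → Fin k → ℂ), Q k r Y → 0 < r → 1 ≤ k →
    ∃ (q : ℕ) (r' : ℝ), 1 ≤ q ∧ 0 < r' ∧ r' ^ q ≤ r ∧
      ((∀ t ∈ pb r', ∀ i j, Y (t ^ q) i = Y (t ^ q) j) ∨
        ∃ (h : ℂ → ℂ) (M : ℕ) (c : Fin k → ℂ), ContinuousOn h (pb r') ∧ (∃ i j, c i ≠ c j) ∧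
          ∀ F : ℂ → ℂ, Continuous F → Tendsto (fun t => ∑ i, F ((Y (t ^ q) i - h t) / t ^ M))
            (𝓝[≠] 0) (𝓝 (∑ i, F (c i))))

/-- the conclusion -/
def Out (k : ℕ) (r : ℝ) (Y : ℂ → Fin k → ℂ) : Prop :=
  ∃ (q : ℕ) (r' : ℝ) (S : Multiset (ℂ → ℂ)), 1 ≤ q ∧ 0 < r' ∧ r' ^ q ≤ r ∧
    (∀ f ∈ S, ContinuousOn f (pb r')) ∧
    (∀ f ∈ S, ∀ h ∈ S, (∀ t ∈ pb r', f t = h t) ∨ ∀ t ∈ pb r', f t ≠ h t) ∧
    ∀ t ∈ pb r', S.map (fun f => f t) = Finset.univ.val.map (fun i => Y (t ^ q) i)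

/-- pull back of the conclusion -/
theorem Out.pull {k : ℕ} {r r' : ℝ} {q : ℕ} {Y : ℂ → Fin k → ℂ} (hq : 1 ≤ q)
    (hr : r' ^ q ≤ r) (h : Out k r' (fun t => Y (t ^ q))) : Out k r Y := by
  obtain ⟨p, ρ, S, hp, hρ, hρr, hc, hd, hm⟩ := h
  refine ⟨p * q, ρ, S, Nat.mul_pos hp hq, hρ, ?_, hc, hd, fun t ht => ?_⟩
  · rw [pow_mul]
    exact (pow_le_pow_left₀ (pow_nonneg hρ.le _) hρr q).trans hr
  · rw [hm t ht]
    simp only [← pow_mul]

/-- the conclusion for the union of two clusters -/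
theorem Out.join {k n1 n2 : ℕ} {r : ℝ} {Y : ℂ → Fin k → ℂ} {θ : ℂ → ℂ → ℝ}
    (hne : ∀ z ∈ pb r, ∀ i, θ z (Y z i) ≠ 1) (h1 : ∀ z ∈ pb r, (MS.cl θ Y z).card = n1)
    (h2 : ∀ z ∈ pb r, (MS.cl (fun z y => 2 - θ z y) Y z).card = n2)
    (o1 : Out n1 r (fun z => sb n1 (MS.cl θ Y z) (Y z)))
    (o2 : Out n2 r (fun z => sb n2 (MS.cl (fun z y => 2 - θ z y) Y z) (Y z))) : Out k r Y := by
  classical
  obtain ⟨q1, r1, S1, hq1, hr1, hr1r, hc1, hd1, hm1⟩ := o1
  obtain ⟨q2, r2, S2, hq2, hr2, hr2r, hc2, hd2, hm2⟩ := o2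
  set ρ : ℝ := min (min r1 r2) 1 with hρ
  have hρ0 : 0 < ρ := lt_min (lt_min hr1 hr2) one_pos
  have hρ1 : ρ ≤ 1 := min_le_right _ _
  have hρr1 : ρ ^ q2 ≤ r1 := (pow_le_of_le_one hρ0.le hρ1 (by omega)).trans
    ((min_le_left _ _).trans (min_le_left _ _))
  have hρr2 : ρ ^ q1 ≤ r2 := (pow_le_of_le_one hρ0.le hρ1 (by omega)).trans
    ((min_le_left _ _).trans (min_le_right _ _))
  have hm1' : ∀ t ∈ pb ρ, (S1.map fun f t => f (t ^ q2)).map (fun f => f t) =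
      (MS.cl θ Y (t ^ (q1 * q2))).val.map (Y (t ^ (q1 * q2))) := by
    intro t ht
    have ht1 := pow_mem_pb hq2 hρr1 ht
    have e : (t ^ q2) ^ q1 = t ^ (q1 * q2) := by rw [← pow_mul, mul_comm]
    rw [Multiset.map_map]
    have h3 := hm1 (t ^ q2) ht1
    have h4 := map_sb (h1 _ (pow_mem_pb hq1 hr1r ht1)) (Y ((t ^ q2) ^ q1))
    rw [e] at h3 h4
    exact h3.trans h4
  have hm2' : ∀ t ∈ pb ρ, (S2.map fun f t => f (t ^ q1)).map (fun f => f t) =
      (MS.cl (fun z y => 2 - θ z y) Y (t ^ (q1 * q2))).val.map (Y (t ^ (q1 * q2))) := by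
    intro t ht
    have ht1 := pow_mem_pb hq1 hρr2 ht
    have e : (t ^ q1) ^ q2 = t ^ (q1 * q2) := by rw [← pow_mul]
    rw [Multiset.map_map]
    have h3 := hm2 (t ^ q1) ht1
    have h4 := map_sb (h2 _ (pow_mem_pb hq2 hr2r ht1)) (Y ((t ^ q1) ^ q2))
    rw [e] at h3 h4
    exact h3.trans h4
  have hmem : ∀ t ∈ pb ρ, t ^ (q1 * q2) ∈ pb r := by
    intro t ht
    have ht1 := pow_mem_pb hq1 hr1r (pow_mem_pb hq2 hρr1 ht)
    rwa [← pow_mul, mul_comm] at ht1
  -- functions of the first and of the second family never meet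
  have hdis : ∀ f ∈ S1.map fun f t => f (t ^ q2), ∀ g ∈ S2.map fun f t => f (t ^ q1),
      ∀ t ∈ pb ρ, f t ≠ g t := by
    intro f hf g hg t ht
    have a1 : f t ∈ (S1.map fun f t => f (t ^ q2)).map (fun f => f t) :=
      Multiset.mem_map_of_mem (fun f : ℂ → ℂ => f t) hf
    have a2 : g t ∈ (S2.map fun f t => f (t ^ q1)).map (fun f => f t) :=
      Multiset.mem_map_of_mem (fun f : ℂ → ℂ => f t) hg
    rw [hm1' t ht, Multiset.mem_map] at a1
    rw [hm2' t ht, Multiset.mem_map] at a2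
    obtain ⟨i, hi, hi2⟩ := a1
    obtain ⟨j, hj, hj2⟩ := a2
    have b1 : θ (t ^ (q1 * q2)) (Y (t ^ (q1 * q2)) i) < 1 := MS.mem_cl.1 hi
    have b2 : 2 - θ (t ^ (q1 * q2)) (Y (t ^ (q1 * q2)) j) < 1 :=
      (MS.mem_cl (θ := fun z y => 2 - θ z y)).1 hj
    rw [hi2] at b1
    rw [hj2] at b2
    intro e
    rw [e] at b1
    linarith
  refine ⟨q1 * q2, ρ, (S1.map fun f t => f (t ^ q2)) + S2.map fun f t => f (t ^ q1),
    Nat.mul_pos hq1 hq2, hρ0, ?_, ?_, ?_, ?_⟩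
  · rw [mul_comm, pow_mul]
    exact (pow_le_pow_left₀ (pow_nonneg hρ0.le _) hρr1 q1).trans hr1r
  · intro f hf
    rw [Multiset.mem_add, Multiset.mem_map, Multiset.mem_map] at hf
    rcases hf with ⟨g, hg, rfl⟩ | ⟨g, hg, rfl⟩
    · exact (hc1 g hg).comp (continuous_pow _).continuousOn fun t ht => pow_mem_pb hq2 hρr1 ht
    · exact (hc2 g hg).comp (continuous_pow _).continuousOn fun t ht => pow_mem_pb hq1 hρr2 ht
  · intro f hf g hg
    rw [Multiset.mem_add] at hf hg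
    rcases hf with hf | hf <;> rcases hg with hg | hg
    · rw [Multiset.mem_map] at hf hg
      obtain ⟨f', hf', rfl⟩ := hf
      obtain ⟨g', hg', rfl⟩ := hg
      rcases hd1 f' hf' g' hg' with h | h
      · exact Or.inl fun t ht => h _ (pow_mem_pb hq2 hρr1 ht)
      · exact Or.inr fun t ht => h _ (pow_mem_pb hq2 hρr1 ht)
    · exact Or.inr fun t ht => hdis f hf g hg t ht
    · exact Or.inr fun t ht => (hdis g hg f hf t ht).symm
    · rw [Multiset.mem_map] at hf hg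
      obtain ⟨f', hf', rfl⟩ := hf
      obtain ⟨g', hg', rfl⟩ := hg
      rcases hd2 f' hf' g' hg' with h | h
      · exact Or.inl fun t ht => h _ (pow_mem_pb hq1 hρr2 ht)
      · exact Or.inr fun t ht => h _ (pow_mem_pb hq1 hρr2 ht)
  · intro t ht
    rw [Multiset.map_add, hm1' t ht, hm2' t ht, cl_add (hne _ (hmem t ht)), MS.cl,
      ← Multiset.map_add, Finset.filter_val, Finset.filter_val, Multiset.filter_add_not]

/-- **the induction** -/
theorem ind {Q : (k : ℕ) → ℝ → (ℂ → Fin k → ℂ) → Prop} (H : IndH Q) :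
    ∀ (k : ℕ) (r : ℝ) (Y : ℂ → Fin k → ℂ), 0 < r → Q k r Y → Out k r Y := by
  intro k
  induction k using Nat.strong_induction_on with
  | _ k ih =>
    intro r Y hr hQ
    rcases Nat.eq_zero_or_pos k with rfl | hk
    · refine ⟨1, r, 0, le_rfl, hr, by rw [pow_one], ?_, ?_, ?_⟩
      · intro f hf
        exact absurd hf (Multiset.notMem_zero f)
      · intro f hf
        exact absurd hf (Multiset.notMem_zero f)
      · intro t _
        rfl
    · obtain ⟨q, r', hq, hr', hr'r, hd⟩ := H.dich k r Y hQ hr hk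
      have hQ' := H.pull k r r' q Y hQ hq hr' hr'r
      refine Out.pull hq hr'r ?_
      rcases hd with heq | ⟨h, M, c, hh, ⟨i0, j0, hc⟩, hlim⟩
      · -- all sheets equal
        set i0 : Fin k := ⟨0, hk⟩
        refine ⟨1, r', Multiset.replicate k (fun t => Y (t ^ q) i0), le_rfl, hr', by rw [pow_one],
          ?_, ?_, ?_⟩
        · intro f hf
          rw [Multiset.eq_of_mem_replicate hf]
          have h1 := H.cont k r' _ hQ' (fun y => y) continuous_id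
          have h2 : ContinuousOn (fun t => (k : ℂ)⁻¹ * ∑ i, Y (t ^ q) i) (pb r') :=
            continuousOn_const.mul h1
          refine h2.congr fun t ht => ?_
          show Y (t ^ q) i0 = (k : ℂ)⁻¹ * ∑ i, Y (t ^ q) i
          rw [Finset.sum_congr rfl fun i _ => heq t ht i i0, Finset.sum_const, Finset.card_univ,
            Fintype.card_fin, nsmul_eq_mul, ← mul_assoc, inv_mul_cancel₀, one_mul]
          exact_mod_cast hk.ne'
        · intro f hf g hg
          rw [Multiset.eq_of_mem_replicate hf, Multiset.eq_of_mem_replicate hg]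
          exact Or.inl fun t _ => rfl
        · intro t ht
          rw [Multiset.map_replicate]
          symm
          rw [Multiset.eq_replicate]
          constructor
          · simp
          · intro b hb
            rw [Multiset.mem_map] at hb
            obtain ⟨i, -, rfl⟩ := hb
            simp only [pow_one]
            exact heq t ht i i0
      · -- two clusters
        obtain ⟨ρ, hρ, hρr', θ, n1, n2, hn1, hn2, -, hθ, hne, hc1, hc2⟩ :=
          clust hr' (Y := fun t => Y (t ^ q)) hh hc hlim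
        have hQρ := H.shr k r' ρ _ hQ' hρ hρr'
        have e1 := ih n1 hn1 ρ _ hρ (H.split k n1 ρ _ θ hQρ hρ hθ hne hc1)
        have e2 := ih n2 hn2 ρ _ hρ (H.split k n2 ρ _ (fun z y => 2 - θ z y) hQρ hρ
          (continuousOn_const.sub hθ) (fun z hz i h' => hne z hz i (by linarith)) hc2)
        obtain ⟨p, s, S, hp, hs, hsρ, hS⟩ := Out.join hne hc1 hc2 e1 e2
        exact ⟨p, s, S, hp, hs, hsρ.trans hρr', hS⟩

end Vale.Agent.P247.H667
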