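import Vale.Agent.P247.H667.Cls
import Vale.Agent.P247.H667.Extract
import Vale.Agent.P247.H264.Kit

/-!
# The limit functional
-/

open Set MeasureTheory Filter Topology Metric
open scoped ContDiff

noncomputable section

namespace Vale.Agent.P247.H667

open Vale.Agent.P247.H74 Vale.Agent.P247.H574 Vale.Agent.P247.H264

variable {D : Data}

/-- the pairing of `Jac / 2π` with a test form -/
def Pn (H : Higgs D) (n : ℕ) (φ : R4 → F2) : ℝ :=
  (1 / (2 * Real.pi)) * ∫ x, w4 (jac (H.a n) (H.α n) x) (fun u v => φ x u v)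

theorem CF.comp_cont {φ : R4 → F2} (h : CF φ) (u v : R4) : Continuous (fun x => φ x u v) :=
  continuous_apply_F2 h.cont continuous_const continuous_const

theorem CF.comp_supp {φ : R4 → F2} (h : CF φ) (u v : R4) : HasCompactSupport (fun x => φ x u v) :=
  hcs_of_subset h.supp (fun x hx => by rw [hx]; rfl)

theorem pr_int (H : Higgs D) (n : ℕ) {φ : R4 → F2} (h : CF φ) (i j k m : Fin 4) :
    Integrable (fun x => jac (H.a n) (H.α n) x (e i) (e j) * φ x (e k) (e m)) :=
  ((jac_cont H n (e i) (e j)).mul (CF.comp_cont h (e k) (e m))).integrable_of_hasCompactSupport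
    (CF.comp_supp h _ _).mul_left

theorem Pn_eq (H : Higgs D) (n : ℕ) {φ : R4 → F2} (h : CF φ) : Pn H n φ = (1 / (2 * Real.pi)) *
    ((∫ x, jac (H.a n) (H.α n) x (e 0) (e 1) * φ x (e 2) (e 3))
      - (∫ x, jac (H.a n) (H.α n) x (e 0) (e 2) * φ x (e 1) (e 3))
      + (∫ x, jac (H.a n) (H.α n) x (e 0) (e 3) * φ x (e 1) (e 2))
      + (∫ x, jac (H.a n) (H.α n) x (e 1) (e 2) * φ x (e 0) (e 3))
      - (∫ x, jac (H.a n) (H.α n) x (e 1) (e 3) * φ x (e 0) (e 2))
      + ∫ x, jac (H.a n) (H.α n) x (e 2) (e 3) * φ x (e 0) (e 1)) := by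
  unfold Pn w4
  congr 1
  exact int6 (pr_int H n h _ _ _ _) (pr_int H n h _ _ _ _) (pr_int H n h _ _ _ _)
    (pr_int H n h _ _ _ _) (pr_int H n h _ _ _ _) (pr_int H n h _ _ _ _)

theorem w4_cont (H : Higgs D) (n : ℕ) {φ : R4 → F2} (h : Continuous φ) :
    Continuous (fun x => w4 (jac (H.a n) (H.α n) x) (fun u v => φ x u v)) := by
  unfold w4
  have hc : ∀ u v : R4, Continuous (fun x => φ x u v) := fun u v =>
    continuous_apply_F2 h continuous_const continuous_const
  have hj := fun u v => jac_cont H n u v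
  exact ((((((hj _ _).mul (hc _ _)).sub ((hj _ _).mul (hc _ _))).add ((hj _ _).mul (hc _ _))).add
    ((hj _ _).mul (hc _ _))).sub ((hj _ _).mul (hc _ _))).add ((hj _ _).mul (hc _ _))

theorem w4_zero (a : R4 → R4 → ℝ) {B : F2} (hB : B = 0) : w4 a (fun u v => B u v) = 0 := by
  rw [hB]
  simp [w4]

theorem w4_int (H : Higgs D) (n : ℕ) {φ : R4 → F2} (h : CF φ) :
    Integrable (fun x => w4 (jac (H.a n) (H.α n) x) (fun u v => φ x u v)) :=
  (w4_cont H n h.cont).integrable_of_hasCompactSupport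
    (hcs_of_subset h.supp fun _ hx => w4_zero _ hx)

theorem w4_add (a : R4 → R4 → ℝ) (B C : R4 → R4 → ℝ) :
    w4 a (fun u v => B u v + C u v) = w4 a B + w4 a C := by
  unfold w4; ring

theorem w4_smul (a : R4 → R4 → ℝ) (c : ℝ) (B : R4 → R4 → ℝ) :
    w4 a (fun u v => c * B u v) = c * w4 a B := by
  unfold w4; ring

theorem w4_sum {ι : Type*} (s : Finset ι) (a : R4 → R4 → ℝ) (B : ι → R4 → R4 → ℝ) :
    w4 a (fun u v => ∑ k ∈ s, B k u v) = ∑ k ∈ s, w4 a (B k) := by
  classical
  induction s using Finset.induction_on with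
  | empty => simp [w4]
  | insert k s hk ih =>
    rw [Finset.sum_insert hk, ← ih, ← w4_add]
    congr 1
    funext u v
    rw [Finset.sum_insert hk]

/-- local energy bound -/
theorem en_local (H : Higgs D) (N : ℕ) :
    ∃ C, 0 ≤ C ∧ ∀ n, ∫ x in closedBall (0 : R4) N, en (H.r n) (H.a n) (H.α n) x ≤ C := by
  obtain ⟨C, hC⟩ := H.energy
  have hC0 : 0 ≤ C := le_trans (setIntegral_nonneg measurableSet_Icc
    (fun x _ => en_nonneg H 0 x)) (hC 0)
  refine ⟨(FN N).card * C, by positivity, fun n => ?_⟩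
  refine (local_bound (en_cont H n) (en_nonneg H n) (en_tr H n) N).trans ?_
  exact mul_le_mul_of_nonneg_left (hC n) (Nat.cast_nonneg _)

theorem norm_e (i : Fin 4) : ‖e i‖ = 1 := by
  unfold e
  rw [Pi.norm_single]
  simp

theorem jac_e_le (H : Higgs D) (n : ℕ) (i j : Fin 4) (x : R4) :
    |jac (H.a n) (H.α n) x (e i) (e j)| ≤ 16 * en (H.r n) (H.a n) (H.α n) x := by
  have := jac_abs_le (H.r_pos n) (H.a n) (H.α n) x (e i) (e j)
  rw [norm_e, norm_e] at this
  linarith

/-- existence of the limit functional -/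
theorem exists_limT (H : Higgs D) : ∃ ns : ℕ → ℕ, StrictMono ns ∧ ∃ T : (R4 → F2) → ℝ,
    ∀ φ, CF φ → Tendsto (fun j => Pn H (ns j) φ) atTop (𝓝 (T φ)) := by
  obtain ⟨ns, hns, hl⟩ := extract (X := R4) (ι := Fin 4 × Fin 4) volume
    (fun n p x => jac (H.a n) (H.α n) x (e p.1) (e p.2)) (fun n p => jac_cont H n _ _) (by
      intro R p
      obtain ⟨C, _, hC⟩ := en_local H R
      refine ⟨16 * C, fun n => ?_⟩
      calc ∫ x in closedBall (0 : R4) R, |jac (H.a n) (H.α n) x (e p.1) (e p.2)|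
          ≤ ∫ x in closedBall (0 : R4) R, 16 * en (H.r n) (H.a n) (H.α n) x := by
            apply setIntegral_mono_on
            · exact ((jac_cont H n _ _).abs.continuousOn).integrableOn_compact
                (isCompact_closedBall _ _)
            · exact ((continuous_const.mul (en_cont H n)).continuousOn).integrableOn_compact
                (isCompact_closedBall _ _)
            · exact isClosed_closedBall.measurableSet
            · exact fun x _ => jac_e_le H n _ _ x
        _ = 16 * ∫ x in closedBall (0 : R4) R, en (H.r n) (H.a n) (H.α n) x :=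
            integral_const_mul _ _
        _ ≤ _ := by linarith [hC n])
  refine ⟨ns, hns, ?_⟩
  have key : ∀ φ, CF φ → ∃ L, Tendsto (fun j => Pn H (ns j) φ) atTop (𝓝 L) := by
    intro φ h
    have h1 : ∀ i j k m : Fin 4, ∃ L, Tendsto (fun l => ∫ x,
        jac (H.a (ns l)) (H.α (ns l)) x (e i) (e j) * φ x (e k) (e m)) atTop (𝓝 L) := by
      intro i j k m
      obtain ⟨L, hL⟩ := hl (i, j) (fun x => φ x (e k) (e m)) (CF.comp_cont h _ _)
        (CF.comp_supp h _ _)
      refine ⟨L, hL.congr fun l => ?_⟩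
      exact integral_congr_ae (Eventually.of_forall fun x => mul_comm _ _)
    obtain ⟨L1, t1⟩ := h1 0 1 2 3
    obtain ⟨L2, t2⟩ := h1 0 2 1 3
    obtain ⟨L3, t3⟩ := h1 0 3 1 2
    obtain ⟨L4, t4⟩ := h1 1 2 0 3
    obtain ⟨L5, t5⟩ := h1 1 3 0 2
    obtain ⟨L6, t6⟩ := h1 2 3 0 1
    refine ⟨_, ((((((t1.sub t2).add t3).add t4).sub t5).add t6).const_mul
      (1 / (2 * Real.pi))).congr fun j => ?_⟩
    rw [Pn_eq H (ns j) h]
  classical
  refine ⟨fun φ => if h : CF φ then (key φ h).choose else 0, fun φ h => ?_⟩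
  simp only [dif_pos h]
  exact (key φ h).choose_spec

/-! ### linearity and invariance before the limit -/

theorem Pn_add (H : Higgs D) (n : ℕ) {φ ψ : R4 → F2} (h : CF φ) (h' : CF ψ) :
    Pn H n (φ + ψ) = Pn H n φ + Pn H n ψ := by
  unfold Pn
  rw [← mul_add, ← integral_add (w4_int H n h) (w4_int H n h')]
  congr 1
  refine integral_congr_ae (Eventually.of_forall fun x => ?_)
  simp only
  rw [← w4_add]
  rfl

theorem Pn_smul (H : Higgs D) (n : ℕ) (c : ℝ) (φ : R4 → F2) :
    Pn H n (c • φ) = c * Pn H n φ := by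
  unfold Pn
  rw [mul_left_comm]
  congr 1
  have h1 : ∀ x, w4 (jac (H.a n) (H.α n) x) (fun u v => (c • φ) x u v)
      = c * w4 (jac (H.a n) (H.α n) x) (fun u v => φ x u v) := by
    intro x
    rw [← w4_smul]
    rfl
  simp only [h1]
  exact integral_const_mul _ _

theorem Pn_tr (H : Higgs D) (n : ℕ) (k : Fin 4 → ℤ) (φ : R4 → F2) :
    Pn H n (fun x => φ (tr k x)) = Pn H n φ := by
  unfold Pn
  congr 1
  have h1 : ∀ x, w4 (jac (H.a n) (H.α n) x) (fun u v => φ (tr k x) u v)
      = (fun y => w4 (jac (H.a n) (H.α n) y) (fun u v => φ y u v)) (tr k x) := by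
    intro x
    have : jac (H.a n) (H.α n) x = jac (H.a n) (H.α n) (tr k x) := by
      funext u v; rw [jac_tr]
    simp only [this]
  simp only [h1]
  exact integral_add_right_eq_self (μ := volume)
    (fun y => w4 (jac (H.a n) (H.α n) y) (fun u v => φ y u v)) (fun i => (k i : ℝ))

theorem Pn_dd (H : Higgs D) (n : ℕ) {l : R4 → R4 →L[ℝ] ℝ} (hl : ContDiff ℝ ∞ l)
    (hs : HasCompactSupport l) : Pn H n (dd l) = 0 := by
  unfold Pn
  have h := int_dd_dd (bf_sm H n) hl hs
  have h1 : ∀ x, w4 (jac (H.a n) (H.α n) x) (fun u v => dd l x u v)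
      = w4 (fun u v => dd (bf (H.a n) (H.α n)) x u v) (fun u v => dd l x u v) := by
    intro x
    have : jac (H.a n) (H.α n) x = fun u v => dd (bf (H.a n) (H.α n)) x u v := by
      funext u v; exact jac_eq_dd (H.a_smooth n) (H.α_smooth n) x u v
    rw [this]
  simp only [h1]
  rw [h, mul_zero]

theorem CF_dd {l : R4 → R4 →L[ℝ] ℝ} (hl : ContDiff ℝ ∞ l) (hs : HasCompactSupport l) :
    CF (dd l) := by
  refine ⟨?_, ?_, ?_⟩
  · have h1 : Continuous (fderiv ℝ l) := hl.continuous_fderiv (by simp)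
    exact continuous_sub_F2 h1 (continuous_flip_F2.comp h1)
  · refine (hs.fderiv ℝ).mono' (fun x hx => subset_tsupport _ ?_)
    intro h0
    apply hx
    refine ext_F2 fun u v => ?_
    rw [dd_apply, h0]
    show (0 : ℝ) - 0 = 0
    ring
  · intro x u
    rw [dd_apply, sub_self]

end Vale.Agent.P247.H667
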