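import Mathlib

/-!
# Power sums determine an unordered tuple, continuously
-/

open Set Filter Topology Metric Polynomial

noncomputable section

namespace Vale.Agent.P247.H667

/-- Newton: equal power sums, equal elementary symmetric functions -/
theorem esymm_eq {N : ℕ} {Y c : Fin N → ℂ}
    (h : ∀ k, 1 ≤ k → k ≤ N → ∑ i, Y i ^ k = ∑ i, c i ^ k) :
    ∀ k ≤ N, (MvPolynomial.aeval Y (MvPolynomial.esymm (Fin N) ℂ k) : ℂ) =
      MvPolynomial.aeval c (MvPolynomial.esymm (Fin N) ℂ k) := by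
  intro k
  induction k using Nat.strong_induction_on with
  | _ k ih =>
    intro hk
    rcases Nat.eq_zero_or_pos k with rfl | hpos
    · simp
    · have key := MvPolynomial.mul_esymm_eq_sum (Fin N) ℂ k
      have h1 := congrArg (MvPolynomial.aeval Y) key
      have h2 := congrArg (MvPolynomial.aeval c) key
      simp only [map_mul, map_natCast, map_pow, map_neg, map_one, map_sum] at h1 h2
      have h3 : ∑ a ∈ Finset.HasAntidiagonal.antidiagonal k with a.1 < k, (-1 : ℂ) ^ a.1 *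
          MvPolynomial.aeval Y (MvPolynomial.esymm (Fin N) ℂ a.1) *
          MvPolynomial.aeval Y (MvPolynomial.psum (Fin N) ℂ a.2) =
          ∑ a ∈ Finset.HasAntidiagonal.antidiagonal k with a.1 < k, (-1 : ℂ) ^ a.1 *
          MvPolynomial.aeval c (MvPolynomial.esymm (Fin N) ℂ a.1) *
          MvPolynomial.aeval c (MvPolynomial.psum (Fin N) ℂ a.2) := by
        refine Finset.sum_congr rfl fun a ha => ?_
        rw [Finset.mem_filter, Finset.HasAntidiagonal.mem_antidiagonal] at ha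
        have e1 := ih a.1 ha.2 (by omega)
        have e2 : (MvPolynomial.aeval Y (MvPolynomial.psum (Fin N) ℂ a.2) : ℂ) =
            MvPolynomial.aeval c (MvPolynomial.psum (Fin N) ℂ a.2) := by
          simp only [MvPolynomial.psum, map_sum, map_pow, MvPolynomial.aeval_X]
          exact h a.2 (by omega) (by omega)
        rw [e1, e2]
      rw [h3, ← h2] at h1
      have hk0 : (k : ℂ) ≠ 0 := by exact_mod_cast hpos.ne'
      exact mul_left_cancel₀ hk0 h1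

theorem multiset_eq {N : ℕ} {Y c : Fin N → ℂ}
    (h : ∀ k, 1 ≤ k → k ≤ N → ∑ i, Y i ^ k = ∑ i, c i ^ k) :
    (Finset.univ.val.map Y) = Finset.univ.val.map c := by
  have he := esymm_eq h
  simp only [MvPolynomial.aeval_esymm_eq_multiset_esymm] at he
  have hp : ((Finset.univ.val.map Y).map fun t => (X : ℂ[X]) - C t).prod =
      ((Finset.univ.val.map c).map fun t => (X : ℂ[X]) - C t).prod := by
    rw [Multiset.prod_X_sub_X_eq_sum_esymm, Multiset.prod_X_sub_X_eq_sum_esymm]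
    simp only [Multiset.card_map, Finset.card_val, Finset.card_univ, Fintype.card_fin]
    refine Finset.sum_congr rfl fun j hj => ?_
    rw [Finset.mem_range] at hj
    rw [he j (by omega)]
  have := congrArg Polynomial.roots hp
  rwa [Polynomial.roots_multiset_prod_X_sub_C, Polynomial.roots_multiset_prod_X_sub_C] at this

theorem sum_eq_of_pow {N : ℕ} {Y c : Fin N → ℂ} {E : Type*} [AddCommMonoid E]
    (h : ∀ k, 1 ≤ k → k ≤ N → ∑ i, Y i ^ k = ∑ i, c i ^ k) (F : ℂ → E) :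
    ∑ i, F (Y i) = ∑ i, F (c i) := by
  have h1 := congrArg (fun s : Multiset ℂ => (s.map F).sum) (multiset_eq h)
  simp only [Multiset.map_map] at h1
  exact h1

/-- the tuple is bounded by its power sums -/
theorem bound_pow (N : ℕ) : ∃ K, 0 < K ∧ ∀ Y : Fin N → ℂ,
    ‖Y‖ ≤ 1 + K * ∑ k ∈ Finset.Icc 1 N, ‖∑ i, Y i ^ k‖ := by
  rcases (sphere (0 : Fin N → ℂ) 1).eq_empty_or_nonempty with hne | hne
  · refine ⟨1, one_pos, fun Y => ?_⟩
    have : ‖Y‖ = 0 := by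
      by_contra h0
      have : (‖Y‖⁻¹ : ℝ) • Y ∈ sphere (0 : Fin N → ℂ) 1 := by
        rw [mem_sphere_zero_iff_norm, norm_smul, norm_inv, norm_norm, inv_mul_cancel₀ h0]
      rw [hne] at this
      exact this
    rw [this]
    positivity
  · have hcont : Continuous fun Y : Fin N → ℂ => ∑ k ∈ Finset.Icc 1 N, ‖∑ i, Y i ^ k‖ := by
      fun_prop
    obtain ⟨Z, hZ, hmin⟩ := (isCompact_sphere (0 : Fin N → ℂ) 1).exists_isMinOn hne
      hcont.continuousOn
    set δ := ∑ k ∈ Finset.Icc 1 N, ‖∑ i, Z i ^ k‖ with hδ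
    have hδ0 : 0 < δ := by
      refine lt_of_le_of_ne (by positivity) fun h0 => ?_
      have h1 : ∀ k ∈ Finset.Icc 1 N, ‖∑ i, Z i ^ k‖ = 0 :=
        (Finset.sum_eq_zero_iff_of_nonneg fun k _ => norm_nonneg _).1 h0.symm
      have h2 : ∀ k, 1 ≤ k → k ≤ N → ∑ i, Z i ^ k = ∑ i : Fin N, (0 : Fin N → ℂ) i ^ k := by
        intro k hk hk'
        rw [norm_eq_zero.1 (h1 k (Finset.mem_Icc.2 ⟨hk, hk'⟩))]
        symm
        refine Finset.sum_eq_zero fun i _ => ?_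
        rw [Pi.zero_apply, zero_pow (by omega)]
      have h3 := sum_eq_of_pow h2 (fun z => ‖z‖)
      simp only [Pi.zero_apply, norm_zero, Finset.sum_const_zero] at h3
      have h4 : ∀ i, Z i = 0 := fun i =>
        norm_eq_zero.1 ((Finset.sum_eq_zero_iff_of_nonneg fun k _ => norm_nonneg _).1 h3 i
          (Finset.mem_univ i))
      have h5 : Z = 0 := funext h4
      rw [mem_sphere_zero_iff_norm, h5, norm_zero] at hZ
      exact zero_ne_one hZ
    refine ⟨δ⁻¹, by positivity, fun Y => ?_⟩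
    rcases le_or_gt ‖Y‖ 1 with hY | hY
    · have : 0 ≤ δ⁻¹ * ∑ k ∈ Finset.Icc 1 N, ‖∑ i, Y i ^ k‖ := by positivity
      linarith
    · have hY0 : ‖Y‖ ≠ 0 := by linarith
      have hYp : 0 < ‖Y‖ := by linarith
      have hmem : (‖Y‖⁻¹ : ℝ) • Y ∈ sphere (0 : Fin N → ℂ) 1 := by
        rw [mem_sphere_zero_iff_norm, norm_smul, norm_inv, norm_norm, inv_mul_cancel₀ hY0]
      have h1 : δ ≤ ∑ k ∈ Finset.Icc 1 N, ‖∑ i, ((‖Y‖⁻¹ : ℝ) • Y) i ^ k‖ := hmin hmem
      have h2 : ∑ k ∈ Finset.Icc 1 N, ‖∑ i, ((‖Y‖⁻¹ : ℝ) • Y) i ^ k‖ ≤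
          ‖Y‖⁻¹ * ∑ k ∈ Finset.Icc 1 N, ‖∑ i, Y i ^ k‖ := by
        rw [Finset.mul_sum]
        refine Finset.sum_le_sum fun k hk => ?_
        rw [Finset.mem_Icc] at hk
        have e1 : ∑ i, ((‖Y‖⁻¹ : ℝ) • Y) i ^ k = ((‖Y‖⁻¹ : ℝ) ^ k) • ∑ i, Y i ^ k := by
          rw [Finset.smul_sum]
          refine Finset.sum_congr rfl fun i _ => ?_
          rw [Pi.smul_apply, _root_.smul_pow]
        rw [e1, norm_smul]
        refine mul_le_mul_of_nonneg_right ?_ (norm_nonneg _)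
        rw [norm_pow, norm_inv, norm_norm]
        have h0 : 0 ≤ ‖Y‖⁻¹ := by positivity
        have h01 : ‖Y‖⁻¹ ≤ 1 := inv_le_one_of_one_le₀ hY.le
        calc ‖Y‖⁻¹ ^ k ≤ ‖Y‖⁻¹ ^ 1 := pow_le_pow_of_le_one h0 h01 hk.1
          _ = ‖Y‖⁻¹ := pow_one _
      have h3 : δ * ‖Y‖ ≤ ∑ k ∈ Finset.Icc 1 N, ‖∑ i, Y i ^ k‖ := by
        have h4 := mul_le_mul_of_nonneg_right (h1.trans h2) hYp.le
        rwa [mul_comm (‖Y‖⁻¹), mul_assoc, inv_mul_cancel₀ hY0, mul_one] at h4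
      have h5 : ‖Y‖ ≤ δ⁻¹ * ∑ k ∈ Finset.Icc 1 N, ‖∑ i, Y i ^ k‖ := by
        rw [inv_mul_eq_div, le_div_iff₀ hδ0]
        linarith
      linarith

/-- convergence of the power sums is convergence of the unordered tuple -/
theorem poly_tendsto {T : Type*} {l : Filter T} [l.NeBot] {N : ℕ} {Y : T → Fin N → ℂ} {b : ℕ → ℂ}
    (h : ∀ k, 1 ≤ k → k ≤ N → Tendsto (fun t => ∑ i, Y t i ^ k) l (𝓝 (b k))) :
    ∃ c : Fin N → ℂ, (∀ k, 1 ≤ k → k ≤ N → ∑ i, c i ^ k = b k) ∧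
      ∀ F : ℂ → ℂ, Continuous F → Tendsto (fun t => ∑ i, F (Y t i)) l (𝓝 (∑ i, F (c i))) := by
  obtain ⟨K, hK0, hK⟩ := bound_pow N
  -- boundedness
  have hsum : Tendsto (fun t => ∑ k ∈ Finset.Icc 1 N, ‖∑ i, Y t i ^ k‖) l
      (𝓝 (∑ k ∈ Finset.Icc 1 N, ‖b k‖)) := by
    refine tendsto_finsetSum _ fun k hk => ?_
    rw [Finset.mem_Icc] at hk
    exact (h k hk.1 hk.2).norm
  have hbd : ∀ᶠ t in l, Y t ∈ closedBall (0 : Fin N → ℂ)
      (1 + K * (∑ k ∈ Finset.Icc 1 N, ‖b k‖ + 1)) := by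
    filter_upwards [hsum.eventually (gt_mem_nhds (lt_add_one _))] with t ht
    rw [mem_closedBall_zero_iff]
    have h1 := mul_le_mul_of_nonneg_left ht.le hK0.le
    linarith [hK (Y t)]
  have hcomp := isCompact_closedBall (0 : Fin N → ℂ) (1 + K * (∑ k ∈ Finset.Icc 1 N, ‖b k‖ + 1))
  have hu : ∀ u : Ultrafilter T, (u : Filter T) ≤ l → ∃ c : Fin N → ℂ,
      Tendsto Y u (𝓝 c) ∧ ∀ k, 1 ≤ k → k ≤ N → ∑ i, c i ^ k = b k := by
    intro u hul
    have h1 : (Ultrafilter.map Y u : Filter (Fin N → ℂ)) ≤ 𝓟 (closedBall (0 : Fin N → ℂ)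
        (1 + K * (∑ k ∈ Finset.Icc 1 N, ‖b k‖ + 1))) := by
      rw [le_principal_iff]
      exact hul hbd
    obtain ⟨c, -, hc⟩ := hcomp.ultrafilter_le_nhds _ h1
    have hc' : Tendsto Y u (𝓝 c) := hc
    refine ⟨c, hc', fun k hk1 hk2 => ?_⟩
    have h2 : Tendsto (fun t => ∑ i, Y t i ^ k) u (𝓝 (∑ i, c i ^ k)) :=
      tendsto_finsetSum _ fun i _ => ((tendsto_pi_nhds.1 hc') i).pow k
    exact tendsto_nhds_unique h2 ((h k hk1 hk2).mono_left hul)
  obtain ⟨c, -, hc⟩ := hu (Ultrafilter.of l) (Ultrafilter.of_le l)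
  refine ⟨c, hc, fun F hF => ?_⟩
  rw [tendsto_iff_ultrafilter]
  intro g hg
  obtain ⟨w, hw, hwb⟩ := hu g hg
  have h1 : ∑ i, F (c i) = ∑ i, F (w i) :=
    sum_eq_of_pow (fun k hk1 hk2 => by rw [hc k hk1 hk2, hwb k hk1 hk2]) F
  rw [h1]
  exact tendsto_finsetSum _ fun i _ => (hF.tendsto _).comp ((tendsto_pi_nhds.1 hw) i)

/-- continuity of all symmetric functions from the power sums -/
theorem poly_continuousWithinAt {T : Type*} [TopologicalSpace T] {s : Set T} {N : ℕ}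
    {Y : T → Fin N → ℂ} {t : T} (ht : t ∈ s)
    (h : ∀ k, 1 ≤ k → k ≤ N → ContinuousWithinAt (fun t => ∑ i, Y t i ^ k) s t) {F : ℂ → ℂ}
    (hF : Continuous F) : ContinuousWithinAt (fun t => ∑ i, F (Y t i)) s t := by
  have : (𝓝[s] t).NeBot := mem_closure_iff_nhdsWithin_neBot.1 (subset_closure ht)
  obtain ⟨c, hc, hc2⟩ := poly_tendsto (l := 𝓝[s] t) (Y := Y) (b := fun k => ∑ i, Y t i ^ k) h
  have := hc2 F hF
  rwa [sum_eq_of_pow hc F] at this

theorem poly_continuousOn {T : Type*} [TopologicalSpace T] {s : Set T} {N : ℕ}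
    {Y : T → Fin N → ℂ} (h : ∀ k, 1 ≤ k → k ≤ N → ContinuousOn (fun t => ∑ i, Y t i ^ k) s)
    {F : ℂ → ℂ} (hF : Continuous F) : ContinuousOn (fun t => ∑ i, F (Y t i)) s :=
  fun t ht => poly_continuousWithinAt ht (fun k h1 h2 => h k h1 h2 t ht) hF

end Vale.Agent.P247.H667
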