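import Vale.Agent.P247.H667.Clu
import Vale.Agent.P247.H620.LRoot

/-!
# Pull back of a multisection under `t ↦ t ^ q`
-/

open MeasureTheory Set Metric Filter Topology
open scoped ContDiff ENNReal

noncomputable section

namespace Vale.Agent.P247.H667

open Vale.Agent.P247.H324 Vale.Agent.P272.CT

/-- multiplication by a complex number as a real linear map -/
def ml (a : ℂ) : ℂ →L[ℝ] ℂ := a • ContinuousLinearMap.id ℝ ℂ

theorem ml_apply (a v : ℂ) : ml a v = a * v := rfl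

theorem det_ml (a : ℂ) : (ml a).det = ‖a‖ ^ 2 := by
  rw [H620.det_eq, ml_apply, ml_apply, ← Complex.normSq_eq_norm_sq, Complex.normSq_apply]
  simp

theorem norm_ml_le (a : ℂ) : ‖ml a‖ ≤ ‖a‖ :=
  ContinuousLinearMap.opNorm_le_bound _ (norm_nonneg _) fun v => by
    rw [ml_apply, norm_mul]

theorem pz_ml (L : ℂ →L[ℝ] ℂ) (a : ℂ) : pz (L.comp (ml a)) = a * pz L := by
  have h1 : pz (ml a) = a ∧ pzb (ml a) = 0 :=
    pz_eq_of fun v => by rw [ml_apply]; simp [mul_comm]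
  have h2 := (pz_comp L (ml a)).1
  rw [h2, h1.1, h1.2]
  simp

theorem pzb_ml (L : ℂ →L[ℝ] ℂ) (a : ℂ) :
    pzb (L.comp (ml a)) = (starRingEnd ℂ) a * pzb L := by
  have h1 : pz (ml a) = a ∧ pzb (ml a) = 0 :=
    pz_eq_of fun v => by rw [ml_apply]; simp [mul_comm]
  have h2 := (pz_comp L (ml a)).2
  rw [h2, h1.1, h1.2]
  simp

theorem enorm_comp_ml (L : ℂ →L[ℝ] ℂ) (a : ℂ) : ‖L.comp (ml a)‖ₑ ≤ ‖a‖ₑ * ‖L‖ₑ := by
  rw [← ofReal_norm, ← ofReal_norm, ← ofReal_norm, ← ENNReal.ofReal_mul (norm_nonneg _)]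
  refine ENNReal.ofReal_le_ofReal ((ContinuousLinearMap.opNorm_comp_le _ _).trans ?_)
  rw [mul_comm]
  exact mul_le_mul_of_nonneg_right (norm_ml_le a) (norm_nonneg _)

theorem hasFDerivAt_pow_ml (q : ℕ) (t : ℂ) :
    HasFDerivAt (fun t : ℂ => t ^ q) (ml (q * t ^ (q - 1))) t := by
  have h1 := (hasDerivAt_pow q t).hasFDerivAt.restrictScalars ℝ
  refine h1.congr_fderiv ?_
  ext v
  simp [ml, mul_comm]

theorem jac_ne {q : ℕ} (hq : 1 ≤ q) {t : ℂ} (ht : t ≠ 0) : ((q : ℂ) * t ^ (q - 1)) ≠ 0 :=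
  mul_ne_zero (Nat.cast_ne_zero.2 (by omega)) (pow_ne_zero _ ht)

theorem MS.pull {k q : ℕ} {r r' : ℝ} {Y : ℂ → Fin k → ℂ} {D : ℂ → Fin k → ℂ →L[ℝ] ℂ}
    (h : MS k (pb r) Y D) (hq : 1 ≤ q) (hr : r' ^ q ≤ r) :
    MS k (pb r') (fun t => Y (t ^ q)) (fun t i => (D (t ^ q) i).comp (ml (q * t ^ (q - 1)))) where
  cont F hF := (h.cont F hF).comp (continuous_pow q).continuousOn fun t ht => pow_mem_pb hq hr ht
  chain F hF := by
    have h1 := (h.chain F hF).comp_right (isOpen_pb r) (isOpen_pb r') (g := fun t : ℂ => t ^ q)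
      (contDiff_id.pow q).contDiffOn (fun t ht => by
        rw [(hasFDerivAt_pow_ml q t).fderiv, det_ml]
        exact pow_ne_zero _ (norm_ne_zero_iff.2 (jac_ne hq (mem_pb.1 ht).2)))
      (fun t ht => pow_mem_pb hq hr ht)
    refine h1.congr (isOpen_pb r').measurableSet (fun t _ => rfl) fun t _ => ?_
    simp only
    rw [(hasFDerivAt_pow_ml q t).fderiv]
    ext v
    simp

/-- fibre integral inequality -/
theorem fib_le {q : ℕ} (hq : 1 ≤ q) {r' : ℝ} {B : Set ℂ} (hB : MeasurableSet B)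
    (hBr : B ⊆ pb r') (H : ℂ → ℝ≥0∞) :
    ∫⁻ t in B, ENNReal.ofReal (‖(q : ℂ) * t ^ (q - 1)‖ ^ 2) * H (t ^ q) ≤
      q * ∫⁻ z in (fun t : ℂ => t ^ q) '' B, H z := by
  have hcov : B ⊆ ⋃ j : Fin q, (H620.sec q j (r' ^ q) ∩ B) := by
    intro t ht
    have h1 := mem_pb.1 (hBr ht)
    have h2 : t ∈ ⋃ j ∈ Finset.range q, H620.sec q j (r' ^ q) := by
      rw [H620.sec_union hq]
      exact ⟨pow_lt_pow_left₀ h1.1 (norm_nonneg _) (by omega), h1.2⟩
    simp only [mem_iUnion, Finset.mem_range, exists_prop] at h2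
    obtain ⟨j, hj, h3⟩ := h2
    exact mem_iUnion.2 ⟨⟨j, hj⟩, h3, ht⟩
  calc ∫⁻ t in B, ENNReal.ofReal (‖(q : ℂ) * t ^ (q - 1)‖ ^ 2) * H (t ^ q)
      ≤ ∫⁻ t in ⋃ j : Fin q, (H620.sec q j (r' ^ q) ∩ B),
          ENNReal.ofReal (‖(q : ℂ) * t ^ (q - 1)‖ ^ 2) * H (t ^ q) := lintegral_mono_set hcov
    _ ≤ ∑' j : Fin q, ∫⁻ t in H620.sec q j (r' ^ q) ∩ B,
          ENNReal.ofReal (‖(q : ℂ) * t ^ (q - 1)‖ ^ 2) * H (t ^ q) := lintegral_iUnion_le _ _
    _ ≤ ∑' _j : Fin q, ∫⁻ z in (fun t : ℂ => t ^ q) '' B, H z := by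
        refine ENNReal.tsum_le_tsum fun j => ?_
        have h1 := lintegral_image_eq_lintegral_abs_det_fderiv_mul volume
          ((H620.sec_meas q j (r' ^ q)).inter hB)
          (fun t _ => (hasFDerivAt_pow_ml q t).hasFDerivWithinAt)
          ((H620.sec_inj q j (r' ^ q)).mono inter_subset_left) H
        have h2 : ∫⁻ t in H620.sec q j (r' ^ q) ∩ B,
            ENNReal.ofReal (‖(q : ℂ) * t ^ (q - 1)‖ ^ 2) * H (t ^ q) =
            ∫⁻ t in H620.sec q j (r' ^ q) ∩ B,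
              ENNReal.ofReal |(ml (q * t ^ (q - 1))).det| * H (t ^ q) := by
          refine lintegral_congr fun t => ?_
          rw [det_ml, abs_of_nonneg (by positivity)]
        rw [h2, ← h1]
        exact lintegral_mono_set (image_mono inter_subset_right)
    _ = q * ∫⁻ z in (fun t : ℂ => t ^ q) '' B, H z := by
        rw [tsum_fintype, Finset.sum_const, Finset.card_univ, Fintype.card_fin, nsmul_eq_mul]

/-- almost everywhere statements pull back under `t ↦ t ^ q` -/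
theorem ae_pull {q : ℕ} (hq : 1 ≤ q) {r r' : ℝ} (hr : r' ^ q ≤ r) {p : ℂ → Prop}
    (hp : ∀ᵐ z ∂(volume.restrict (pb r)), p z) :
    ∀ᵐ t ∂(volume.restrict (pb r')), p (t ^ q) := by
  rw [ae_iff] at hp
  obtain ⟨N, hN1, hN2, hN3⟩ := exists_measurable_superset_of_null hp
  have h1 := fib_le hq (isOpen_pb r').measurableSet Subset.rfl (N.indicator 1)
  have h2 : ∫⁻ z in (fun t : ℂ => t ^ q) '' pb r', N.indicator 1 z = 0 := by
    refine le_antisymm ((lintegral_mono_set (t := pb r) ?_).trans ?_) (zero_le)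
    · rintro _ ⟨t, ht, rfl⟩
      exact pow_mem_pb hq hr ht
    · rw [lintegral_indicator_one hN2, hN3]
  rw [h2, mul_zero] at h1
  have hm : Measurable fun t : ℂ =>
      ENNReal.ofReal (‖(q : ℂ) * t ^ (q - 1)‖ ^ 2) * N.indicator 1 (t ^ q) := by
    refine Measurable.mul ?_ ?_
    · fun_prop
    · exact (measurable_const.indicator hN2).comp (by fun_prop)
  have h3 := (lintegral_eq_zero_iff hm).1 (le_antisymm h1 (zero_le))
  filter_upwards [h3, ae_restrict_mem (isOpen_pb r').measurableSet] with t ht ht2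
  by_contra hcon
  have h4 : t ^ q ∈ N := hN1 hcon
  simp only [Pi.zero_apply, mul_eq_zero, ENNReal.ofReal_eq_zero, indicator_of_mem h4,
    Pi.one_apply, one_ne_zero, or_false] at ht
  have h5 : 0 < ‖(q : ℂ) * t ^ (q - 1)‖ := norm_pos_iff.2 (jac_ne hq (mem_pb.1 ht2).2)
  have h6 : 0 < ‖(q : ℂ) * t ^ (q - 1)‖ ^ 2 := by positivity
  linarith

theorem aemeasurable_pull {q : ℕ} (hq : 1 ≤ q) {r r' : ℝ} (hr : r' ^ q ≤ r) {g : ℂ → ℝ≥0∞}
    (hg : AEMeasurable g (volume.restrict (pb r))) :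
    AEMeasurable (fun t => ‖(q : ℂ) * t ^ (q - 1)‖ₑ * g (t ^ q)) (volume.restrict (pb r')) := by
  obtain ⟨g0, hg0, he⟩ := hg
  have h1 := ae_pull hq hr (r' := r') he
  refine ⟨fun t => ‖(q : ℂ) * t ^ (q - 1)‖ₑ * g0 (t ^ q), ?_, ?_⟩
  · refine Measurable.mul (by fun_prop) (hg0.comp (by fun_prop))
  · filter_upwards [h1] with t ht
    rw [ht]

/-- Morrey bounds pull back -/
theorem mor_pull {q : ℕ} (hq : 1 ≤ q) {r r' K ε : ℝ} (hr : r' ^ q ≤ r) (hr'1 : r' ≤ 1)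
    (hK : 0 ≤ K) (hε : 0 ≤ ε) {g : ℂ → ℝ≥0∞}
    (hM : ∀ x ρ, 0 < ρ → ∫⁻ z in ball x ρ ∩ pb r, g z ^ 2 ≤ ENNReal.ofReal (K * ρ ^ (2 * ε))) :
    ∃ K', 0 ≤ K' ∧ ∀ x ρ, 0 < ρ →
      ∫⁻ t in ball x ρ ∩ pb r', (‖(q : ℂ) * t ^ (q - 1)‖ₑ * g (t ^ q)) ^ 2 ≤
        ENNReal.ofReal (K' * ρ ^ (2 * ε)) := by
  set C : ℝ := q * 2 ^ (q - 1) with hC
  have hq1 : (1 : ℝ) ≤ q := by exact_mod_cast hq
  have hC1 : 1 ≤ C := by
    have h2 : (1 : ℝ) ≤ 2 ^ (q - 1) := one_le_pow₀ (by norm_num)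
    nlinarith
  have hC0 : 0 < C := by linarith
  refine ⟨q * (K * C ^ (2 * ε)), by positivity, fun x ρ hρ => ?_⟩
  have hfib := fib_le hq (B := ball x ρ ∩ pb r')
    (measurableSet_ball.inter (isOpen_pb r').measurableSet) inter_subset_right fun z => g z ^ 2
  have e : ∀ t : ℂ, (‖(q : ℂ) * t ^ (q - 1)‖ₑ * g (t ^ q)) ^ 2 =
      ENNReal.ofReal (‖(q : ℂ) * t ^ (q - 1)‖ ^ 2) * g (t ^ q) ^ 2 := by
    intro t
    rw [mul_pow, ENNReal.ofReal_pow (norm_nonneg _), ofReal_norm]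
  rw [lintegral_congr fun t => e t]
  refine hfib.trans ?_
  -- the image of the small ball
  have himg : ∃ y ρ', 0 < ρ' ∧ ρ' ^ (2 * ε) ≤ C ^ (2 * ε) * ρ ^ (2 * ε) ∧
      (fun t : ℂ => t ^ q) '' (ball x ρ ∩ pb r') ⊆ ball y ρ' ∩ pb r := by
    rcases le_or_gt ρ 1 with h1 | h1
    · refine ⟨x ^ q, C * ρ, by positivity, ?_, ?_⟩
      · rw [Real.mul_rpow hC0.le hρ.le]
      · rintro _ ⟨t, ⟨ht, ht2⟩, rfl⟩
        refine ⟨?_, pow_mem_pb hq hr ht2⟩
        rw [mem_ball, dist_eq_norm] at ht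
        have ht1 : ‖t‖ ≤ 1 := (mem_pb.1 ht2).1.le.trans hr'1
        have hx : ‖x‖ ≤ 2 := by
          have : ‖x‖ ≤ ‖t‖ + ‖t - x‖ := by
            have e2 : x = t - (t - x) := by ring
            calc ‖x‖ = ‖t - (t - x)‖ := by rw [← e2]
              _ ≤ _ := norm_sub_le _ _
          linarith
        have hgeom : t ^ q - x ^ q = (∑ i ∈ Finset.range q, t ^ i * x ^ (q - 1 - i)) * (t - x) :=
          (geom_sum₂_mul t x q).symm
        rw [mem_ball, dist_eq_norm]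
        show ‖t ^ q - x ^ q‖ < C * ρ
        rw [hgeom, norm_mul]
        have hs : ‖∑ i ∈ Finset.range q, t ^ i * x ^ (q - 1 - i)‖ ≤ C := by
          calc ‖∑ i ∈ Finset.range q, t ^ i * x ^ (q - 1 - i)‖
              ≤ ∑ i ∈ Finset.range q, (2 : ℝ) ^ (q - 1) := by
                refine norm_sum_le_of_le _ fun i hi => ?_
                rw [Finset.mem_range] at hi
                rw [norm_mul, norm_pow, norm_pow]
                have a1 : ‖t‖ ^ i ≤ 1 := pow_le_one₀ (norm_nonneg _) ht1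
                have a2 : ‖x‖ ^ (q - 1 - i) ≤ 2 ^ (q - 1 - i) :=
                  pow_le_pow_left₀ (norm_nonneg _) hx _
                have a3 : (2 : ℝ) ^ (q - 1 - i) ≤ 2 ^ (q - 1) :=
                  pow_le_pow_right₀ (by norm_num) (by omega)
                calc ‖t‖ ^ i * ‖x‖ ^ (q - 1 - i) ≤ 1 * 2 ^ (q - 1) :=
                      mul_le_mul a1 (a2.trans a3) (by positivity) (by norm_num)
                  _ = _ := one_mul _
            _ = C := by simp [hC]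
        calc ‖∑ i ∈ Finset.range q, t ^ i * x ^ (q - 1 - i)‖ * ‖t - x‖ ≤ C * ‖t - x‖ :=
              mul_le_mul_of_nonneg_right hs (norm_nonneg _)
          _ < C * ρ := mul_lt_mul_of_pos_left ht hC0
    · refine ⟨0, 1, one_pos, ?_, ?_⟩
      · rw [Real.one_rpow]
        have b1 : 1 ≤ C ^ (2 * ε) := Real.one_le_rpow hC1 (by linarith)
        have b2 : 1 ≤ ρ ^ (2 * ε) := Real.one_le_rpow h1.le (by linarith)
        nlinarith
      · rintro _ ⟨t, ⟨-, ht2⟩, rfl⟩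
        refine ⟨?_, pow_mem_pb hq hr ht2⟩
        rw [mem_ball_zero_iff]
        show ‖t ^ q‖ < 1
        rw [norm_pow]
        exact pow_lt_one₀ (norm_nonneg _) ((mem_pb.1 ht2).1.trans_le hr'1) (by omega)
  obtain ⟨y, ρ', hρ', hρ'2, hsub⟩ := himg
  calc (q : ℝ≥0∞) * ∫⁻ z in (fun t : ℂ => t ^ q) '' (ball x ρ ∩ pb r'), g z ^ 2
      ≤ q * ENNReal.ofReal (K * ρ' ^ (2 * ε)) := by
        gcongr
        exact (lintegral_mono_set hsub).trans (hM y ρ' hρ')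
    _ = ENNReal.ofReal (q * (K * ρ' ^ (2 * ε))) := by
        rw [ENNReal.ofReal_mul (p := (q : ℝ)) (by positivity), ENNReal.ofReal_natCast]
    _ ≤ ENNReal.ofReal (q * (K * C ^ (2 * ε)) * ρ ^ (2 * ε)) := by
        refine ENNReal.ofReal_le_ofReal ?_
        rw [mul_assoc, mul_assoc]
        gcongr

end Vale.Agent.P247.H667
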