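import Vale.Agent.P247.H667.Side

/-!
# Squares: `∫_Q Jac` is close to `2 π ℤ` when the boundary energy is bounded
-/

open Set MeasureTheory Filter Topology

noncomputable section

namespace Vale.Agent.P247.H667

/-- point `c + x + i y` -/
def pt (c : ℂ) (x y : ℝ) : ℂ := c + x + y * Complex.I

/-- the closed square of centre `c` and half side `s` -/
def Sq (c : ℂ) (s : ℝ) : Set ℂ := {y | |y.re - c.re| ≤ s ∧ |y.im - c.im| ≤ s}

theorem pt_mem {c : ℂ} {s x y : ℝ} (hx : x ∈ Icc (-s) s) (hy : y ∈ Icc (-s) s) :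
    pt c x y ∈ Sq c s := by
  constructor
  · simp [pt, abs_le, hx.1, hx.2]
  · simp [pt, abs_le, hy.1, hy.2]

/-- integral over the boundary of the square -/
def bdI (e : ℂ → ℝ) (c : ℂ) (s : ℝ) : ℝ :=
  ∫ t in (-s)..s, (e (pt c t (-s)) + e (pt c t s) + e (pt c (-s) t) + e (pt c s t))

/-- Stokes -/
theorem stokes_sq {c : ℂ} {s : ℝ} (hs : 0 ≤ s) {g1 g2 : ℂ → ℝ} {g1' g2' : ℂ → ℂ →L[ℝ] ℝ}
    (h1 : ∀ y ∈ Sq c s, HasFDerivAt g1 (g1' y) y) (h2 : ∀ y ∈ Sq c s, HasFDerivAt g2 (g2' y) y)
    (hc1 : ContinuousOn g1' (Sq c s)) (hc2 : ContinuousOn g2' (Sq c s)) :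
    ∫ y in Sq c s, (g2' y 1 - g1' y Complex.I) =
      (∫ t in (-s)..s, g1 (pt c t (-s))) + (∫ t in (-s)..s, g2 (pt c s t))
        - (∫ t in (-s)..s, g1 (pt c t s)) - ∫ t in (-s)..s, g2 (pt c (-s) t) := by
  -- the parametrisation
  let P : ℝ × ℝ → ℂ := fun p => pt c p.1 p.2
  have hP : ∀ p, HasFDerivAt P
      ((ContinuousLinearMap.fst ℝ ℝ ℝ).smulRight (1 : ℂ) +
        (ContinuousLinearMap.snd ℝ ℝ ℝ).smulRight Complex.I) p := by
    intro p
    have e1 : P = fun p : ℝ × ℝ => c + (((ContinuousLinearMap.fst ℝ ℝ ℝ).smulRight (1 : ℂ) +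
        (ContinuousLinearMap.snd ℝ ℝ ℝ).smulRight Complex.I) p) := by
      funext p
      simp [P, pt, add_assoc]
    rw [e1]
    exact (ContinuousLinearMap.hasFDerivAt _).const_add c
  have hPc : Continuous P := continuous_iff_continuousAt.2 fun p => (hP p).continuousAt
  have hPm : ∀ p ∈ uIcc (-s) s ×ˢ uIcc (-s) s, P p ∈ Sq c s := by
    rintro ⟨x, y⟩ ⟨hx, hy⟩
    rw [uIcc_of_le (by linarith)] at hx hy
    exact pt_mem hx hy
  have hI : ∀ x ∈ Ioo (min (-s) s) (max (-s) s) ×ˢ Ioo (min (-s) s) (max (-s) s) \ (∅ : Set (ℝ × ℝ)),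
      x ∈ uIcc (-s) s ×ˢ uIcc (-s) s := by
    rintro ⟨x, y⟩ ⟨⟨hx, hy⟩, -⟩
    exact ⟨⟨hx.1.le, hx.2.le⟩, ⟨hy.1.le, hy.2.le⟩⟩
  have key := integral2_divergence_prod_of_hasFDerivAt_off_countable
    (fun p => g2 (P p)) (fun p => -g1 (P p))
    (fun p => (g2' (P p)).comp ((ContinuousLinearMap.fst ℝ ℝ ℝ).smulRight (1 : ℂ) +
        (ContinuousLinearMap.snd ℝ ℝ ℝ).smulRight Complex.I))
    (fun p => -((g1' (P p)).comp ((ContinuousLinearMap.fst ℝ ℝ ℝ).smulRight (1 : ℂ) +
        (ContinuousLinearMap.snd ℝ ℝ ℝ).smulRight Complex.I)))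
    (-s) (-s) s s ∅ countable_empty
    (fun p hp => ((h2 _ (hPm p hp)).comp p (hP p)).continuousAt.continuousWithinAt)
    (fun p hp => ((h1 _ (hPm p hp)).comp p (hP p)).neg.continuousAt.continuousWithinAt)
    (fun p hp => (h2 _ (hPm p (hI p hp))).comp p (hP p))
    (fun p hp => ((h1 _ (hPm p (hI p hp))).comp p (hP p)).neg)
    ?_
  · simp only [ContinuousLinearMap.comp_apply, add_apply,
      neg_apply, ContinuousLinearMap.smulRight_apply,
      ContinuousLinearMap.coe_fst', ContinuousLinearMap.coe_snd', one_smul, zero_smul, add_zero,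
      zero_add] at key
    have hset : ∫ y in Sq c s, (g2' y 1 - g1' y Complex.I) =
        ∫ p in Icc (-s) s ×ˢ Icc (-s) s, (g2' (P p) 1 - g1' (P p) Complex.I) := by
      have hmp : MeasurePreserving (fun p : ℝ × ℝ => Complex.measurableEquivRealProd.symm p)
          volume volume := Complex.volume_preserving_equiv_real_prod.symm
      have hmp2 : MeasurePreserving P volume volume := by
        have : P = fun p => c + Complex.measurableEquivRealProd.symm p := by
          funext p
          apply Complex.ext <;> simp [P, pt, Complex.measurableEquivRealProd]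
        rw [this]
        exact (measurePreserving_add_left volume c).comp hmp
      have hemb : MeasurableEmbedding P := by
        have : P = fun p => c + Complex.measurableEquivRealProd.symm p := by
          funext p
          apply Complex.ext <;> simp [P, pt, Complex.measurableEquivRealProd]
        rw [this]
        exact (measurableEmbedding_addLeft c).comp
          (Complex.measurableEquivRealProd.symm.measurableEmbedding)
      rw [← hmp2.setIntegral_preimage_emb hemb]
      have : P ⁻¹' Sq c s = Icc (-s) s ×ˢ Icc (-s) s := by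
        ext p
        simp only [Sq, P, pt, mem_preimage, mem_ofPred_eq, mem_prod, mem_Icc]
        simp [abs_le]
      rw [this]
    rw [hset]
    have hfub : ∫ p in Icc (-s) s ×ˢ Icc (-s) s, (g2' (P p) 1 - g1' (P p) Complex.I)
        = ∫ x in (-s)..s, ∫ y in (-s)..s, (g2' (P (x, y)) 1 - g1' (P (x, y)) Complex.I) := by
      have hint : IntegrableOn (fun p : ℝ × ℝ => g2' (P p) 1 - g1' (P p) Complex.I)
          (Icc (-s) s ×ˢ Icc (-s) s) := by
        apply ContinuousOn.integrableOn_compact (isCompact_Icc.prod isCompact_Icc)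
        have hm : MapsTo P (Icc (-s) s ×ˢ Icc (-s) s) (Sq c s) := by
          rintro ⟨x, y⟩ ⟨hx, hy⟩
          exact pt_mem hx hy
        have k2 := hc2.comp hPc.continuousOn hm
        have k1 := hc1.comp hPc.continuousOn hm
        exact (k2.clm_apply continuousOn_const).sub (k1.clm_apply continuousOn_const)
      rw [Measure.volume_eq_prod, setIntegral_prod _ hint, integral_Icc_eq_integral_Ioc,
        intervalIntegral.integral_of_le (by linarith)]
      refine setIntegral_congr_fun measurableSet_Ioc fun x _ => ?_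
      rw [integral_Icc_eq_integral_Ioc, intervalIntegral.integral_of_le (by linarith)]
    rw [hfub]
    have e3 : ∀ x y : ℝ, g2' (P (x, y)) 1 - g1' (P (x, y)) Complex.I
        = g2' (P (x, y)) 1 + -g1' (P (x, y)) Complex.I := fun x y => sub_eq_add_neg _ _
    simp only [e3]
    rw [key]
    simp only [P, intervalIntegral.integral_neg]
    ring
  · have hm : MapsTo P (uIcc (-s) s ×ˢ uIcc (-s) s) (Sq c s) := hPm
    apply ContinuousOn.integrableOn_compact (isCompact_uIcc.prod isCompact_uIcc)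
    have k2 := hc2.comp hPc.continuousOn hm
    have k1 := hc1.comp hPc.continuousOn hm
    have k3 := (k2.clm_apply (continuousOn_const (c := (1 : ℂ)))).sub
      (k1.clm_apply (continuousOn_const (c := Complex.I)))
    refine k3.congr ?_
    intro p _
    simp [sub_eq_add_neg]

/-- data on a square: `al` with derivative `al'`, one-form `a` -/
structure SqData (c : ℂ) (s r : ℝ) (al : ℂ → ℂ) (al' : ℂ → ℂ →L[ℝ] ℂ) (a : ℂ → ℂ →L[ℝ] ℝ)
    (e : ℂ → ℝ) : Prop where
  hal : ∀ y ∈ Sq c s, HasFDerivAt al (al' y) y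
  hal' : ContinuousOn al' (Sq c s)
  ha : ContinuousOn a (Sq c s)
  he : ContinuousOn e (Sq c s)
  he1 : ∀ y ∈ Sq c s,
    ‖al' y 1 - Complex.I * (a y 1 : ℝ) * al y‖ ^ 2 + r * (1 - ‖al y‖ ^ 2) ^ 2 ≤ e y
  he2 : ∀ y ∈ Sq c s,
    ‖al' y Complex.I - Complex.I * (a y Complex.I : ℝ) * al y‖ ^ 2
      + r * (1 - ‖al y‖ ^ 2) ^ 2 ≤ e y

theorem hasDerivAt_pt_h (c : ℂ) (y t : ℝ) : HasDerivAt (fun t : ℝ => pt c t y) 1 t := by
  unfold pt
  have h : HasDerivAt (fun t : ℝ => (t : ℂ)) 1 t := Complex.ofRealCLM.hasDerivAt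
  simpa using (h.const_add c).add_const (y * Complex.I)

theorem hasDerivAt_pt_v (c : ℂ) (x t : ℝ) : HasDerivAt (fun t : ℝ => pt c x t) Complex.I t := by
  unfold pt
  have h : HasDerivAt (fun t : ℝ => (t : ℂ)) 1 t := Complex.ofRealCLM.hasDerivAt
  simpa using (h.mul_const Complex.I).const_add (c + x)

theorem cont_pt_h (c : ℂ) (y : ℝ) : Continuous (fun t : ℝ => pt c t y) :=
  continuous_iff_continuousAt.2 fun t => (hasDerivAt_pt_h c y t).continuousAt

theorem cont_pt_v (c : ℂ) (x : ℝ) : Continuous (fun t : ℝ => pt c x t) :=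
  continuous_iff_continuousAt.2 fun t => (hasDerivAt_pt_v c x t).continuousAt

/-- The vortex lemma on a square. -/
theorem vortex_sq {c : ℂ} {s : ℝ} (hs : 0 < s) {r : ℝ} (hr : 0 < r) {al : ℂ → ℂ}
    {al' : ℂ → ℂ →L[ℝ] ℂ} {a : ℂ → ℂ →L[ℝ] ℝ} {e : ℂ → ℝ} (H : SqData c s r al al' a e)
    {g1' g2' : ℂ → ℂ →L[ℝ] ℝ}
    (h1 : ∀ y ∈ Sq c s, HasFDerivAt
      (fun y => (star (al y) * (al' y 1 - Complex.I * (a y 1 : ℝ) * al y)).im + a y 1) (g1' y) y)
    (h2 : ∀ y ∈ Sq c s, HasFDerivAt
      (fun y => (star (al y) * (al' y Complex.I - Complex.I * (a y Complex.I : ℝ) * al y)).im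
        + a y Complex.I) (g2' y) y)
    (hc1 : ContinuousOn g1' (Sq c s)) (hc2 : ContinuousOn g2' (Sq c s))
    {M : ℝ} (hM : bdI e c s ≤ M) (hsm : M / (r * (2 * s)) + 2 * M / √r ≤ 1 / 2) :
    ∃ k : ℤ, |(∫ y in Sq c s, (g2' y 1 - g1' y Complex.I)) - 2 * Real.pi * k| ≤ 4 * M / √r := by
  have hss : -s < s := by linarith
  have hlo : (-s) ∈ Icc (-s) s := ⟨le_rfl, hss.le⟩
  have hhi : s ∈ Icc (-s) s := ⟨hss.le, le_rfl⟩
  have e0 : ∀ y ∈ Sq c s, 0 ≤ e y := by
    intro y hy
    refine le_trans ?_ (H.he1 y hy)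
    positivity
  -- continuity on sides
  have hmh : ∀ y ∈ Icc (-s) s, MapsTo (fun t : ℝ => pt c t y) (Icc (-s) s) (Sq c s) :=
    fun y hy t ht => pt_mem ht hy
  have hmv : ∀ x ∈ Icc (-s) s, MapsTo (fun t : ℝ => pt c x t) (Icc (-s) s) (Sq c s) :=
    fun x hx t ht => pt_mem hx ht
  have hieh : ∀ y ∈ Icc (-s) s, IntervalIntegrable (fun t => e (pt c t y)) volume (-s) s := by
    intro y hy
    apply ContinuousOn.intervalIntegrable
    rw [uIcc_of_le hss.le]
    exact H.he.comp (cont_pt_h c y).continuousOn (hmh y hy)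
  have hiev : ∀ x ∈ Icc (-s) s, IntervalIntegrable (fun t => e (pt c x t)) volume (-s) s := by
    intro x hx
    apply ContinuousOn.intervalIntegrable
    rw [uIcc_of_le hss.le]
    exact H.he.comp (cont_pt_v c x).continuousOn (hmv x hx)
  have hbd : bdI e c s = (∫ t in (-s)..s, e (pt c t (-s))) + (∫ t in (-s)..s, e (pt c t s))
      + (∫ t in (-s)..s, e (pt c (-s) t)) + ∫ t in (-s)..s, e (pt c s t) := by
    unfold bdI
    rw [intervalIntegral.integral_add, intervalIntegral.integral_add,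
      intervalIntegral.integral_add]
    · exact hieh _ hlo
    · exact hieh _ hhi
    · exact (hieh _ hlo).add (hieh _ hhi)
    · exact hiev _ hlo
    · exact ((hieh _ hlo).add (hieh _ hhi)).add (hiev _ hlo)
    · exact hiev _ hhi
  have nnh : ∀ y ∈ Icc (-s) s, 0 ≤ ∫ t in (-s)..s, e (pt c t y) := fun y hy =>
    intervalIntegral.integral_nonneg hss.le fun t ht => e0 _ (pt_mem ht hy)
  have nnv : ∀ x ∈ Icc (-s) s, 0 ≤ ∫ t in (-s)..s, e (pt c x t) := fun x hx =>
    intervalIntegral.integral_nonneg hss.le fun t ht => e0 _ (pt_mem hx ht)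
  rw [hbd] at hM
  have b1 := nnh _ hlo
  have b2 := nnh _ hhi
  have b3 := nnv _ hlo
  have b4 := nnv _ hhi
  have hsm' : M / (r * (s - -s)) + 2 * M / √r ≤ 1 / 2 := by
    rw [show s - -s = 2 * s by ring]; exact hsm
  -- the horizontal sides
  have hor : ∀ y ∈ Icc (-s) s, (∫ t in (-s)..s, e (pt c t y)) ≤ M →
      ∃ w : ℂ, al (pt c s y) = Complex.exp w * al (pt c (-s) y) ∧ al (pt c (-s) y) ≠ 0 ∧
      |(∫ t in (-s)..s, ((star (al (pt c t y)) * (al' (pt c t y) 1
          - Complex.I * (a (pt c t y) 1 : ℝ) * al (pt c t y))).im + a (pt c t y) 1)) - w.im|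
        ≤ M / √r := by
    intro y hy hle
    have hcal := H.hal'.comp (cont_pt_h c y).continuousOn (hmh y hy)
    have hca := H.ha.comp (cont_pt_h c y).continuousOn (hmh y hy)
    have hcA : ContinuousOn al (Sq c s) := fun z hz =>
      (H.hal z hz).continuousAt.continuousWithinAt
    refine side (al := fun t => al (pt c t y)) (al' := fun t => al' (pt c t y) 1)
      (A := fun t => a (pt c t y) 1) hss ?_ ?_ ?_ hr (E := M) ?_ hsm'
    · intro t ht
      have := (H.hal _ (pt_mem ht hy)).comp_hasDerivAt t (hasDerivAt_pt_h c y t)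
      exact this
    · exact hcal.clm_apply continuousOn_const
    · exact hca.clm_apply continuousOn_const
    · refine le_trans ?_ hle
      apply intervalIntegral.integral_mono_on hss.le
      · apply ContinuousOn.intervalIntegrable
        rw [uIcc_of_le hss.le]
        unfold den
        have c1 : ContinuousOn (fun t => al (pt c t y)) (Icc (-s) s) :=
          hcA.comp (cont_pt_h c y).continuousOn (hmh y hy)
        have c2 : ContinuousOn (fun t => al' (pt c t y) 1) (Icc (-s) s) :=
          hcal.clm_apply continuousOn_const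
        have c3 : ContinuousOn (fun t => ((a (pt c t y) 1 : ℝ) : ℂ)) (Icc (-s) s) :=
          Complex.continuous_ofReal.comp_continuousOn (hca.clm_apply continuousOn_const)
        exact ((c2.sub ((continuousOn_const.mul c3).mul c1)).norm.pow 2).add
          (continuousOn_const.mul ((continuousOn_const.sub (c1.norm.pow 2)).pow 2))
      · exact hieh y hy
      · intro t ht
        exact H.he1 _ (pt_mem ht hy)
  have ver : ∀ x ∈ Icc (-s) s, (∫ t in (-s)..s, e (pt c x t)) ≤ M →
      ∃ w : ℂ, al (pt c x s) = Complex.exp w * al (pt c x (-s)) ∧ al (pt c x (-s)) ≠ 0 ∧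
      |(∫ t in (-s)..s, ((star (al (pt c x t)) * (al' (pt c x t) Complex.I
          - Complex.I * (a (pt c x t) Complex.I : ℝ) * al (pt c x t))).im
            + a (pt c x t) Complex.I)) - w.im| ≤ M / √r := by
    intro x hx hle
    have hcal := H.hal'.comp (cont_pt_v c x).continuousOn (hmv x hx)
    have hca := H.ha.comp (cont_pt_v c x).continuousOn (hmv x hx)
    have hcA : ContinuousOn al (Sq c s) := fun z hz =>
      (H.hal z hz).continuousAt.continuousWithinAt
    refine side (al := fun t => al (pt c x t)) (al' := fun t => al' (pt c x t) Complex.I)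
      (A := fun t => a (pt c x t) Complex.I) hss ?_ ?_ ?_ hr (E := M) ?_ hsm'
    · intro t ht
      have := (H.hal _ (pt_mem hx ht)).comp_hasDerivAt t (hasDerivAt_pt_v c x t)
      exact this
    · exact hcal.clm_apply continuousOn_const
    · exact hca.clm_apply continuousOn_const
    · refine le_trans ?_ hle
      apply intervalIntegral.integral_mono_on hss.le
      · apply ContinuousOn.intervalIntegrable
        rw [uIcc_of_le hss.le]
        unfold den
        have c1 : ContinuousOn (fun t => al (pt c x t)) (Icc (-s) s) :=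
          hcA.comp (cont_pt_v c x).continuousOn (hmv x hx)
        have c2 : ContinuousOn (fun t => al' (pt c x t) Complex.I) (Icc (-s) s) :=
          hcal.clm_apply continuousOn_const
        have c3 : ContinuousOn (fun t => ((a (pt c x t) Complex.I : ℝ) : ℂ)) (Icc (-s) s) :=
          Complex.continuous_ofReal.comp_continuousOn (hca.clm_apply continuousOn_const)
        exact ((c2.sub ((continuousOn_const.mul c3).mul c1)).norm.pow 2).add
          (continuousOn_const.mul ((continuousOn_const.sub (c1.norm.pow 2)).pow 2))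
      · exact hiev x hx
      · intro t ht
        exact H.he2 _ (pt_mem hx ht)
  obtain ⟨w1, q1, n1, k1⟩ := hor (-s) hlo (by linarith)
  obtain ⟨w2, q2, n2, k2⟩ := ver s hhi (by linarith)
  obtain ⟨w3, q3, n3, k3⟩ := hor s hhi (by linarith)
  obtain ⟨w4, q4, n4, k4⟩ := ver (-s) hlo (by linarith)
  have hexp : Complex.exp (w2 + w1) = Complex.exp (w3 + w4) := by
    have h5 : Complex.exp w2 * Complex.exp w1 * al (pt c (-s) (-s))
        = Complex.exp w3 * Complex.exp w4 * al (pt c (-s) (-s)) := by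
      rw [mul_assoc, ← q1, ← q2, mul_assoc, ← q4, ← q3]
    rw [Complex.exp_add, Complex.exp_add]
    exact mul_right_cancel₀ n1 h5
  rw [Complex.exp_eq_exp_iff_exists_int] at hexp
  obtain ⟨k, hk⟩ := hexp
  refine ⟨k, ?_⟩
  have him : w2.im + w1.im = w3.im + w4.im + 2 * Real.pi * k := by
    have := congrArg Complex.im hk
    simp at this
    linarith
  rw [stokes_sq hs.le h1 h2 hc1 hc2]
  rw [abs_le] at k1 k2 k3 k4 ⊢
  have h4 : 4 * M / √r = M / √r + M / √r + M / √r + M / √r := by ring
  rw [h4]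
  constructor <;> linarith [k1.1, k1.2, k2.1, k2.2, k3.1, k3.2, k4.1, k4.2]

end Vale.Agent.P247.H667
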