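import Mathlib

/-!
# One side of a rectangle

`α` a complex valued function on an interval, `N = α' - i A α` its covariant derivative, small
potential `∫ (1 - |α|²)²`.  Then `|α|² > 1/4` and `∫ (Im (conj α N) + A)` is, up to a small error,
the variation of the argument of `α`.
-/

open Set MeasureTheory Filter Topology

noncomputable section

namespace Vale.Agent.P247.H667

/-- `(1-q)²/(1+q²)` -/
def HH (q : ℝ) : ℝ := (1 - q) ^ 2 / (1 + q ^ 2)

theorem HH_nonneg (q : ℝ) : 0 ≤ HH q := by
  unfold HH; positivity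

theorem HH_le (q : ℝ) : HH q ≤ (1 - q) ^ 2 := by
  unfold HH
  rw [div_le_iff₀ (by positivity)]
  nlinarith [sq_nonneg (q * (1 - q)), sq_nonneg q, sq_nonneg (1 - q)]

theorem quarter_of_HH {q : ℝ} (_hq : 0 ≤ q) (h : HH q ≤ 1 / 2) : 1 / 4 < q := by
  by_contra hc
  push Not at hc
  unfold HH at h
  rw [div_le_iff₀ (by positivity)] at h
  nlinarith

theorem HH_deriv (q : ℝ) : HasDerivAt HH (-2 * (1 - q ^ 2) / (1 + q ^ 2) ^ 2) q := by
  unfold HH
  have h1 : HasDerivAt (fun q : ℝ => (1 - q) ^ 2) (2 * (1 - q) * (-1)) q := by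
    have := ((hasDerivAt_id' q).const_sub 1).fun_pow 2
    simpa using this
  have h2 : HasDerivAt (fun q : ℝ => 1 + q ^ 2) (2 * q) q := by
    have := ((hasDerivAt_id' q).fun_pow 2).const_add 1
    simpa using this
  have h3 := h1.fun_div h2 (by positivity)
  refine h3.congr_deriv ?_
  rw [div_left_inj' (by positivity)]
  ring

theorem HH_deriv_bd {q s : ℝ} (_hs : 0 ≤ s) (hq : q = s ^ 2) :
    |(-2 * (1 - q ^ 2) / (1 + q ^ 2) ^ 2)| * (2 * s) ≤ 4 * |1 - q| := by
  have hq0 : 0 ≤ q := by rw [hq]; positivity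
  rw [abs_div, abs_mul, abs_of_pos (show 0 < (1 + q ^ 2) ^ 2 by positivity)]
  have e1 : |1 - q ^ 2| = |1 - q| * (1 + q) := by
    rw [show 1 - q ^ 2 = (1 - q) * (1 + q) by ring, abs_mul, abs_of_nonneg (by linarith : 0 ≤ 1 + q)]
  rw [e1, div_mul_eq_mul_div, div_le_iff₀ (by positivity)]
  have h2 : |(-2 : ℝ)| = 2 := by norm_num
  rw [h2]
  have h3 : (1 + q) * s ≤ (1 + q ^ 2) ^ 2 := by
    have a1 : s ≤ (1 + q) / 2 := by rw [hq]; nlinarith [sq_nonneg (s - 1)]
    have a2 : (1 + q) * s ≤ (1 + q) * ((1 + q) / 2) := mul_le_mul_of_nonneg_left a1 (by linarith)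
    have a3 : (1 + q) * ((1 + q) / 2) ≤ 1 + q ^ 2 := by nlinarith [sq_nonneg (q - 1)]
    have a4 : 1 + q ^ 2 ≤ (1 + q ^ 2) ^ 2 := by nlinarith [sq_nonneg q, sq_nonneg (q ^ 2)]
    linarith
  have h4 : 0 ≤ |1 - q| := abs_nonneg _
  nlinarith [mul_le_mul_of_nonneg_left h3 h4]

/-- algebra: the derivative of `|α|²` -/
theorem re_cov (al al' : ℂ) (A : ℝ) :
    (2 * (star al * (al' - Complex.I * A * al)).re) = 2 * (star al * al').re := by
  simp [Complex.mul_re, Complex.mul_im]
  ring

theorem abs_re_cov (al N : ℂ) : |2 * (star al * N).re| ≤ 2 * ‖al‖ * ‖N‖ := by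
  rw [abs_mul, abs_of_pos (by norm_num : (0 : ℝ) < 2), mul_assoc]
  have := Complex.abs_re_le_norm (star al * N)
  rw [norm_mul, norm_star] at this
  linarith

theorem im_cov (al al' : ℂ) (A : ℝ) (h : al ≠ 0) :
    ((star al * (al' - Complex.I * A * al)).im + A) - (al' / al).im
      = (star al * (al' - Complex.I * A * al)).im * (‖al‖ ^ 2 - 1) / ‖al‖ ^ 2 := by
  have hn : Complex.normSq al ≠ 0 := by simpa using h
  rw [← Complex.normSq_eq_norm_sq]
  have h1 : (al' / al).im = (star al * al').im / Complex.normSq al := by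
    rw [div_eq_mul_inv, Complex.inv_def]
    simp [Complex.mul_im, Complex.mul_re]
    field_simp
    ring
  rw [h1]
  have h2 : (star al * (al' - Complex.I * A * al)).im
      = (star al * al').im - A * Complex.normSq al := by
    simp [Complex.mul_im, Complex.mul_re, Complex.normSq_apply]
    ring
  rw [h2]
  field_simp
  ring

theorem exp_int_div {p q : ℝ} (hpq : p ≤ q) {al al' : ℝ → ℂ}
    (hal : ∀ t ∈ Icc p q, HasDerivAt al (al' t) t) (hal' : ContinuousOn al' (Icc p q))
    (h0 : ∀ t ∈ Icc p q, al t ≠ 0) :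
    al q = Complex.exp (∫ t in p..q, al' t / al t) * al p := by
  have hac : ContinuousOn al (Icc p q) := fun t ht => (hal t ht).continuousAt.continuousWithinAt
  have hgc : ContinuousOn (fun t => al' t / al t) (Icc p q) := hal'.div hac h0
  have hgi : IntervalIntegrable (fun t => al' t / al t) volume p q := by
    apply ContinuousOn.intervalIntegrable
    rwa [uIcc_of_le hpq]
  have hder : ∀ t ∈ Icc p q, HasDerivWithinAt
      (fun t => ∫ s in p..t, al' s / al s) (al' t / al t) (Icc p q) t := by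
    intro t ht
    have : Fact (t ∈ Icc p q) := ⟨ht⟩
    apply intervalIntegral.integral_hasDerivWithinAt_right (a := p) (s := Icc p q) (t := Icc p q)
    · apply hgi.mono_set
      rw [uIcc_of_le hpq, uIcc_of_le ht.1]
      exact Icc_subset_Icc_right ht.2
    · exact hgc.stronglyMeasurableAtFilter_nhdsWithin measurableSet_Icc t
    · exact hgc t ht
  have key := constant_of_has_deriv_right_zero
    (f := fun t => Complex.exp (-∫ s in p..t, al' s / al s) * al t) (a := p) (b := q) ?_ ?_ q
    (right_mem_Icc.2 hpq)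
  · simp only [intervalIntegral.integral_same, neg_zero, Complex.exp_zero, one_mul] at key
    rw [← key, ← mul_assoc, ← Complex.exp_add]
    simp
  · intro t ht
    have h1 := (hder t ht).continuousWithinAt
    exact (Complex.continuous_exp.continuousAt.comp_continuousWithinAt h1.neg).mul
      (hac t ht)
  · intro t ht
    have ht' : t ∈ Icc p q := ⟨ht.1, ht.2.le⟩
    have h1 : HasDerivWithinAt (fun t => ∫ s in p..t, al' s / al s) (al' t / al t) (Ici t) t := by
      have := (hder t ht').mono (Icc_subset_Icc_left ht.1 : Icc t q ⊆ Icc p q)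
      exact this.mono_of_mem_nhdsWithin (Icc_mem_nhdsGE ht.2)
    have h2 := (h1.neg.cexp).mul (hal t ht').hasDerivWithinAt
    refine h2.congr_deriv ?_
    have := h0 t ht'
    simp only [Pi.neg_apply]
    field_simp
    ring

/-- the energy density on the side -/
def den (r : ℝ) (al al' : ℝ → ℂ) (A : ℝ → ℝ) (t : ℝ) : ℝ :=
  ‖al' t - Complex.I * A t * al t‖ ^ 2 + r * (1 - ‖al t‖ ^ 2) ^ 2

theorem den_nonneg {r : ℝ} (hr : 0 < r) (al al' : ℝ → ℂ) (A : ℝ → ℝ) (t : ℝ) :
    0 ≤ den r al al' A t := by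
  unfold den; positivity

theorem amgm {r : ℝ} (hr : 0 < r) (x y : ℝ) :
    2 * |x| * |y| ≤ (1 / √r) * (y ^ 2 + r * x ^ 2) := by
  have hs : 0 < √r := Real.sqrt_pos.2 hr
  rw [div_mul_eq_mul_div, one_mul, le_div_iff₀ hs]
  have h1 : r = √r * √r := (Real.mul_self_sqrt hr.le).symm
  have : r * x ^ 2 = (√r * |x|) ^ 2 := by
    rw [mul_pow, sq_abs, Real.sq_sqrt hr.le]
  rw [this, ← sq_abs y]
  nlinarith [sq_nonneg (√r * |x| - |y|)]

theorem side {p q : ℝ} (hpq : p < q) {al al' : ℝ → ℂ} {A : ℝ → ℝ}
    (hal : ∀ t ∈ Icc p q, HasDerivAt al (al' t) t) (hal' : ContinuousOn al' (Icc p q))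
    (hA : ContinuousOn A (Icc p q)) {r E : ℝ} (hr : 0 < r)
    (hE : ∫ t in p..q, den r al al' A t ≤ E)
    (hsm : E / (r * (q - p)) + 2 * E / √r ≤ 1 / 2) :
    ∃ w : ℂ, al q = Complex.exp w * al p ∧ al p ≠ 0 ∧
      |(∫ t in p..q, ((star (al t) * (al' t - Complex.I * A t * al t)).im + A t)) - w.im|
        ≤ E / √r := by
  have hs : 0 < √r := Real.sqrt_pos.2 hr
  have hac : ContinuousOn al (Icc p q) := fun t ht => (hal t ht).continuousAt.continuousWithinAt
  have hAc : ContinuousOn (fun t => (A t : ℂ)) (Icc p q) :=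
    Complex.continuous_ofReal.comp_continuousOn hA
  have hNc : ContinuousOn (fun t => al' t - Complex.I * A t * al t) (Icc p q) :=
    hal'.sub ((continuousOn_const.mul hAc).mul hac)
  have hdc : ContinuousOn (den r al al' A) (Icc p q) := by
    unfold den
    exact (hNc.norm.pow 2).add (continuousOn_const.mul ((continuousOn_const.sub
      (hac.norm.pow 2)).pow 2))
  have hdi : IntervalIntegrable (den r al al' A) volume p q := by
    apply ContinuousOn.intervalIntegrable
    rwa [uIcc_of_le hpq.le]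
  have hd0 : ∀ t, 0 ≤ den r al al' A t := den_nonneg hr al al' A
  -- a good point
  obtain ⟨t0, ht0, hgood⟩ : ∃ t ∈ Icc p q, (1 - ‖al t‖ ^ 2) ^ 2 ≤ E / (r * (q - p)) := by
    by_contra hc
    push Not at hc
    have h1 : ∀ t ∈ Ioo p q, 0 < den r al al' A t - E / (q - p) := by
      intro t ht
      have h2 := hc t ⟨ht.1.le, ht.2.le⟩
      have h3 : E / (q - p) < r * (1 - ‖al t‖ ^ 2) ^ 2 := by
        have : E / (q - p) = r * (E / (r * (q - p))) := by
          have : q - p ≠ 0 := by linarith
          field_simp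
        rw [this]
        exact mul_lt_mul_of_pos_left h2 hr
      unfold den
      have := sq_nonneg (‖al' t - Complex.I * A t * al t‖)
      linarith
    have h4 := intervalIntegral.intervalIntegral_pos_of_pos_on
      (hdi.sub intervalIntegrable_const) h1 hpq
    rw [intervalIntegral.integral_sub hdi intervalIntegrable_const,
      intervalIntegral.integral_const, smul_eq_mul,
      mul_div_cancel₀ _ (by linarith : q - p ≠ 0)] at h4
    linarith
  -- the derivative of `HH`
  have hnd : ∀ t ∈ Icc p q, HasDerivAt (fun t => ‖al t‖ ^ 2)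
      (2 * (star (al t) * (al' t - Complex.I * A t * al t)).re) t := by
    intro t ht
    rw [re_cov]
    have h1 := hal t ht
    have h2 : HasDerivAt (fun t => Complex.normSq (al t)) (2 * (star (al t) * al' t).re) t := by
      have hre : HasDerivAt (fun t => (al t).re) (al' t).re t := by
        exact Complex.reCLM.hasFDerivAt.comp_hasDerivAt t h1
      have him : HasDerivAt (fun t => (al t).im) (al' t).im t := by
        exact Complex.imCLM.hasFDerivAt.comp_hasDerivAt t h1
      have h3 := (hre.fun_mul hre).fun_add (him.fun_mul him)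
      simp only [Complex.normSq_apply]
      refine h3.congr_deriv ?_
      simp [Complex.mul_re]
      ring
    simpa only [Complex.normSq_eq_norm_sq] using h2
  have hHd : ∀ t ∈ Icc p q, HasDerivAt (fun t => HH (‖al t‖ ^ 2))
      ((-2 * (1 - (‖al t‖ ^ 2) ^ 2) / (1 + (‖al t‖ ^ 2) ^ 2) ^ 2) *
        (2 * (star (al t) * (al' t - Complex.I * A t * al t)).re)) t := by
    intro t ht
    exact (HH_deriv (‖al t‖ ^ 2)).comp t (hnd t ht)
  have hHb : ∀ t, |((-2 * (1 - (‖al t‖ ^ 2) ^ 2) / (1 + (‖al t‖ ^ 2) ^ 2) ^ 2) *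
        (2 * (star (al t) * (al' t - Complex.I * A t * al t)).re))|
        ≤ (2 / √r) * den r al al' A t := by
    intro t
    rw [abs_mul]
    have h1 := abs_re_cov (al t) (al' t - Complex.I * A t * al t)
    have h2 := HH_deriv_bd (norm_nonneg (al t)) (rfl : ‖al t‖ ^ 2 = ‖al t‖ ^ 2)
    have h3 := amgm hr (1 - ‖al t‖ ^ 2) ‖al' t - Complex.I * A t * al t‖
    rw [abs_norm] at h3
    calc _ ≤ |-2 * (1 - (‖al t‖ ^ 2) ^ 2) / (1 + (‖al t‖ ^ 2) ^ 2) ^ 2| *
          (2 * ‖al t‖ * ‖al' t - Complex.I * A t * al t‖) :=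
            mul_le_mul_of_nonneg_left h1 (abs_nonneg _)
      _ = |-2 * (1 - (‖al t‖ ^ 2) ^ 2) / (1 + (‖al t‖ ^ 2) ^ 2) ^ 2| * (2 * ‖al t‖) *
          ‖al' t - Complex.I * A t * al t‖ := by ring
      _ ≤ 4 * |1 - ‖al t‖ ^ 2| * ‖al' t - Complex.I * A t * al t‖ :=
            mul_le_mul_of_nonneg_right h2 (norm_nonneg _)
      _ = 2 * (2 * |1 - ‖al t‖ ^ 2| * ‖al' t - Complex.I * A t * al t‖) := by ring
      _ ≤ 2 * (1 / √r * (‖al' t - Complex.I * A t * al t‖ ^ 2 + r * (1 - ‖al t‖ ^ 2) ^ 2)) := by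
            linarith
      _ = _ := by unfold den; ring
  have hHc : ContinuousOn (fun t => (-2 * (1 - (‖al t‖ ^ 2) ^ 2) / (1 + (‖al t‖ ^ 2) ^ 2) ^ 2) *
        (2 * (star (al t) * (al' t - Complex.I * A t * al t)).re)) (Icc p q) := by
    have hn2 : ContinuousOn (fun t => (‖al t‖ ^ 2) ^ 2) (Icc p q) := (hac.norm.pow 2).pow 2
    refine ContinuousOn.mul (ContinuousOn.div (continuousOn_const.mul
      (continuousOn_const.sub hn2)) ((continuousOn_const.add hn2).pow 2) ?_)
      (continuousOn_const.mul ?_)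
    · intro t _; positivity
    · exact Complex.continuous_re.comp_continuousOn
        ((continuous_star.comp_continuousOn hac).mul hNc)
  have hsmall : ∀ t ∈ Icc p q, HH (‖al t‖ ^ 2) ≤ 1 / 2 := by
    intro t ht
    have hsub : uIcc t0 t ⊆ Icc p q := by
      rcases le_total t0 t with h | h
      · rw [uIcc_of_le h]; exact Icc_subset_Icc ht0.1 ht.2
      · rw [uIcc_of_ge h]; exact Icc_subset_Icc ht.1 ht0.2
    have h1 := intervalIntegral.integral_eq_sub_of_hasDerivAt
      (a := t0) (b := t) (f := fun t => HH (‖al t‖ ^ 2)) (fun x hx => hHd x (hsub hx))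
      ((hHc.mono hsub).intervalIntegrable)
    have h2 := intervalIntegral.norm_integral_le_integral_norm_uIoc
      (μ := volume) (a := t0) (b := t)
      (f := fun t => (-2 * (1 - (‖al t‖ ^ 2) ^ 2) / (1 + (‖al t‖ ^ 2) ^ 2) ^ 2) *
        (2 * (star (al t) * (al' t - Complex.I * A t * al t)).re))
    rw [h1] at h2
    have hdi' : IntegrableOn (den r al al' A) (Ioc p q) := by
      rwa [intervalIntegrable_iff_integrableOn_Ioc_of_le hpq.le] at hdi
    have hsub' : uIoc t0 t ⊆ Ioc p q := by
      intro x hx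
      rw [uIoc, mem_Ioc] at hx
      refine ⟨lt_of_le_of_lt ?_ hx.1, hx.2.trans ?_⟩
      · exact le_min ht0.1 ht.1
      · exact max_le ht0.2 ht.2
    have h3 : ∫ x in uIoc t0 t, ‖(-2 * (1 - (‖al x‖ ^ 2) ^ 2) / (1 + (‖al x‖ ^ 2) ^ 2) ^ 2) *
        (2 * (star (al x) * (al' x - Complex.I * A x * al x)).re)‖
        ≤ ∫ x in Ioc p q, (2 / √r) * den r al al' A x := by
      have hi2 : IntegrableOn (fun x => (2 / √r) * den r al al' A x) (Ioc p q) :=
        hdi'.const_mul _
      calc _ ≤ ∫ x in uIoc t0 t, (2 / √r) * den r al al' A x := by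
            apply integral_mono_of_nonneg
            · exact Eventually.of_forall fun x => norm_nonneg _
            · exact hi2.mono_set hsub'
            · exact Eventually.of_forall fun x => hHb x
        _ ≤ _ := by
            apply setIntegral_mono_set hi2
            · exact Eventually.of_forall fun x => mul_nonneg (by positivity) (hd0 x)
            · exact hsub'.eventuallyLE
    rw [integral_const_mul, ← intervalIntegral.integral_of_le hpq.le] at h3
    have h4 : HH (‖al t‖ ^ 2) - HH (‖al t0‖ ^ 2) ≤ 2 / √r * E := by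
      calc _ ≤ ‖HH (‖al t‖ ^ 2) - HH (‖al t0‖ ^ 2)‖ := Real.le_norm_self _
        _ ≤ _ := h2
        _ ≤ _ := h3
        _ ≤ _ := mul_le_mul_of_nonneg_left hE (by positivity)
    have h5 := HH_le (‖al t0‖ ^ 2)
    have h6 : 2 / √r * E = 2 * E / √r := by ring
    linarith
  have hq : ∀ t ∈ Icc p q, 1 / 4 < ‖al t‖ ^ 2 := fun t ht =>
    quarter_of_HH (by positivity) (hsmall t ht)
  have hne : ∀ t ∈ Icc p q, al t ≠ 0 := by
    intro t ht h
    have := hq t ht
    rw [h] at this
    norm_num at this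
  refine ⟨∫ t in p..q, al' t / al t, exp_int_div hpq.le hal hal' hne,
    hne p (left_mem_Icc.2 hpq.le), ?_⟩
  have hgi : IntervalIntegrable (fun t => al' t / al t) volume p q := by
    apply ContinuousOn.intervalIntegrable
    rw [uIcc_of_le hpq.le]
    exact hal'.div hac hne
  have him : (∫ t in p..q, al' t / al t).im = ∫ t in p..q, (al' t / al t).im := by
    have := Complex.imCLM.intervalIntegral_comp_comm hgi
    simpa using this.symm
  rw [him]
  have hbi : IntervalIntegrable (fun t =>
      (star (al t) * (al' t - Complex.I * A t * al t)).im + A t) volume p q := by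
    apply ContinuousOn.intervalIntegrable
    rw [uIcc_of_le hpq.le]
    exact (Complex.continuous_im.comp_continuousOn
        ((continuous_star.comp_continuousOn hac).mul hNc)).add hA
  have hgi' : IntervalIntegrable (fun t => (al' t / al t).im) volume p q := by
    apply ContinuousOn.intervalIntegrable
    rw [uIcc_of_le hpq.le]
    exact Complex.continuous_im.comp_continuousOn (hal'.div hac hne)
  rw [← intervalIntegral.integral_sub hbi hgi']
  calc _ ≤ ∫ t in p..q, (1 / √r) * den r al al' A t := by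
        rw [← Real.norm_eq_abs]
        apply intervalIntegral.norm_integral_le_of_norm_le hpq.le
        · refine Eventually.of_forall fun t ht => ?_
          have ht' : t ∈ Icc p q := ⟨ht.1.le, ht.2⟩
          rw [im_cov _ _ _ (hne t ht'), Real.norm_eq_abs, abs_div, abs_mul,
            abs_of_nonneg (by positivity : 0 ≤ ‖al t‖ ^ 2), div_le_iff₀ (by
              have := hq t ht'; linarith)]
          have h1 := amgm hr (1 - ‖al t‖ ^ 2) ‖al' t - Complex.I * A t * al t‖
          rw [abs_norm] at h1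
          have h2 := Complex.abs_im_le_norm (star (al t) * (al' t - Complex.I * A t * al t))
          rw [norm_mul, norm_star] at h2
          have h3 : ‖al t‖ ≤ 2 * ‖al t‖ ^ 2 := by
            have h0 := hq t ht'
            have : 1 / 2 ≤ ‖al t‖ := by
              by_contra hc
              push Not at hc
              nlinarith [norm_nonneg (al t)]
            nlinarith
          have h4 : |‖al t‖ ^ 2 - 1| = |1 - ‖al t‖ ^ 2| := abs_sub_comm _ _
          rw [h4]
          have h5 : 0 ≤ |1 - ‖al t‖ ^ 2| := abs_nonneg _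
          have h6 : 0 ≤ ‖al' t - Complex.I * A t * al t‖ := norm_nonneg _
          calc _ ≤ (‖al t‖ * ‖al' t - Complex.I * A t * al t‖) * |1 - ‖al t‖ ^ 2| :=
                mul_le_mul_of_nonneg_right h2 h5
            _ = ‖al t‖ * (‖al' t - Complex.I * A t * al t‖ * |1 - ‖al t‖ ^ 2|) := by ring
            _ ≤ (2 * ‖al t‖ ^ 2) * (‖al' t - Complex.I * A t * al t‖ * |1 - ‖al t‖ ^ 2|) :=
                mul_le_mul_of_nonneg_right h3 (by positivity)
            _ = (2 * |1 - ‖al t‖ ^ 2| * ‖al' t - Complex.I * A t * al t‖) * ‖al t‖ ^ 2 := by ring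
            _ ≤ _ := mul_le_mul_of_nonneg_right h1 (by positivity)
            _ = _ := by unfold den; ring
        · exact hdi.const_mul _
    _ = (1 / √r) * ∫ t in p..q, den r al al' A t := intervalIntegral.integral_const_mul _ _
    _ ≤ (1 / √r) * E := mul_le_mul_of_nonneg_left hE (by positivity)
    _ = E / √r := by ring

end Vale.Agent.P247.H667
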