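import Vale.Agent.P247.H324.MG.WG5

/-!
# Splitting a multisection

`MS` : multisection (symmetric functions continuous, chain rule);
`sb` : sub-tuple; `MS.split` : a multisection splits along a continuous separating function.
-/

open MeasureTheory Set Metric Filter Topology
open scoped ContDiff ENNReal

noncomputable section

namespace Vale.Agent.P247.H667

open Vale.Agent.P247.H324

/-- multisection over `U`: symmetric functions are continuous and satisfy the chain rule -/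
structure MS (N : ℕ) (U : Set ℂ) (Y : ℂ → Fin N → ℂ) (D : ℂ → Fin N → ℂ →L[ℝ] ℂ) : Prop where
  cont : ∀ F : ℂ → ℂ, Continuous F → ContinuousOn (fun z => ∑ i, F (Y z i)) U
  chain : ∀ F : ℂ → ℂ, ContDiff ℝ ∞ F → WG U (fun z => ∑ i, F (Y z i))
    (fun z => ∑ i, (fderiv ℝ F (Y z i)).comp (D z i))

/-- sub-tuple -/
def sb {N : ℕ} {E : Type*} [Zero E] (n : ℕ) (I : Finset (Fin N)) (y : Fin N → E)
    (i : Fin n) : E :=
  if h : I.card = n then y (I.orderEmbOfFin h i) else 0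

section sb

variable {N n : ℕ} {E G : Type*} [Zero E] [Zero G] {I : Finset (Fin N)}

theorem sb_eq (h : I.card = n) (y : Fin N → E) (i : Fin n) :
    sb n I y i = y (I.orderEmbOfFin h i) := dif_pos h

theorem sum_sb {M : Type*} [AddCommMonoid M] (h : I.card = n) (y : Fin N → E) (d : Fin N → G)
    (F : E → G → M) : ∑ i : Fin n, F (sb n I y i) (sb n I d i) = ∑ i ∈ I, F (y i) (d i) := by
  simp only [sb_eq h]
  conv_rhs => rw [← Finset.map_orderEmbOfFin_univ I h]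
  rw [Finset.sum_map]
  rfl

theorem sum_sb' {M : Type*} [AddCommMonoid M] (h : I.card = n) (y : Fin N → E)
    (F : E → M) : ∑ i : Fin n, F (sb n I y i) = ∑ i ∈ I, F (y i) :=
  sum_sb (G := E) h y y (fun a _ => F a)

theorem map_sb (h : I.card = n) (y : Fin N → E) :
    (Finset.univ : Finset (Fin n)).val.map (sb n I y) = I.val.map y := by
  have h1 : sb n I y = fun i => y (I.orderEmbOfFin h i) := funext fun i => sb_eq h y i
  rw [h1]
  conv_rhs => rw [← Finset.map_orderEmbOfFin_univ I h]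
  rw [Finset.map_val, Multiset.map_map]
  rfl

/-- every entry of the sub-tuple comes from an index of the set, the same for all tuples -/
theorem sb_mem (h : I.card = n) (i : Fin n) : ∃ j ∈ I, ∀ (E' : Type) [Zero E']
    (y : Fin N → E'), sb n I y i = y j :=
  ⟨I.orderEmbOfFin h i, Finset.orderEmbOfFin_mem I h i, fun _ _ y => sb_eq h y i⟩

end sb

/-- if all symmetric functions converge, the entries are near the limit entries -/
theorem near_of_tendsto {T : Type*} {l : Filter T} {N : ℕ} {Y : T → Fin N → ℂ} {c : Fin N → ℂ}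
    (h : ∀ F : ℂ → ℂ, Continuous F → Tendsto (fun t => ∑ i, F (Y t i)) l (𝓝 (∑ i, F (c i))))
    {ε : ℝ} (hε : 0 < ε) : ∀ᶠ t in l, ∀ i, ∃ j, ‖Y t i - c j‖ < ε := by
  have h1 := h (fun y => ((∏ j, ‖y - c j‖ : ℝ) : ℂ)) (by fun_prop)
  have h2 : ∑ i, (((∏ j, ‖c i - c j‖ : ℝ) : ℂ)) = 0 := by
    refine Finset.sum_eq_zero fun i _ => ?_
    rw [Finset.prod_eq_zero (Finset.mem_univ i) (by rw [sub_self, norm_zero])]
    rfl
  rw [h2] at h1
  have h3 : Tendsto (fun t => ∑ i, ∏ j, ‖Y t i - c j‖) l (𝓝 0) := by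
    have h4 := (Complex.continuous_re.tendsto _).comp h1
    rw [Complex.zero_re] at h4
    refine h4.congr fun t => ?_
    simp only [Function.comp_apply, Complex.re_sum, Complex.ofReal_re]
  filter_upwards [h3.eventually (gt_mem_nhds (pow_pos hε N))] with t ht i
  by_contra hcon
  push Not at hcon
  have h5 : ε ^ N ≤ ∏ j, ‖Y t i - c j‖ := by
    calc ε ^ N = ∏ _j : Fin N, ε := by simp
      _ ≤ _ := Finset.prod_le_prod (fun _ _ => hε.le) fun j _ => hcon j
  have h6 : ∏ j, ‖Y t i - c j‖ ≤ ∑ i, ∏ j, ‖Y t i - c j‖ :=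
    Finset.single_le_sum (f := fun i => ∏ j, ‖Y t i - c j‖)
      (fun i _ => Finset.prod_nonneg fun j _ => norm_nonneg _) (Finset.mem_univ i)
  linarith

/-- smooth cut-off separating two finite sets -/
theorem exists_cut (A B : Finset ℂ) (hAB : ∀ a ∈ A, ∀ b ∈ B, a ≠ b) :
    ∃ κ : ℂ → ℝ, ∃ ρ > 0, ContDiff ℝ ∞ κ ∧ (∀ a ∈ A, ∀ y ∈ ball a ρ, κ y = 1) ∧
      ∀ b ∈ B, ∀ y ∈ ball b ρ, κ y = 0 := by
  obtain ⟨δ, hδ, hδ2⟩ : ∃ δ > 0, ∀ a ∈ A, ∀ b ∈ B, δ ≤ dist a b := by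
    rcases (A ×ˢ B).eq_empty_or_nonempty with he | hne
    · refine ⟨1, one_pos, fun a ha b hb => ?_⟩
      have : (a, b) ∈ A ×ˢ B := Finset.mem_product.2 ⟨ha, hb⟩
      rw [he] at this
      exact absurd this (Finset.notMem_empty _)
    · obtain ⟨p, hp, hp2⟩ := Finset.exists_min_image (A ×ˢ B) (fun p => dist p.1 p.2) hne
      rw [Finset.mem_product] at hp
      exact ⟨dist p.1 p.2, dist_pos.2 (hAB _ hp.1 _ hp.2), fun a ha b hb =>
        hp2 (a, b) (Finset.mem_product.2 ⟨ha, hb⟩)⟩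
  let f : (a : ℂ) → ContDiffBump a := fun a => ⟨δ / 4, δ / 2, by positivity, by linarith⟩
  refine ⟨fun y => 1 - ∏ a ∈ A, (1 - f a y), δ / 4, by positivity, ?_, ?_, ?_⟩
  · refine contDiff_const.sub (contDiff_prod fun a _ => contDiff_const.sub (f a).contDiff)
  · intro a ha y hy
    have h1 : f a y = 1 := (f a).one_of_mem_closedBall (ball_subset_closedBall hy)
    show 1 - ∏ a ∈ A, (1 - f a y) = 1
    rw [Finset.prod_eq_zero ha (by rw [h1, sub_self]), sub_zero]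
  · intro b hb y hy
    show 1 - ∏ a ∈ A, (1 - f a y) = 0
    rw [Finset.prod_eq_one, sub_self]
    intro a ha
    have h1 : f a y = 0 := by
      refine (f a).zero_of_le_dist ?_
      show δ / 2 ≤ dist y a
      have h2 := hδ2 a ha b hb
      have h3 := dist_triangle a y b
      rw [mem_ball] at hy
      rw [dist_comm a y] at h3
      linarith
    rw [h1, sub_zero]

variable {N : ℕ} {U : Set ℂ} {Y : ℂ → Fin N → ℂ} {D : ℂ → Fin N → ℂ →L[ℝ] ℂ} {θ : ℂ → ℂ → ℝ}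

namespace MS

theorem mono {V : Set ℂ} (h : MS N U Y D) (hV : V ⊆ U) : MS N V Y D :=
  ⟨fun F hF => (h.cont F hF).mono hV, fun F hF => (h.chain F hF).mono hV⟩

theorem near (h : MS N U Y D) {z0 : ℂ} (hz : z0 ∈ U) {ε : ℝ} (hε : 0 < ε) :
    ∀ᶠ z in 𝓝[U] z0, ∀ i, ∃ j, ‖Y z i - Y z0 j‖ < ε :=
  near_of_tendsto (fun F hF => h.cont F hF z0 hz) hε

/-- local cut-off functions adapted to a continuous separating function -/
theorem cut (hU : IsOpen U) (h : MS N U Y D)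
    (hθ : ContinuousOn (fun p : ℂ × ℂ => θ p.1 p.2) (U ×ˢ univ))
    (hne : ∀ z ∈ U, ∀ i, θ z (Y z i) ≠ 1) {z0 : ℂ} (hz0 : z0 ∈ U) :
    ∃ V, IsOpen V ∧ z0 ∈ V ∧ V ⊆ U ∧ ∃ κ : ℂ → ℝ, ContDiff ℝ ∞ κ ∧ ∀ z ∈ V, ∀ i,
      (θ z (Y z i) < 1 → κ =ᶠ[𝓝 (Y z i)] fun _ => 1) ∧
      (¬ θ z (Y z i) < 1 → κ =ᶠ[𝓝 (Y z i)] fun _ => 0) := by
  classical
  obtain ⟨κ, ρ, hρ, hκ, h1, h0⟩ := exists_cut
    ((Finset.univ.filter fun i => θ z0 (Y z0 i) < 1).image (Y z0))
    ((Finset.univ.filter fun i => ¬ θ z0 (Y z0 i) < 1).image (Y z0)) (by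
      intro a ha b hb
      rw [Finset.mem_image] at ha hb
      obtain ⟨i, hi, rfl⟩ := ha
      obtain ⟨j, hj, rfl⟩ := hb
      rw [Finset.mem_filter] at hi hj
      intro e
      rw [e] at hi
      exact hj.2 hi.2)
  -- near each `(z0, Y z0 j)` the sign of `θ - 1` is constant
  have hj : ∀ j, ∃ δ > 0, ∀ z ∈ ball z0 δ, ∀ y ∈ ball (Y z0 j) δ,
      (θ z0 (Y z0 j) < 1 ↔ θ z y < 1) := by
    intro j
    have hc : ContinuousAt (fun p : ℂ × ℂ => θ p.1 p.2) (z0, Y z0 j) :=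
      hθ.continuousAt ((hU.prod isOpen_univ).mem_nhds ⟨hz0, mem_univ _⟩)
    rcases lt_or_gt_of_ne (hne z0 hz0 j) with hlt | hgt
    · have he := hc.eventually (gt_mem_nhds hlt)
      obtain ⟨δ, hδ, hd⟩ := Metric.eventually_nhds_iff_ball.1 he
      refine ⟨δ, hδ, fun z hz y hy => ⟨fun _ => ?_, fun _ => hlt⟩⟩
      exact hd (z, y) (by rw [← ball_prod_same]; exact ⟨hz, hy⟩)
    · have he := hc.eventually (lt_mem_nhds hgt)
      obtain ⟨δ, hδ, hd⟩ := Metric.eventually_nhds_iff_ball.1 he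
      refine ⟨δ, hδ, fun z hz y hy => ⟨fun h' => absurd h' (not_lt.2 hgt.le), fun h' => ?_⟩⟩
      have := hd (z, y) (by rw [← ball_prod_same]; exact ⟨hz, hy⟩)
      exact absurd h' (not_lt.2 (le_of_lt this))
  choose δ hδ hd using hj
  obtain ⟨δ0, hδ0, hd0⟩ : ∃ δ0 > 0, ∀ j, δ0 ≤ δ j := by
    rcases isEmpty_or_nonempty (Fin N) with he | hne'
    · exact ⟨1, one_pos, fun j => (he.false j).elim⟩
    · obtain ⟨j0, -, hj0⟩ := Finset.exists_min_image Finset.univ δ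
        (Finset.univ_nonempty (α := Fin N))
      exact ⟨δ j0, hδ j0, fun j => hj0 j (Finset.mem_univ j)⟩
  have hn := h.near hz0 (lt_min hδ0 hρ)
  rw [hU.nhdsWithin_eq hz0] at hn
  obtain ⟨δ', hδ', hd'⟩ := Metric.eventually_nhds_iff_ball.1 hn
  refine ⟨ball z0 (min δ0 δ') ∩ U, isOpen_ball.inter hU,
    ⟨mem_ball_self (lt_min hδ0 hδ'), hz0⟩, inter_subset_right, κ, hκ, fun z hz i => ?_⟩
  have hz1 : z ∈ ball z0 δ0 := ball_subset_ball (min_le_left _ _) hz.1
  have hz2 : z ∈ ball z0 δ' := ball_subset_ball (min_le_right _ _) hz.1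
  obtain ⟨j, hj⟩ := hd' z hz2 i
  rw [← dist_eq_norm] at hj
  have hyj : Y z i ∈ ball (Y z0 j) (δ j) :=
    lt_of_lt_of_le hj ((min_le_left _ _).trans (hd0 j))
  have hyρ : Y z i ∈ ball (Y z0 j) ρ := lt_of_lt_of_le hj (min_le_right _ _)
  have hiff := hd j z (ball_subset_ball (hd0 j) hz1) (Y z i) hyj
  constructor
  · intro hlt
    filter_upwards [isOpen_ball.mem_nhds hyρ] with y hy
    exact h1 (Y z0 j) (Finset.mem_image.2 ⟨j, Finset.mem_filter.2
      ⟨Finset.mem_univ _, hiff.2 hlt⟩, rfl⟩) y hy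
  · intro hlt
    filter_upwards [isOpen_ball.mem_nhds hyρ] with y hy
    exact h0 (Y z0 j) (Finset.mem_image.2 ⟨j, Finset.mem_filter.2
      ⟨Finset.mem_univ _, fun h' => hlt (hiff.1 h')⟩, rfl⟩) y hy

/-- the indices of the first cluster -/
def cl (θ : ℂ → ℂ → ℝ) (Y : ℂ → Fin N → ℂ) (z : ℂ) : Finset (Fin N) :=
  Finset.univ.filter fun i => θ z (Y z i) < 1

theorem mem_cl {z : ℂ} {i : Fin N} : i ∈ cl θ Y z ↔ θ z (Y z i) < 1 := by
  rw [cl, Finset.mem_filter]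
  simp

/-- sums with the cut-off are sums over the cluster -/
theorem sum_cut {M : Type*} [AddCommMonoid M] {z : ℂ} (f g : Fin N → M)
    (h1 : ∀ i, θ z (Y z i) < 1 → f i = g i) (h0 : ∀ i, ¬ θ z (Y z i) < 1 → f i = 0) :
    ∑ i, f i = ∑ i ∈ cl θ Y z, g i := by
  rw [cl, Finset.sum_filter]
  refine Finset.sum_congr rfl fun i _ => ?_
  split_ifs with hi
  · exact h1 i hi
  · exact h0 i hi

theorem contOn_cl (hU : IsOpen U) (h : MS N U Y D)
    (hθ : ContinuousOn (fun p : ℂ × ℂ => θ p.1 p.2) (U ×ˢ univ))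
    (hne : ∀ z ∈ U, ∀ i, θ z (Y z i) ≠ 1) {F : ℂ → ℂ} (hF : Continuous F) :
    ContinuousOn (fun z => ∑ i ∈ cl θ Y z, F (Y z i)) U := by
  intro z0 hz0
  obtain ⟨V, hV, hzV, hVU, κ, hκ, hcut⟩ := cut hU h hθ hne hz0
  have hc := h.cont (fun y => (κ y : ℂ) * F y)
    ((Complex.continuous_ofReal.comp hκ.continuous).mul hF) z0 hz0
  have heq : (fun z => ∑ i ∈ cl θ Y z, F (Y z i)) =ᶠ[𝓝[U] z0]
      fun z => ∑ i, (κ (Y z i) : ℂ) * F (Y z i) := by
    filter_upwards [mem_nhdsWithin_of_mem_nhds (hV.mem_nhds hzV)] with z hz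
    symm
    refine sum_cut _ _ (fun i hi => ?_) fun i hi => ?_
    · rw [((hcut z hz i).1 hi).eq_of_nhds, Complex.ofReal_one, one_mul]
    · rw [((hcut z hz i).2 hi).eq_of_nhds, Complex.ofReal_zero, zero_mul]
  exact hc.congr_of_eventuallyEq heq (heq.self_of_nhdsWithin hz0)

theorem card_locConst (hU : IsOpen U) (h : MS N U Y D)
    (hθ : ContinuousOn (fun p : ℂ × ℂ => θ p.1 p.2) (U ×ˢ univ))
    (hne : ∀ z ∈ U, ∀ i, θ z (Y z i) ≠ 1) : ContinuousOn (fun z => (cl θ Y z).card) U := by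
  intro z0 hz0
  have hc := contOn_cl hU h hθ hne (continuous_const (y := (1 : ℂ))) z0 hz0
  have heq : (fun z => (cl θ Y z).card) =ᶠ[𝓝[U] z0] fun _ => (cl θ Y z0).card := by
    have h1 := Metric.tendsto_nhds.1 hc 1 one_pos
    filter_upwards [h1] with z hz
    simp only [Finset.sum_const, nsmul_eq_mul, mul_one] at hz
    rw [dist_eq_norm] at hz
    have h2 : (((cl θ Y z).card : ℂ) - ((cl θ Y z0).card : ℂ)) =
        (((cl θ Y z).card : ℤ) - ((cl θ Y z0).card : ℤ) : ℤ) := by push_cast; ring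
    rw [h2, Complex.norm_intCast] at hz
    have h3 : |(((cl θ Y z).card : ℤ) - ((cl θ Y z0).card : ℤ) : ℤ)| < 1 := by
      exact_mod_cast hz
    rw [Int.abs_lt_one_iff] at h3
    omega
  exact continuousWithinAt_const.congr_of_eventuallyEq heq rfl

theorem card_const (hU : IsOpen U) (hUc : IsPreconnected U) (h : MS N U Y D)
    (hθ : ContinuousOn (fun p : ℂ × ℂ => θ p.1 p.2) (U ×ˢ univ))
    (hne : ∀ z ∈ U, ∀ i, θ z (Y z i) ≠ 1) {z w : ℂ} (hz : z ∈ U) (hw : w ∈ U) :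
    (cl θ Y z).card = (cl θ Y w).card :=
  hUc.constant (card_locConst hU h hθ hne) hz hw

/-- a multisection splits along a continuous separating function -/
theorem split (hU : IsOpen U) (h : MS N U Y D)
    (hθ : ContinuousOn (fun p : ℂ × ℂ => θ p.1 p.2) (U ×ˢ univ))
    (hne : ∀ z ∈ U, ∀ i, θ z (Y z i) ≠ 1) {n : ℕ} (hn : ∀ z ∈ U, (cl θ Y z).card = n) :
    MS n U (fun z => sb n (cl θ Y z) (Y z)) (fun z => sb n (cl θ Y z) (D z)) where
  cont F hF := by
    refine (contOn_cl hU h hθ hne hF).congr fun z hz => ?_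
    exact sum_sb' (hn z hz) (Y z) F
  chain F hF := by
    refine WG.of_local hU fun z0 hz0 => ?_
    obtain ⟨V, hV, hzV, hVU, κ, hκ, hcut⟩ := cut hU h hθ hne hz0
    refine ⟨V, hV, hzV, ?_⟩
    have hκF : ContDiff ℝ ∞ fun y => (κ y : ℂ) * F y :=
      (Complex.ofRealCLM.contDiff.comp hκ).mul hF
    refine ((h.chain _ hκF).mono hVU).congr hV.measurableSet ?_ ?_
    · intro z hz
      show ∑ i, (κ (Y z i) : ℂ) * F (Y z i) = ∑ i, F (sb n (cl θ Y z) (Y z) i)
      rw [sum_sb' (hn z (hVU hz)) (Y z) F]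
      refine sum_cut _ _ (fun i hi => ?_) fun i hi => ?_
      · rw [((hcut z hz i).1 hi).eq_of_nhds, Complex.ofReal_one, one_mul]
      · rw [((hcut z hz i).2 hi).eq_of_nhds, Complex.ofReal_zero, zero_mul]
    · intro z hz
      show ∑ i, (fderiv ℝ (fun y => (κ y : ℂ) * F y) (Y z i)).comp (D z i) =
        ∑ i, (fderiv ℝ F (sb n (cl θ Y z) (Y z) i)).comp (sb n (cl θ Y z) (D z) i)
      rw [sum_sb (hn z (hVU hz)) (Y z) (D z) fun y d => (fderiv ℝ F y).comp d]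
      refine sum_cut _ _ (fun i hi => ?_) fun i hi => ?_
      · have e : (fun y => (κ y : ℂ) * F y) =ᶠ[𝓝 (Y z i)] F := by
          filter_upwards [(hcut z hz i).1 hi] with y hy
          rw [hy, Complex.ofReal_one, one_mul]
        rw [e.fderiv_eq]
      · have e : (fun y => (κ y : ℂ) * F y) =ᶠ[𝓝 (Y z i)] fun _ => 0 := by
          filter_upwards [(hcut z hz i).2 hi] with y hy
          rw [hy, Complex.ofReal_zero, zero_mul]
        rw [e.fderiv_eq, fderiv_fun_const]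
        simp

end MS

end Vale.Agent.P247.H667
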