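import Vale.Agent.P247.H899.Alg
import Vale.Agent.P247.H264.Kit

/-!
# Change of variables in a box
-/

open Set MeasureTheory Filter Topology Metric
open scoped ContDiff

noncomputable section

namespace Vale.Agent.P247.H667

open Vale.Agent.P247.H74 Vale.Agent.P247.H574 Vale.Agent.P247.H264 Vale.Agent.P247.H899

/-- identification of `ℝ⁴` and `ℂ × ℂ` -/
def n4 : R4 ≃L[ℝ] ℂ × ℂ :=
  LinearEquiv.toContinuousLinearEquiv
    { toFun := fun x => (⟨x 0, x 1⟩, ⟨x 2, x 3⟩)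
      invFun := fun p => ![p.1.re, p.1.im, p.2.re, p.2.im]
      map_add' := fun x y => rfl
      map_smul' := fun c x => by
        refine Prod.ext (Complex.ext ?_ ?_) (Complex.ext ?_ ?_) <;> simp
      left_inv := fun x => by
        funext i
        fin_cases i <;> rfl
      right_inv := fun p => rfl }

theorem n4_apply (x : R4) : n4 x = (⟨x 0, x 1⟩, ⟨x 2, x 3⟩) := rfl
theorem n4_symm_apply (p : ℂ × ℂ) : n4.symm p = ![p.1.re, p.1.im, p.2.re, p.2.im] := rfl

theorem vol_reProdIm {s t : Set ℝ} (hs : MeasurableSet s) (ht : MeasurableSet t) :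
    volume {z : ℂ | z.re ∈ s ∧ z.im ∈ t} = volume s * volume t := by
  have h := Complex.volume_preserving_equiv_real_prod.measure_preimage
    (hs.prod ht).nullMeasurableSet
  have h2 : Complex.measurableEquivRealProd ⁻¹' (s ×ˢ t) = {z : ℂ | z.re ∈ s ∧ z.im ∈ t} := by
    ext z
    simp [Complex.measurableEquivRealProd]
  rw [h2] at h
  rw [h, Measure.volume_eq_prod, Measure.prod_prod]

theorem mp_n4_symm : MeasurePreserving n4.symm volume volume := by
  refine ⟨n4.symm.continuous.measurable, ?_⟩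
  have h : (volume : Measure R4) = Measure.pi fun _ => volume := rfl
  rw [h]
  symm
  apply Measure.pi_eq
  intro s hs
  rw [Measure.map_apply n4.symm.continuous.measurable (MeasurableSet.univ_pi hs)]
  have h1 : (n4.symm ⁻¹' Set.pi univ s) =
      {z : ℂ | z.re ∈ s 0 ∧ z.im ∈ s 1} ×ˢ {z : ℂ | z.re ∈ s 2 ∧ z.im ∈ s 3} := by
    ext p
    simp only [mem_preimage, mem_univ_pi, n4_symm_apply, mem_prod, mem_ofPred_eq]
    constructor
    · intro h
      exact ⟨⟨h 0, h 1⟩, ⟨h 2, h 3⟩⟩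
    · rintro ⟨⟨h0, h1⟩, h2, h3⟩ i
      fin_cases i
      · exact h0
      · exact h1
      · exact h2
      · exact h3
  rw [h1, Measure.volume_eq_prod, Measure.prod_prod, vol_reProdIm (hs 0) (hs 1),
    vol_reProdIm (hs 2) (hs 3), Fin.prod_univ_four]
  ring

theorem mp_n4 : MeasurePreserving n4 volume volume := by
  have h := mp_n4_symm.symm (e := n4.toHomeomorph.toMeasurableEquiv.symm)
  exact h

/-- the determinant of four vectors -/
def dt4 (a b c d : R4) : ℝ := Matrix.det (Matrix.of ![a, b, c, d])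

theorem dt4_eq (a b c d : R4) : dt4 a b c d =
    (a 0 * b 1 - a 1 * b 0) * (c 2 * d 3 - c 3 * d 2)
    - (a 0 * b 2 - a 2 * b 0) * (c 1 * d 3 - c 3 * d 1)
    + (a 0 * b 3 - a 3 * b 0) * (c 1 * d 2 - c 2 * d 1)
    + (a 1 * b 2 - a 2 * b 1) * (c 0 * d 3 - c 3 * d 0)
    - (a 1 * b 3 - a 3 * b 1) * (c 0 * d 2 - c 2 * d 0)
    + (a 2 * b 3 - a 3 * b 2) * (c 0 * d 1 - c 1 * d 0) := by
  unfold dt4
  rw [Matrix.det_succ_row_zero]
  simp [Fin.sum_univ_succ, Matrix.det_fin_three, Fin.succAbove, Matrix.submatrix]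
  ring

theorem alt_exp {Φ : F2} (h : ∀ p, Φ p p = 0) (u v : R4) :
    Φ u v = Φ (e 0) (e 1) * (u 0 * v 1 - u 1 * v 0) + Φ (e 0) (e 2) * (u 0 * v 2 - u 2 * v 0)
      + Φ (e 0) (e 3) * (u 0 * v 3 - u 3 * v 0) + Φ (e 1) (e 2) * (u 1 * v 2 - u 2 * v 1)
      + Φ (e 1) (e 3) * (u 1 * v 3 - u 3 * v 1) + Φ (e 2) (e 3) * (u 2 * v 3 - u 3 * v 2) := by
  have hs : ∀ p q, Φ p q = - Φ q p := by
    intro p q
    have h1 := h (p + q)
    simp only [map_add, add_apply, h, zero_add, add_zero] at h1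
    linarith
  have vec : ∀ u : R4, u = u 0 • e 0 + u 1 • e 1 + u 2 • e 2 + u 3 • e 3 := by
    intro u
    funext i
    fin_cases i <;> simp [e]
  have h10 := hs (e 1) (e 0)
  have h20 := hs (e 2) (e 0)
  have h30 := hs (e 3) (e 0)
  have h21 := hs (e 2) (e 1)
  have h31 := hs (e 3) (e 1)
  have h32 := hs (e 3) (e 2)
  conv_lhs => rw [vec u, vec v]
  simp only [map_add, map_smul, add_apply, smul_apply, smul_eq_mul, h, h10, h20, h30, h21, h31,
    h32]
  ring

/-- naturality of the wedge product -/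
theorem w4_frame {Φ Ψ : F2} (hΦ : ∀ p, Φ p p = 0) (hΨ : ∀ p, Ψ p p = 0) (a b c d : R4) :
    Φ a b * Ψ c d - Φ a c * Ψ b d + Φ a d * Ψ b c + Φ b c * Ψ a d - Φ b d * Ψ a c + Φ c d * Ψ a b
      = dt4 a b c d * w4 (fun p q => Φ p q) (fun p q => Ψ p q) := by
  rw [dt4_eq]
  simp only [w4]
  rw [alt_exp hΦ a b, alt_exp hΦ a c, alt_exp hΦ a d, alt_exp hΦ b c, alt_exp hΦ b d,
    alt_exp hΦ c d, alt_exp hΨ a b, alt_exp hΨ a c, alt_exp hΨ a d, alt_exp hΨ b c,
    alt_exp hΨ b d, alt_exp hΨ c d]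
  generalize Φ (e 0) (e 1) = f01
  generalize Φ (e 0) (e 2) = f02
  generalize Φ (e 0) (e 3) = f03
  generalize Φ (e 1) (e 2) = f12
  generalize Φ (e 1) (e 3) = f13
  generalize Φ (e 2) (e 3) = f23
  generalize Ψ (e 0) (e 1) = g01
  generalize Ψ (e 0) (e 2) = g02
  generalize Ψ (e 0) (e 3) = g03
  generalize Ψ (e 1) (e 2) = g12
  generalize Ψ (e 1) (e 3) = g13
  generalize Ψ (e 2) (e 3) = g23
  ring

theorem det_eq_dt4 (L : R4 →L[ℝ] R4) : L.det = dt4 (L (e 0)) (L (e 1)) (L (e 2)) (L (e 3)) := by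
  have h1 : L.det = LinearMap.det (L : R4 →ₗ[ℝ] R4) := rfl
  rw [h1, ← LinearMap.det_toMatrix', ← Matrix.det_transpose]
  unfold dt4
  congr 1
  ext i j
  fin_cases i <;> rfl

variable {D : Data} (b : Box D)

/-- the Jacobian determinant of the box -/
def jb (p : ℂ × ℂ) : ℝ :=
  dt4 (fderiv ℝ b.Θ p (1, 0)) (fderiv ℝ b.Θ p (Complex.I, 0)) (fderiv ℝ b.Θ p (0, 1))
    (fderiv ℝ b.Θ p (0, Complex.I))

theorem n4_e0 : n4 (e 0) = (1, 0) := by
  rw [n4_apply]; refine Prod.ext (Complex.ext ?_ ?_) (Complex.ext ?_ ?_) <;> simp [e]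
theorem n4_e1 : n4 (e 1) = (Complex.I, 0) := by
  rw [n4_apply]; refine Prod.ext (Complex.ext ?_ ?_) (Complex.ext ?_ ?_) <;> simp [e]
theorem n4_e2 : n4 (e 2) = (0, 1) := by
  rw [n4_apply]; refine Prod.ext (Complex.ext ?_ ?_) (Complex.ext ?_ ?_) <;> simp [e]
theorem n4_e3 : n4 (e 3) = (0, Complex.I) := by
  rw [n4_apply]; refine Prod.ext (Complex.ext ?_ ?_) (Complex.ext ?_ ?_) <;> simp [e]

theorem jb_eq (p : ℂ × ℂ) :
    jb b p = ((fderiv ℝ b.Θ p).comp (n4 : R4 →L[ℝ] ℂ × ℂ)).det := by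
  rw [det_eq_dt4]
  simp only [ContinuousLinearMap.comp_apply, ContinuousLinearEquiv.coe_coe, n4_e0, n4_e1, n4_e2,
    n4_e3]
  rfl

theorem jb_ne {p : ℂ × ℂ} (hp : p ∈ PD 2) : jb b p ≠ 0 := by
  rw [jb_eq]
  have h : Function.Bijective ((fderiv ℝ b.Θ p).comp (n4 : R4 →L[ℝ] ℂ × ℂ)) :=
    (b.imm p hp).comp n4.bijective
  have h2 : IsUnit (LinearMap.det (((fderiv ℝ b.Θ p).comp (n4 : R4 →L[ℝ] ℂ × ℂ) :
      R4 →L[ℝ] R4) : R4 →ₗ[ℝ] R4)) := by
    rw [← LinearMap.isUnit_iff_isUnit_det, Module.End.isUnit_iff]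
    exact h
  exact h2.ne_zero

theorem contOn_fd (v : ℂ × ℂ) : ContinuousOn (fun p => fderiv ℝ b.Θ p v) (PD 2) := by
  have h := b.smooth.continuousOn_fderiv_of_isOpen (isOpen_PD 2) (by simp)
  exact h.clm_apply continuousOn_const

theorem dt4_cont {X : Type*} [TopologicalSpace X] {s : Set X} {A B C E : X → R4}
    (hA : ContinuousOn A s) (hB : ContinuousOn B s) (hC : ContinuousOn C s)
    (hE : ContinuousOn E s) : ContinuousOn (fun x => dt4 (A x) (B x) (C x) (E x)) s := by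
  have hA' : ∀ i, ContinuousOn (fun x => A x i) s := fun i => (continuous_apply i).comp_continuousOn hA
  have hB' : ∀ i, ContinuousOn (fun x => B x i) s := fun i => (continuous_apply i).comp_continuousOn hB
  have hC' : ∀ i, ContinuousOn (fun x => C x i) s := fun i => (continuous_apply i).comp_continuousOn hC
  have hE' : ∀ i, ContinuousOn (fun x => E x i) s := fun i => (continuous_apply i).comp_continuousOn hE
  simp only [dt4_eq]
  have h2 : ∀ i j, ContinuousOn (fun x => A x i * B x j - A x j * B x i) s := fun i j =>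
    ((hA' i).mul (hB' j)).sub ((hA' j).mul (hB' i))
  have h3 : ∀ i j, ContinuousOn (fun x => C x i * E x j - C x j * E x i) s := fun i j =>
    ((hC' i).mul (hE' j)).sub ((hC' j).mul (hE' i))
  exact ((((((h2 0 1).mul (h3 2 3)).sub ((h2 0 2).mul (h3 1 3))).add ((h2 0 3).mul (h3 1 2))).add
    ((h2 1 2).mul (h3 0 3))).sub ((h2 1 3).mul (h3 0 2))).add ((h2 2 3).mul (h3 0 1))

theorem jb_cont : ContinuousOn (jb b) (PD 2) :=
  dt4_cont (contOn_fd b _) (contOn_fd b _) (contOn_fd b _) (contOn_fd b _)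

/-- change of variables -/
theorem cov {S : Set (ℂ × ℂ)} (hS : MeasurableSet S) (hS2 : S ⊆ PD 2) (h : R4 → ℝ) :
    ∫ x in b.Θ '' S, h x = ∫ p in S, |jb b p| * h (b.Θ p) := by
  have h1 := integral_image_eq_integral_abs_det_fderiv_smul (volume : Measure R4)
    (s := n4 ⁻¹' S) (f := fun x => b.Θ (n4 x))
    (f' := fun x => (fderiv ℝ b.Θ (n4 x)).comp (n4 : R4 →L[ℝ] ℂ × ℂ))
    (n4.continuous.measurable hS)
    (fun x hx => by
      have h2 : HasFDerivAt b.Θ (fderiv ℝ b.Θ (n4 x)) (n4 x) :=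
        ((contDiffAt_Θ b (hS2 hx)).differentiableAt (by simp)).hasFDerivAt
      exact (h2.comp x n4.hasFDerivAt).hasFDerivWithinAt)
    (fun x hx y hy hxy => n4.injective (injOn b (hS2 hx) (hS2 hy) hxy)) h
  have h2 : (fun x => b.Θ (n4 x)) '' (n4 ⁻¹' S) = b.Θ '' S := by
    rw [show (fun x => b.Θ (n4 x)) = b.Θ ∘ n4 from rfl, image_comp,
      image_preimage_eq _ n4.surjective]
  rw [h2] at h1
  rw [h1]
  have h3 := mp_n4.setIntegral_preimage_emb n4.toHomeomorph.measurableEmbedding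
    (fun p => |jb b p| * h (b.Θ p)) S
  rw [← h3]
  refine setIntegral_congr_fun (n4.continuous.measurable hS) fun x _ => ?_
  simp only [jb_eq, smul_eq_mul]

end Vale.Agent.P247.H667
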