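import Vale.Agent.P247.H667.Bx
import Vale.Agent.P247.H667.Rect

/-!
# The vortex hypothesis in a box
-/

open Set MeasureTheory Filter Topology Metric
open scoped ContDiff

noncomputable section

namespace Vale.Agent.P247.H667

open Vale.Agent.P247.H74 Vale.Agent.P247.H574 Vale.Agent.P247.H264 Vale.Agent.P247.H899

theorem Sq_eq (c : ℂ) (s : ℝ) : Sq c s = H514.CSq c s := by
  ext y; simp [Sq, H514.CSq]

theorem null_re (a : ℝ) : volume {z : ℂ | z.re = a} = 0 := by
  have h := vol_reProdIm (s := {a}) (t := univ) (measurableSet_singleton a) MeasurableSet.univ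
  simpa using h

theorem null_im (a : ℝ) : volume {z : ℂ | z.im = a} = 0 := by
  have h := vol_reProdIm (s := univ) (t := {a}) MeasurableSet.univ (measurableSet_singleton a)
  simpa using h

theorem int_Sq_eq (c : ℂ) (s : ℝ) (f : ℂ → ℝ) :
    ∫ y in H514.Sq c s, f y = ∫ y in Sq c s, f y := by
  rw [Sq_eq]
  apply setIntegral_congr_set
  have h1 : H514.Sq c s ⊆ H514.CSq c s := H514.Sq_subset_CSq c s
  refine h1.eventuallyLE.antisymm ?_
  rw [ae_le_set]
  refine measure_mono_null (t := ({z : ℂ | z.re = c.re + s} ∪ {z : ℂ | z.re = c.re - s}) ∪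
    ({z : ℂ | z.im = c.im + s} ∪ {z : ℂ | z.im = c.im - s})) ?_ ?_
  · rintro z ⟨⟨hz1, hz2⟩, hz3⟩
    by_contra hcon
    apply hz3
    simp only [mem_union, mem_ofPred_eq, not_or] at hcon
    obtain ⟨⟨h1, h2⟩, h3, h4⟩ := hcon
    simp only [Complex.sub_re, Complex.sub_im, abs_le] at hz1 hz2
    constructor
    · simp only [Complex.sub_re, abs_lt]
      refine ⟨lt_of_le_of_ne hz1.1 fun h => h2 (by linarith), lt_of_le_of_ne hz1.2 fun h => h1 (by linarith)⟩
    · simp only [Complex.sub_im, abs_lt]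
      refine ⟨lt_of_le_of_ne hz2.1 fun h => h4 (by linarith), lt_of_le_of_ne hz2.2 fun h => h3 (by linarith)⟩
  · simp [null_re, null_im]

theorem bd_eq {e : ℂ → ℝ} {c : ℂ} {s : ℝ} (hs : 0 ≤ s) (he : ContinuousOn e (Sq c s)) :
    bdI e c s = H514.bdE e c s := by
  have hlo : (-s) ∈ Icc (-s) s := ⟨le_rfl, by linarith⟩
  have hhi : s ∈ Icc (-s) s := ⟨by linarith, le_rfl⟩
  have hss : -s ≤ s := by linarith
  have hieh : ∀ y ∈ Icc (-s) s, IntervalIntegrable (fun t => e (pt c t y)) volume (-s) s := by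
    intro y hy
    apply ContinuousOn.intervalIntegrable
    rw [uIcc_of_le hss]
    exact he.comp (cont_pt_h c y).continuousOn fun t ht => pt_mem ht hy
  have hiev : ∀ x ∈ Icc (-s) s, IntervalIntegrable (fun t => e (pt c x t)) volume (-s) s := by
    intro x hx
    apply ContinuousOn.intervalIntegrable
    rw [uIcc_of_le hss]
    exact he.comp (cont_pt_v c x).continuousOn fun t ht => pt_mem hx ht
  unfold bdI H514.bdE
  rw [intervalIntegral.integral_add (((hieh _ hlo).add (hieh _ hhi)).add (hiev _ hlo)) (hiev _ hhi),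
    intervalIntegral.integral_add ((hieh _ hlo).add (hieh _ hhi)) (hiev _ hlo),
    intervalIntegral.integral_add (hieh _ hlo) (hieh _ hhi)]
  have e1 : ∀ t : ℝ, pt c t s = c + (t + s * Complex.I) := fun t => by unfold pt; ring
  have e2 : ∀ t : ℝ, pt c t (-s) = c + (t - s * Complex.I) := fun t => by
    unfold pt; push_cast; ring
  have e3 : ∀ t : ℝ, pt c s t = c + (s + t * Complex.I) := fun t => by unfold pt; ring
  have e4 : ∀ t : ℝ, pt c (-s) t = c + (-s + t * Complex.I) := fun t => by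
    unfold pt; push_cast; ring
  simp only [e1, e2, e3, e4]
  ring

variable {D : Data} (H : Higgs D) (b : Box D)

theorem bdE_nonneg {e : ℂ → ℝ} (h : ∀ y, 0 ≤ e y) (c : ℂ) {s : ℝ} (hs : 0 ≤ s) :
    0 ≤ H514.bdE e c s := by
  unfold H514.bdE
  have h1 : ∀ g : ℝ → ℝ, (∀ t, 0 ≤ g t) → 0 ≤ ∫ t in (-s)..s, g t := fun g hg =>
    intervalIntegral.integral_nonneg (by linarith) fun t _ => hg t
  have a1 := h1 (fun t => e (c + (t + s * Complex.I))) fun t => h _
  have a2 := h1 (fun t => e (c + (t - s * Complex.I))) fun t => h _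
  have a3 := h1 (fun t => e (c + (s + t * Complex.I))) fun t => h _
  have a4 := h1 (fun t => e (c + (-s + t * Complex.I))) fun t => h _
  linarith

/-- the vortex lemma in the box -/
theorem vortex_box {B : ℝ} (hB : ∀ p ∈ CPD, ‖fderiv ℝ b.Θ p‖ ≤ B) (hB1 : 1 ≤ B) {n : ℕ} {z : ℂ}
    (hz : z ∈ ball (0 : ℂ) 1) {c : ℂ} {s : ℝ} (hs : 0 < s) (hc : H514.CSq c s ⊆ ball 0 1) {M : ℝ}
    (hM : H514.bdE (fun y => 16 * B ^ 2 * en (H.r n) (H.a n) (H.α n) (b.Θ (z, y))) c s ≤ M)
    (hsm : M / (H.r n * (2 * s)) + 2 * M / √(H.r n) ≤ 1 / 2) :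
    ∃ k : ℤ, |(∫ y in H514.Sq c s, JB H b n (z, y) (0, 1) (0, Complex.I)) - 2 * Real.pi * k|
      ≤ 4 * M / √(H.r n) := by
  rw [← Sq_eq] at hc
  have hm1 : ∀ y ∈ Sq c s, (z, y) ∈ PD 1 := fun y hy => ⟨hz, hc hy⟩
  have hmC : ∀ y ∈ Sq c s, (z, y) ∈ CPD := fun y hy => PD1_sub (hm1 y hy)
  have hm2 : ∀ y ∈ Sq c s, (z, y) ∈ PD 2 := fun y hy => CPD_sub (hmC y hy)
  have hcz : Continuous (fun y : ℂ => (z, y)) := by fun_prop
  have hzd : ∀ y : ℂ, HasFDerivAt (fun y : ℂ => (z, y)) (ContinuousLinearMap.inr ℝ ℂ ℂ) y := by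
    intro y
    have : HasFDerivAt (fun y : ℂ => (z, y)) ((0 : ℂ →L[ℝ] ℂ).prod (ContinuousLinearMap.id ℝ ℂ)) y :=
      (hasFDerivAt_const z y).prodMk (hasFDerivAt_id y)
    exact this
  have hmaps : MapsTo (fun y : ℂ => (z, y)) (Sq c s) (PD 2) := hm2
  -- derivative of the section
  have hald : ∀ y ∈ Sq c s, HasFDerivAt (fun y => alB H b n (z, y))
      ((fderiv ℝ (alB H b n) (z, y)).comp (ContinuousLinearMap.inr ℝ ℂ ℂ)) y := by
    intro y hy
    have h1 : HasFDerivAt (alB H b n) (fderiv ℝ (alB H b n) (z, y)) (z, y) :=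
      (((alB_smooth H b n).contDiffAt ((isOpen_PD 2).mem_nhds (hm2 y hy))).differentiableAt
        (by simp)).hasFDerivAt
    exact h1.comp y (hzd y)
  have hbe : ∀ y ∈ Sq c s, ∀ v : ℂ × ℂ, HasFDerivAt (fun y => be H b n (z, y) v)
      (((fderiv ℝ (be H b n) (z, y)).flip v).comp (ContinuousLinearMap.inr ℝ ℂ ℂ)) y := by
    intro y hy v
    have h1 : HasFDerivAt (be H b n) (fderiv ℝ (be H b n) (z, y)) (z, y) :=
      (((be_smooth H b n).contDiffAt ((isOpen_PD 2).mem_nhds (hm2 y hy))).differentiableAt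
        (by simp)).hasFDerivAt
    have h2 := (h1.clm_apply (hasFDerivAt_const v (z, y)))
    have h3 : HasFDerivAt (fun p => be H b n p v) ((fderiv ℝ (be H b n) (z, y)).flip v) (z, y) := by
      refine h2.congr_fderiv ?_
      ext w <;> simp
    exact h3.comp y (hzd y)
  have hbc : ContinuousOn (fun y : ℂ => fderiv ℝ (be H b n) (z, y)) (Sq c s) :=
    (dbe_smooth H b n).continuousOn.comp hcz.continuousOn hmaps
  have hdc : ∀ v : ℂ × ℂ, ContinuousOn (fun y : ℂ =>
      ((fderiv ℝ (be H b n) (z, y)).flip v).comp (ContinuousLinearMap.inr ℝ ℂ ℂ)) (Sq c s) := by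
    intro v
    have h1 : ContinuousOn (fun y : ℂ => (fderiv ℝ (be H b n) (z, y)).flip v) (Sq c s) := by
      have h2 : ContinuousOn (fun y : ℂ => (fderiv ℝ (be H b n) (z, y)).flip) (Sq c s) :=
        (ContinuousLinearMap.flipₗᵢ ℝ (ℂ × ℂ) (ℂ × ℂ) ℝ).continuous.comp_continuousOn hbc
      exact h2.clm_apply continuousOn_const
    exact h1.clm_comp continuousOn_const
  have hen : ContinuousOn (fun y : ℂ => 16 * B ^ 2 * en (H.r n) (H.a n) (H.α n) (b.Θ (z, y)))
      (Sq c s) := by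
    refine continuousOn_const.mul ((en_cont H n).comp_continuousOn ?_)
    exact b.smooth.continuousOn.comp hcz.continuousOn hmaps
  have hdata : SqData c s (H.r n) (fun y => alB H b n (z, y))
      (fun y => (fderiv ℝ (alB H b n) (z, y)).comp (ContinuousLinearMap.inr ℝ ℂ ℂ))
      (fun y => (aB H b n (z, y)).comp (ContinuousLinearMap.inr ℝ ℂ ℂ))
      (fun y => 16 * B ^ 2 * en (H.r n) (H.a n) (H.α n) (b.Θ (z, y))) := by
    have hle : ∀ y, 4 * B ^ 2 * en (H.r n) (H.a n) (H.α n) (b.Θ (z, y)) ≤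
        16 * B ^ 2 * en (H.r n) (H.a n) (H.α n) (b.Θ (z, y)) := fun y => by
      have := mul_nonneg (sq_nonneg B) (en_nonneg H n (b.Θ (z, y)))
      nlinarith
    refine ⟨hald, ?_, ?_, hen, ?_, ?_⟩
    · have h1 : ContinuousOn (fun y : ℂ => fderiv ℝ (alB H b n) (z, y)) (Sq c s) :=
        ((alB_smooth H b n).continuousOn_fderiv_of_isOpen (isOpen_PD 2) (by simp)).comp
          hcz.continuousOn hmaps
      exact h1.clm_comp continuousOn_const
    · have h1 : ContinuousOn (fun y : ℂ => aB H b n (z, y)) (Sq c s) :=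
        (aB_smooth H b n).continuousOn.comp hcz.continuousOn hmaps
      exact h1.clm_comp continuousOn_const
    · intro y hy
      exact (nabB_le H b hB hB1 (hmC y hy) norm_pair_1).trans (hle y)
    · intro y hy
      exact (nabB_le H b hB hB1 (hmC y hy) norm_pair_I).trans (hle y)
  have key := vortex_sq hs (H.r_pos n) hdata (g1' := fun y =>
      ((fderiv ℝ (be H b n) (z, y)).flip (0, 1)).comp (ContinuousLinearMap.inr ℝ ℂ ℂ))
    (g2' := fun y =>
      ((fderiv ℝ (be H b n) (z, y)).flip (0, Complex.I)).comp (ContinuousLinearMap.inr ℝ ℂ ℂ))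
    (fun y hy => by
      have h1 := hbe y hy (0, 1)
      refine h1.congr_of_eventuallyEq (Eventually.of_forall fun y' => ?_)
      exact (bf_apply (aB H b n) (alB H b n) (z, y') (0, 1)).symm)
    (fun y hy => by
      have h1 := hbe y hy (0, Complex.I)
      refine h1.congr_of_eventuallyEq (Eventually.of_forall fun y' => ?_)
      exact (bf_apply (aB H b n) (alB H b n) (z, y') (0, Complex.I)).symm)
    (hdc _) (hdc _) (M := M) (by rw [bd_eq hs.le hen]; exact hM) hsm
  obtain ⟨k, hk⟩ := key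
  refine ⟨k, ?_⟩
  rw [int_Sq_eq]
  exact hk

end Vale.Agent.P247.H667
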